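import Vale.Agent.P106.U.H683.Same

/-!
# P106 / U / H683 : two points of the same cell (helper683)

* consequences of `C.cell k b x = C.cell k b y` : closeness of the rays (`nr_cell`), of `Zs`, of `w` (`w_cell`),
  of the nominal functional.
* `slR` : the slope at the base velocity, with the TRUE own slope; `cV_Fr`, `slR_near`.
-/

set_option autoImplicit false

namespace Vale.Agent.P106.U.H683

open Vale.Agent.P127 Vale.Agent.P127.Stk Vale.Agent.P106.U.Cell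
open Vale.Agent.P127.U.CellD (q2 rd rd_le lt_rd rd_err rd_mono q2_pos q2_le q2_add q2_mul_pow div_pow_eq
  fl1_fl1)

variable {Ω τ : Type} {C : Pth Ω τ} {K : ℝ} {k i j b b' m : ℕ} {x y : Ω}

/-! ### letters -/

lemma T_mono (hij : i ≤ j) (h : C.T j x = C.T j y) : C.T i x = C.T i y := by
  induction j, hij using Nat.le_induction with
  | base => exact h
  | succ n _ ih => exact ih (C.hT n x y h)

lemma tv_T (i : ℕ) (x : Ω) : C.tv i (C.T i x) = C.s i x := by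
  unfold Pth.tv Pth.s rd
  rw [C.htm]

lemma s_T (h : C.T i x = C.T i y) : C.s i x = C.s i y := by
  rw [← tv_T, ← tv_T, h]

lemma F_ga (i : ℕ) (x : Ω) : (C.F i x).ga = C.ga i (C.T i x) := rfl
lemma F_ka (i : ℕ) (x : Ω) : (C.F i x).ka = C.ka i (C.T i x) := rfl
lemma F_al (i : ℕ) (x : Ω) : (C.F i x).al = C.al i (C.T i x) := rfl

/-- the nominal functional is a function of the letter, the digits of `v` and of the slope -/
lemma Fr_eq (hT : C.T i x = C.T i y) (hv : fl1 b (C.l x).v = fl1 b (C.l y).v)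
    (hs : fl1 m (C.sl i b x + C.o 4) = fl1 m (C.sl i b y + C.o 4)) : C.Fr i b m x = C.Fr i b m y := by
  have h1 : rd (C.bs i b) (C.l x).v = rd (C.bs i b) (C.l y).v := by
    unfold rd
    rw [fl1_fl1 (show C.bs i b ≤ b by unfold Pth.bs; omega) hv]
  have h2 : C.ro 4 m (C.sl i b x) = C.ro 4 m (C.sl i b y) := by
    unfold Pth.ro rd
    rw [hs]
  ext
  · show C.ga i (C.T i x) = C.ga i (C.T i y)
    rw [hT]
  · show C.ro 4 m (C.sl i b x) - C.ka i (C.T i x) * rd (C.bs i b) (C.l x).v =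
      C.ro 4 m (C.sl i b y) - C.ka i (C.T i y) * rd (C.bs i b) (C.l y).v
    rw [hT, h1, h2]
  · show C.ka i (C.T i x) = C.ka i (C.T i y)
    rw [hT]
  · show C.al i (C.T i x) = C.al i (C.T i y)
    rw [hT]

/-! ### the own slope -/

/-- the slope at the base velocity with the TRUE own slope -/
noncomputable def slR (C : Pth Ω τ) (i b : ℕ) (ω : Ω) : ℝ :=
  C.p ω * (C.F i ω).cN (C.l ω) (C.s i ω) -
    (C.F i ω).ka * ((C.l ω).v - rd (C.bs i b) (C.l ω).v) - (C.F i ω).al * (C.l ω).X (C.s i ω)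

lemma Fr_cN (ω : Ω) (l : Ray) (s : ℝ) : (C.Fr i b m ω).cN l s = (C.F i ω).cN l s := rfl

lemma ro_err (n : Fin 7) (m : ℕ) (z : ℝ) : |C.ro n m z - z| ≤ q2 m := by
  unfold Pth.ro
  have := rd_err m (z + C.o n)
  rwa [show rd m (z + C.o n) - C.o n - z = rd m (z + C.o n) - (z + C.o n) by ring]

lemma sl_eq (ω : Ω) : C.sl i b ω = rd (C.rf i) (C.p ω) * (C.F i ω).cN (C.l ω) (C.s i ω) -
    (C.F i ω).ka * ((C.l ω).v - rd (C.bs i b) (C.l ω).v) - (C.F i ω).al * (C.l ω).X (C.s i ω) := by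
  have h : (C.F i ω).ph = rd (C.rf i) (C.p ω) * (C.F i ω).cN (C.l ω) (C.s i ω) -
      (C.F i ω).ka * (C.l ω).v - (C.F i ω).al * (C.l ω).X (C.s i ω) := by
    show rd (C.rf i) (C.p ω) * (C.ga i (C.T i ω) - C.ka i (C.T i ω) * (C.l ω).w -
      C.al i (C.T i ω) * (C.l ω).N (C.tv i (C.T i ω))) - C.ka i (C.T i ω) * (C.l ω).v -
      C.al i (C.T i ω) * (C.l ω).X (C.tv i (C.T i ω)) = _
    rw [tv_T]
    rfl
  unfold Pth.sl
  rw [h]
  ring

lemma cV_Fr (ω : Ω) : (C.Fr i b m ω).cV (C.l ω) (C.s i ω) =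
    C.p ω * (C.F i ω).cN (C.l ω) (C.s i ω) - (slR C i b ω - C.ro 4 m (C.sl i b ω)) := by
  show C.ro 4 m (C.sl i b ω) - (C.F i ω).ka * rd (C.bs i b) (C.l ω).v + (C.F i ω).ka * (C.l ω).v +
    (C.F i ω).al * (C.l ω).X (C.s i ω) = _
  unfold slR
  ring

lemma cN_pos (hok : C.Ok K x) : 0 < (C.F i x).cN (C.l x) (C.s i x) := by
  have h1 := hok.n1 i
  have h2 := hok.n2 i
  by_contra hcon
  push Not at hcon
  rcases le_total 0 K with h | h
  · nlinarith
  · have := (abs_nonneg _).trans (hok.k1 i)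
    nlinarith

lemma K_one (hok : C.Ok K x) : 1 ≤ K := by
  have h1 := hok.n1 0
  have h2 := hok.n2 0
  have h3 := cN_pos (i := 0) hok
  nlinarith [(abs_nonneg _).trans (hok.k1 0)]

lemma cN_abs (hok : C.Ok K x) : |(C.F i x).cN (C.l x) (C.s i x)| ≤ K := by
  rw [abs_of_pos (cN_pos hok)]
  exact hok.n2 i

lemma slR_near (hok : C.Ok K x) : Bd K 1 1 (C.rf i) (slR C i b x - C.sl i b x) := by
  have h1 : Bd K 1 0 (C.rf i) (C.p x - rd (C.rf i) (C.p x)) := (Bd.mk0 (rd_err _ _)).symm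
  have h2 := h1.mul (Bd.of_le (cN_abs (i := i) hok))
  refine (h2.mono (K_one hok) (by omega) (by omega) (by omega)).congr ?_
  rw [sl_eq]
  unfold slR
  ring

/-- the residual slope of the nominal functional `Fr` -/
noncomputable def rs (C : Pth Ω τ) (i b m : ℕ) (ω : Ω) : ℝ := slR C i b ω - C.ro 4 m (C.sl i b ω)

lemma rs_bd (hok : C.Ok K x) (hm : m ≤ C.rf i) : Bd K 2 1 m (rs C i b m x) := by
  have hK := K_one hok
  have h1 : Bd K 1 0 m (C.sl i b x - C.ro 4 m (C.sl i b x)) := (Bd.mk0 (ro_err 4 m _)).symm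
  have h2 := ((slR_near (i := i) (b := b) hok).mono (c' := 1) (e' := 1) (n' := m) hK le_rfl le_rfl
    hm).add (h1.mono (c' := 1) (e' := 1) (n' := m) hK le_rfl (by omega) le_rfl)
  refine h2.congr ?_
  unfold rs
  ring

/-- the residual slope -/
noncomputable def res (C : Pth Ω τ) (i b m : ℕ) (ω : Ω) : ℝ := slR C i b ω - C.ro 4 m (slR C i b ω)

lemma res_bd (C : Pth Ω τ) (K : ℝ) (i b m : ℕ) (x : Ω) : Bd K 1 0 m (res C i b m x) :=
  (Bd.mk0 (ro_err 4 m _)).symm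

/-- the nominal functional, slope with `m` digits of `slR` -/
noncomputable def Fn (C : Pth Ω τ) (i b m : ℕ) (ω : Ω) : Fu :=
  { C.F i ω with ph := C.ro 4 m (slR C i b ω) - (C.F i ω).ka * rd (C.bs i b) (C.l ω).v }

/-- the nominal functional is a function of the letter, the digits of `v` and of the slope -/
lemma Fn_eq (hT : C.T i x = C.T i y) (hv : fl1 b (C.l x).v = fl1 b (C.l y).v)
    (hs : fl1 m (slR C i b x + C.o 4) = fl1 m (slR C i b y + C.o 4)) :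
    Fn C i b m x = Fn C i b m y := by
  have h1 : rd (C.bs i b) (C.l x).v = rd (C.bs i b) (C.l y).v := by
    unfold rd
    rw [fl1_fl1 (show C.bs i b ≤ b by unfold Pth.bs; omega) hv]
  have h2 : C.ro 4 m (slR C i b x) = C.ro 4 m (slR C i b y) := by
    unfold Pth.ro rd
    rw [hs]
  ext
  · show C.ga i (C.T i x) = C.ga i (C.T i y)
    rw [hT]
  · show C.ro 4 m (slR C i b x) - C.ka i (C.T i x) * rd (C.bs i b) (C.l x).v =
      C.ro 4 m (slR C i b y) - C.ka i (C.T i y) * rd (C.bs i b) (C.l y).v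
    rw [hT, h1, h2]
  · show C.ka i (C.T i x) = C.ka i (C.T i y)
    rw [hT]
  · show C.al i (C.T i x) = C.al i (C.T i y)
    rw [hT]

lemma cV_Fn (ω : Ω) : (Fn C i b m ω).cV (C.l ω) (C.s i ω) =
    C.p ω * (C.F i ω).cN (C.l ω) (C.s i ω) - res C i b m ω := by
  show C.ro 4 m (slR C i b ω) - (C.F i ω).ka * rd (C.bs i b) (C.l ω).v + (C.F i ω).ka * (C.l ω).v +
    (C.F i ω).al * (C.l ω).X (C.s i ω) = _
  unfold res
  have : slR C i b ω = C.p ω * (C.F i ω).cN (C.l ω) (C.s i ω) -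
    (C.F i ω).ka * ((C.l ω).v - rd (C.bs i b) (C.l ω).v) -
    (C.F i ω).al * (C.l ω).X (C.s i ω) := rfl
  linear_combination this

lemma cVn_bd (hok : C.Ok K x) (hmu : 2 * C.μ ≤ m) :
    Bd K 2 1 (2 * C.μ) ((Fn C i b m x).cV (C.l x) (C.s i x)) := by
  have hK := K_one hok
  rw [cV_Fn]
  have h1 : Bd K 1 1 (2 * C.μ) (C.p x * (C.F i x).cN (C.l x) (C.s i x)) :=
    ((Bd.mk0 hok.p1).mul (Bd.of_le (cN_abs (i := i) hok))).mono hK (by omega) (by omega) (by omega)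
  exact h1.sub ((res_bd C K i b m x).mono (c' := 1) (e' := 1) (n' := 2 * C.μ) hK le_rfl (by omega)
    hmu)

lemma cV_bd (hok : C.Ok K x) (hm : m ≤ C.rf i) (hmu : 2 * C.μ ≤ m) :
    Bd K 3 1 (2 * C.μ) ((C.Fr i b m x).cV (C.l x) (C.s i x)) := by
  have hK := K_one hok
  rw [cV_Fr]
  have h1 : Bd K 1 1 (2 * C.μ) (C.p x * (C.F i x).cN (C.l x) (C.s i x)) :=
    ((Bd.mk0 hok.p1).mul (Bd.of_le (cN_abs (i := i) hok))).mono hK (by omega) (by omega) (by omega)
  exact h1.sub ((rs_bd (b := b) hok hm).mono (c' := 2) (e' := 1) (n' := 2 * C.μ) hK le_rfl le_rfl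
    hmu)

/-! ### the same cell -/

lemma cell_T (h : C.cell k b x = C.cell k b y) : C.T k x = C.T k y := (Prod.mk.inj h).1

lemma cell_v (h : C.cell k b x = C.cell k b y) : fl1 b (C.l x).v = fl1 b (C.l y).v :=
  (Prod.mk.inj (Prod.mk.inj h).2).1

lemma cell_fl (h : C.cell k b x = C.cell k b y) (n : Fin 7) :
    fl1 (C.lv k b n) (C.va k b x n + C.o n) = fl1 (C.lv k b n) (C.va k b y n + C.o n) :=
  congrFun (Prod.mk.inj (Prod.mk.inj h).2).2 n

lemma cell_va (h : C.cell k b x = C.cell k b y) (n : Fin 7) :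
    |C.va k b x n - C.va k b y n| ≤ q2 (C.lv k b n) := by
  have := near_fl1 (cell_fl h n)
  rwa [add_sub_add_right_eq_sub] at this

lemma cell_rv (h : C.cell k b x = C.cell k b y) (hm : m ≤ b) :
    rd m (C.l x).v = rd m (C.l y).v := rd_congr hm (cell_v h)

lemma cell_rw (h : C.cell k b x = C.cell k b y) :
    C.ro 1 (b - C.μ) (C.l x).w = C.ro 1 (b - C.μ) (C.l y).w := by
  have h1 : fl1 (b - C.μ) ((C.l x).w + C.o 1) = fl1 (b - C.μ) ((C.l y).w + C.o 1) := cell_fl h 1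
  unfold Pth.ro rd
  rw [h1]

/-- difference of the null coordinates -/
lemma dz_Zs (s : ℝ) (hv : rd b (C.l x).v = rd b (C.l y).v)
    (hw : C.ro 1 (b - C.μ) (C.l x).w = C.ro 1 (b - C.μ) (C.l y).w) :
    (C.l x).dz (C.l y) s = C.Zs b s y - C.Zs b s x -
      ((C.l x).v - rd b (C.l x).v) * ((C.l y).X s - (C.l x).X s) -
      ((C.l x).w - C.ro 1 (b - C.μ) (C.l x).w) * ((C.l y).N s - (C.l x).N s) := by
  unfold Pth.Zs Ray.dz
  rw [← hv, ← hw]
  ring

/-- two points of the same cell are close -/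
lemma nr_cell (hK : 1 ≤ K) (h : C.cell k b x = C.cell k b y) (hb : 8 * C.μ ≤ b) :
    Nr K 3 (C.a k) b C.μ (C.l x) (C.l y) (C.s k x) := by
  have hs : C.s k x = C.s k y := s_T (cell_T h)
  have h0 : |(C.l x).X (C.s k x) - (C.l y).X (C.s k y)| ≤ q2 (C.a k + b - C.μ) := cell_va h 0
  have h1 : |(C.l x).w - (C.l y).w| ≤ q2 (b - C.μ) := cell_va h 1
  have h2 : |(C.l x).N (C.s k x) - (C.l y).N (C.s k y)| ≤ q2 (C.a k + b - C.μ) := cell_va h 2
  have h3 : |C.Zs b (C.s k x) x - C.Zs b (C.s k y) y| ≤ q2 (C.a k + 2 * b - 3 * C.μ) := cell_va h 3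
  have h4 := near_fl1 (cell_v h)
  rw [← hs] at h0 h2 h3
  have b0 : Bd K 1 0 (C.a k + b - C.μ) ((C.l y).X (C.s k x) - (C.l x).X (C.s k x)) :=
    (Bd.mk0 h0).symm
  have b1 : Bd K 1 0 (b - C.μ) ((C.l y).w - (C.l x).w) := (Bd.mk0 h1).symm
  have b2 : Bd K 1 0 (C.a k + b - C.μ) ((C.l y).N (C.s k x) - (C.l x).N (C.s k x)) :=
    (Bd.mk0 h2).symm
  have b3 : Bd K 1 0 (C.a k + 2 * b - 3 * C.μ) (C.Zs b (C.s k x) y - C.Zs b (C.s k x) x) :=
    (Bd.mk0 h3).symm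
  have b4 : Bd K 1 0 b ((C.l y).v - (C.l x).v) := (Bd.mk0 h4).symm
  have b5 : Bd K 1 0 b ((C.l x).v - rd b (C.l x).v) := (Bd.mk0 (rd_err _ _)).symm
  have b6 : Bd K 1 0 (b - C.μ) ((C.l x).w - C.ro 1 (b - C.μ) (C.l x).w) :=
    (Bd.mk0 (ro_err 1 _ _)).symm
  refine ⟨b0.mono hK (by omega) le_rfl le_rfl, b2.mono hK (by omega) le_rfl le_rfl, b4, b1, ?_⟩
  rw [dz_Zs _ (cell_rv h le_rfl) (cell_rw h)]
  have t1 := (b5.mul b0).mono (c' := 1) (e' := 0) (n' := C.a k + 2 * b - 3 * C.μ) hK (by omega)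
    (by omega) (by omega)
  have t2 := (b6.mul b2).mono (c' := 1) (e' := 0) (n' := C.a k + 2 * b - 3 * C.μ) hK (by omega)
    (by omega) (by omega)
  exact (b3.sub t1).sub t2

/-- in one cell, `w` is known to more digits (small own slope) -/
lemma w_cell (hokx : C.Ok K x) (h : C.cell k b x = C.cell k b y) (hb : 8 * C.μ ≤ b)
    (hR : 8 * C.μ ≤ C.R k b) : Bd K 16 2 (b + 2 * C.μ) ((C.l y).w - (C.l x).w) := by
  have hK := K_one hokx
  have hn := nr_cell hK h hb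
  have hT := cell_T h
  have hs : C.s k x = C.s k y := s_T hT
  have hmr : C.R k b - 3 * C.μ ≤ C.rf k := by
    have := C.hkf k
    unfold Pth.R Pth.bs
    omega
  have hF : C.Fr k b (C.R k b - 3 * C.μ) x = C.Fr k b (C.R k b - 3 * C.μ) y :=
    Fr_eq hT (cell_v h) (cell_fl h 4)
  have h5 : |(C.Fr k b (C.R k b - 3 * C.μ) x).gd (C.l x) (C.s k x) -
      (C.Fr k b (C.R k b - 3 * C.μ) y).gd (C.l y) (C.s k y)| ≤ q2 (C.R k b + b - 5 * C.μ) :=
    cell_va h 5
  rw [← hF, ← hs] at h5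
  set F := C.Fr k b (C.R k b - 3 * C.μ) x with hFdef
  have b5 : Bd K 1 0 (C.R k b + b - 5 * C.μ) (F.gd (C.l y) (C.s k x) - F.gd (C.l x) (C.s k x)) :=
    (Bd.mk0 h5).symm
  have e0 := Fu.gd_sub F (C.l x) (C.l y) (C.s k x)
  have hcV := cV_bd (b := b) hokx hmr (by omega)
  have t1 : Bd K 3 1 (b + 2 * C.μ) (F.cV (C.l x) (C.s k x) * ((C.l y).v - (C.l x).v)) :=
    (hcV.mul hn.v).mono hK (by omega) (by omega) (by omega)
  have hka : Bd K 1 1 0 F.ka := Bd.of_le (hokx.k1 k)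
  have hal : Bd K 1 1 0 (F.al * q2 (C.a k)) := Bd.of_le (by
    rw [abs_mul, abs_of_pos (q2_pos _)]
    exact hokx.a1 k)
  have hv := (hn.v.mul hn.v).mono (c' := 1) (e' := 0) (n' := b + 2 * C.μ) hK (by omega) (by omega)
    (by omega)
  have hw := (hn.w.mul hn.w).mono (c' := 1) (e' := 0) (n' := b + 2 * C.μ) hK (by omega) (by omega)
    (by omega)
  have t2 : Bd K 2 1 (b + 2 * C.μ) (F.ka * (((C.l y).v - (C.l x).v) * ((C.l y).v - (C.l x).v) +
      ((C.l y).w - (C.l x).w) * ((C.l y).w - (C.l x).w))) :=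
    (hka.mul (hv.add hw)).mono hK (by omega) (by omega) (by omega)
  have x1 := (hn.X.mul hn.v).mono (c' := 3) (e' := 0) (n' := C.a k + (2 * b - 3 * C.μ)) hK
    (by omega) (by omega) (by omega)
  have x2 := (hn.N.mul hn.w).mono (c' := 3) (e' := 0) (n' := C.a k + (2 * b - 3 * C.μ)) hK
    (by omega) (by omega) (by omega)
  have x3 := hn.z.mono (c' := 3) (e' := 0) (n' := C.a k + (2 * b - 3 * C.μ)) hK
    (by omega) (by omega) (by omega)
  have t3 := (hal.mulA ((x1.add x2).sub x3)).mono (c' := 9) (e' := 1) (n' := b + 2 * C.μ) hK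
    (by omega) (by omega) (by omega)
  have t4 := b5.mono (c' := 1) (e' := 1) (n' := b + 2 * C.μ) hK (by omega) (by omega) (by omega)
  have t5 := ((t4.add t1).add t2.half).add t3
  have hcN := cN_pos (i := k) hokx
  have hinv : Bd K 1 1 0 (1 / F.cN (C.l x) (C.s k x)) := Bd.of_le (by
    have h1 := hokx.n1 k
    have h2 : 0 < F.cN (C.l x) (C.s k x) := hcN
    rw [abs_of_pos (by positivity), div_le_iff₀ h2]
    exact h1)
  refine ((hinv.mul t5).mono hK (by omega) (by omega) (by omega)).congr ?_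
  have h2 : 0 < F.cN (C.l x) (C.s k x) := hcN
  rw [div_mul_eq_mul_div, one_mul, div_eq_iff h2.ne']
  linear_combination e0

end Vale.Agent.P106.U.H683
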