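import Vale.Agent.P106.U.MIC.Stage
import Vale.Agent.P106.U.H495.RowV
import Vale.Agent.P106.U.H786.SC

/-!
# P106 / U / H683 : literal definitions of the row `RowL 2` (helper683)

`s` = the situation at a scale (679's `MIC.St`).

* `KrS`, `Dd s`, `bq s`, `Pu s Sw`, `yx s Kr k` : distance of the late step, 785's data in the deep phi regime, cap, pure levels,
  record index of the late step.
* `I1V`, `I2V` : informations of an admissible pair `(j, k)` (495's `WAt`), 0 otherwise.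
* `colL` : collisions of the step `j`.
* `cA2`, `c02` : constants of the error.
-/

set_option autoImplicit false

namespace Vale.Agent.P106.U.H683.L2

open Finset Vale.Agent.P127 Vale.Agent.P127.Stk
open Vale.Agent.P106.U.MIC
open Vale.Agent.P106.U.S5 (Cst Thr Gv)
open Vale.Agent.P106.U.H785.Mtr (Mtd)
open Vale.Agent.P106.U.H833 (lx I1N I2N)
open Vale.Agent.P106.U.H118 (CS)
open Vale.Agent.P106.U.H931 (XN)
open Vale.Agent.P106.U.H495 (WAt)

/-- distance of the late step from the end of the window, in time levels -/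
noncomputable def KrS (x J : ℕ) : ℕ := (J + 1) * MuS x + 1

section

variable {η : ℝ} {x : ℕ} {σ : Cst} {ε : ℝ} {ρ : Thr} {g : Gv} {m B h : ℕ} (s : St η x σ ε ρ g m B h)

/-- 785's data, deep phi regime -/
noncomputable def Dd : Mtd s.Ω (s.π × ℤ × ℤ) := S3.mt0 s.R s.F (μS x m) s.o s.o'

/-- the cap -/
def bq : ℕ := s.R.m * s.R.b1

/-- pure levels of kind 2 -/
def Pu (Sw : Finset ℕ) (z : ℕ) : Prop := z ∉ Sw ∧ s.kd z = 2

/-- record index of the late step of a window which ends at `k` -/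
noncomputable def yx (Kr k : ℕ) : ℕ := s.f (lx s.N s.a Kr k)

open Classical in
/-- first information of an admissible pair -/
noncomputable def I1V (Sw : Finset ℕ) (L1 L2 Lk Kr j k : ℕ) : ℝ :=
  if WAt s.N s.a (Pu s Sw) L1 L2 Lk Kr j k then
    I1N s.R.Q ((Dd s).fz (s.f j + 1) (s.f j + 1)) (bq s) (2 * μS x m) (s.f j) (yx s Kr k) else 0

open Classical in
/-- second information of an admissible pair -/
noncomputable def I2V (Sw : Finset ℕ) (L1 L2 Lk Kr j k : ℕ) : ℝ :=
  if WAt s.N s.a (Pu s Sw) L1 L2 Lk Kr j k then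
    I2N s.R.Q ((Dd s).fz (s.f j + 1) (s.f j + 1)) (bq s) s.bV (s.f j) (yx s Kr k) else 0

/-- the exceptional steps -/
noncomputable def Xe : Finset ℕ := XN x s.N s.a s.r s.E

open Classical in
/-- collisions of the step `j` -/
noncomputable def colL (Sw : Finset ℕ) (L1 L2 Lk Kr j : ℕ) : ℝ :=
  if j ∈ CS x s.N s.gd s.a s.r 0 s.N ∧ j ∉ Xe s ∧ ∃ k, WAt s.N s.a (Pu s Sw) L1 L2 Lk Kr j k then
    H786.SC.cc2 s.R s.F (μS x m) s.o s.o' (MIC.gS x m) (bq s) (s.f j + 1) else 0

theorem I1V_nonneg (Sw : Finset ℕ) (L1 L2 Lk Kr j k : ℕ) : 0 ≤ I1V s Sw L1 L2 Lk Kr j k := by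
  unfold I1V I1N
  split_ifs
  · exact mi_nonneg _ _ _ _
  · exact le_rfl

theorem I2V_nonneg (Sw : Finset ℕ) (L1 L2 Lk Kr j k : ℕ) : 0 ≤ I2V s Sw L1 L2 Lk Kr j k := by
  unfold I2V I2N
  split_ifs
  · exact mi_nonneg _ _ _ _
  · exact le_rfl

theorem colL_nonneg (Sw : Finset ℕ) (L1 L2 Lk Kr j : ℕ) : 0 ≤ colL s Sw L1 L2 Lk Kr j := by
  unfold colL H786.SC.cc2
  split_ifs
  · exact add_nonneg (add_nonneg (Vale.Agent.P127.U.Mic.colp_nonneg _ _ _) (Vale.Agent.P127.U.Mic.colp_nonneg _ _ _))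
      (Vale.Agent.P127.U.Mic.colp_nonneg _ _ _)
  · exact le_rfl

end

end Vale.Agent.P106.U.H683.L2
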