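import Vale.Agent.P106.U.H683.FraA
import Vale.Agent.P106.U.H785.MtrOk
import Vale.Agent.P106.U.H958.Mfz
import Vale.Agent.P106.U.H300.N2
import Vale.Agent.P106.U.H364.N4
import Vale.Agent.P106.U.H84.Ju
import Vale.Agent.P106.U.H833.Comp

/-!
# P106 / U / H683 : frames and letters of the young windows (helper683)

Over 785's cells `mtr` (data `Mtd`) and 958's frozen paths `mfz D j` (frame of the letter `lt j`).  All constants depend on `K`
only.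

* `hc_lt_mtr` (C1) : `H(lt i | mtr k b) ≤ cL K`, `i ≤ k`, `pf i` a function of `pf k`.
* `hc_A_fr` (C2) : `H((mfz D j).A j b i | (mfz D (j+1)).A j b i, lt j, lt (j+1), td i) ≤ cF K` in the deep phi regime.
* `hc_lt_A` (C3) : `H(lt j | (mfz D (j+1)).A (j+1) b i, lt (j+1), td i) ≤ cL K`.
* `hc_mtr` (C4) : `H(mtr i b | mtr k b) ≤ cM K`, `i ≤ k`.
* `Ap D b i j` : position in the own frame and its letter; `hA_Ap`, `hs_Ap`, `ju_Ap` : chain, step, junction in the form of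
  `H495.psi_seq`.
-/

set_option autoImplicit false

namespace Vale.Agent.P106.U.H683.FzA

open Finset Vale.Agent.P127 Vale.Agent.P127.Stk
open Vale.Agent.P127.U.CellD (q2 rd Nb q2_pos q2_le q2_add q2_mul_pow fl1_fl1 rd_sub rd_err)
open Vale.Agent.P106.U.Cell Vale.Agent.P106.U.H84
open Vale.Agent.P106.U.H785.Mtr
open Vale.Agent.P106.U.H958 (mfz HyM mfz_Ok mfz_a mfz_rf mfz_rk mfz_s mfz_ga mfz_ka mfz_al mfz_cN cN0 cN0_near mfz_T_iff
  mfz_cell_iff tdM)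

variable {Ω π : Type} {D : Mtd Ω π} {K : ℝ} {I : Set ℕ} {i j k b : ℕ} {ω ω' : Ω}

/-! ### the letter of an earlier step -/

/-- two points with the same letter of the step `j`, the same prefix of the step `i` -/
structure Sp (D : Mtd Ω π) (K : ℝ) (I : Set ℕ) (i j : ℕ) (ω ω' : Ω) : Prop where
  K1 : 1 ≤ K
  hi : i ∈ I
  hj : j ∈ I
  ij : i ≤ j
  h : D.Hy K I ω
  h' : D.Hy K I ω'
  pf : D.pf i ω = D.pf i ω'
  lt : D.lt j ω = D.lt j ω'
  N : |(D.l ω').N (D.s i ω) - (D.l ω).N (D.s i ω)| ≤ 2 * q2 (D.a i)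

namespace Sp

lemma rj (S : Sp D K I i j ω ω') : q2 (D.rr j) ≤ q2 (D.rr i) := Mtd.rr_mono D S.ij

lemma rk (S : Sp D K I i j ω ω') : K * q2 (D.rk i) ≤ K * q2 (D.rr i) :=
  mul_le_mul_of_nonneg_left (Mtd.rr_le D i) (by have := S.K1; linarith)

lemma g (S : Sp D K I i j ω ω') : D.g i ω' = D.g i ω := by
  unfold Mtd.g
  rw [S.pf]

lemma tj (S : Sp D K I i j ω ω') : fl1 (D.a j) (D.t ω) = fl1 (D.a j) (D.t ω') :=
  congrArg (fun x : Lt π => x.1) S.lt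

lemma kj (S : Sp D K I i j ω ω') : D.kN j ω = D.kN j ω' :=
  congrArg (fun x : Lt π => x.2.2.1) S.lt

lemma uj (S : Sp D K I i j ω ω') : D.uN j ω = D.uN j ω' :=
  congrArg (fun x : Lt π => x.2.2.2.1) S.lt

lemma nj (S : Sp D K I i j ω ω') : D.nN j ω = D.nN j ω' :=
  congrArg (fun x : Lt π => x.2.2.2.2) S.lt

lemma ti (S : Sp D K I i j ω ω') : fl1 (D.a i) (D.t ω) = fl1 (D.a i) (D.t ω') :=
  fl1_fl1 (D.ha S.ij) S.tj

lemma s_of {n : ℕ} (h : fl1 (D.a n) (D.t ω) = fl1 (D.a n) (D.t ω')) : D.s n ω' = D.s n ω := by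
  unfold Mtd.s rd
  rw [h]

lemma off_near {n : ℕ} {x y o : ℝ} (h : fl1 n (x + o) = fl1 n (y + o)) : |y - x| ≤ q2 n := by
  have := fl1_close h.symm
  rwa [add_sub_add_right_eq_sub] at this

/-- kappa -/
lemma kappa (S : Sp D K I i j ω ω') : |D.κ i ω' - D.κ i ω| ≤ 3 * K * q2 (D.rr i) := by
  have e1 := S.h.ka i S.hi j S.hj S.ij
  have e2 := S.h'.ka i S.hi j S.hj S.ij
  rw [s_of S.tj, s_of S.ti, S.g] at e2
  have e3 : |D.κ j ω' - D.κ j ω| ≤ q2 (D.rr j) := off_near S.kj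
  have e4 := S.rj
  have e5 := S.rk
  have K1 := S.K1
  have q := q2_pos (D.rr i)
  rw [abs_le] at e1 e2 e3 ⊢
  have : q2 (D.rr i) ≤ K * q2 (D.rr i) := by nlinarith
  constructor <;> linarith [e1.1, e1.2, e2.1, e2.2, e3.1, e3.2]

/-- gamma -/
lemma gamma (S : Sp D K I i j ω ω') (hn : D.nN i ω = D.nN i ω') :
    |D.u i ω' - D.u i ω| ≤ 19 * K * q2 (D.rr i) := by
  have K1 := S.K1
  have K0 : 0 < K := by linarith
  have hr := S.rk
  set r := q2 (D.rk i) with hrd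
  have r0 : 0 < r := q2_pos _
  set σ := D.s j ω - D.s i ω with hσ
  have hs : |σ| ≤ q2 (D.a i) := rd_sub (D.ha S.ij) (D.t ω)
  have sj := s_of S.tj
  have si := s_of S.ti
  have hNi : D.Nr i ω' = D.Nr i ω := by unfold Mtd.Nr; rw [hn]
  have hNj : D.Nr j ω' = D.Nr j ω := by unfold Mtd.Nr; rw [S.nj]
  have id : ∀ x : Ω, D.s j x = D.s j ω → D.s i x = D.s i ω →
      D.u i x - D.u j x = (D.κ i x - D.κ j x - σ * D.g i x) * (D.l x).w +
        (D.g i x - D.al i x) * σ * (D.l x).w + (D.al i x - D.al j x) * ((D.l x).N (D.s j x) - D.Nr j x) +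
        D.al i x * (D.Nr j x - D.Nr i x) := by
    intro x h1 h2
    unfold Mtd.u
    have : (D.l x).N (D.s i x) = (D.l x).N (D.s j x) - σ * (D.l x).w := by
      rw [h1, h2, hσ]
      unfold Ray.N
      ring
    rw [this]
    ring
  have E1 := id ω rfl rfl
  have E2 := id ω' sj si
  have A1 : ∀ x : Ω, D.Hy K I x → D.s j x = D.s j ω → D.s i x = D.s i ω →
      |(D.κ i x - D.κ j x - σ * D.g i x) * (D.l x).w| ≤ 2 * K * r := by
    intro x hx h1 h2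
    have t := hx.ka i S.hi j S.hj S.ij
    rw [h1, h2] at t
    rw [abs_mul]
    calc _ ≤ K * r * 2 := mul_le_mul t hx.w1 (abs_nonneg _) (by positivity)
      _ = _ := by ring
  have A2 : ∀ x : Ω, D.Hy K I x → |(D.g i x - D.al i x) * σ * (D.l x).w| ≤ 2 * K * r := by
    intro x hx
    have t := hx.ap i S.hi
    rw [abs_mul, abs_mul, abs_sub_comm]
    have t2 : |D.al i x - D.g i x| * |σ| ≤ K * r := (mul_le_mul_of_nonneg_left hs (abs_nonneg _)).trans t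
    calc _ ≤ K * r * 2 := mul_le_mul t2 hx.w1 (abs_nonneg _) (by positivity)
      _ = _ := by ring
  have A3 : ∀ x : Ω, D.Hy K I x → |(D.al i x - D.al j x) * ((D.l x).N (D.s j x) - D.Nr j x)| ≤ K * r := by
    intro x hx
    have t := hx.aa i S.hi j S.hj S.ij
    rw [abs_mul, abs_sub_comm (D.al i x)]
    exact (mul_le_mul_of_nonneg_left (Mtd.Nr_near D j x) (abs_nonneg _)).trans t
  have A4 : |(D.al i ω' - D.al i ω) * (D.Nr j ω - D.Nr i ω)| ≤ 8 * K * r := by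
    have t1 := S.h.ap i S.hi
    have t2 := S.h'.ap i S.hi
    rw [S.g] at t2
    have t3 : |D.al i ω' - D.al i ω| * q2 (D.a i) ≤ 2 * K * r := by
      have e : D.al i ω' - D.al i ω = (D.al i ω' - D.g i ω) - (D.al i ω - D.g i ω) := by ring
      rw [e]
      have := mul_le_mul_of_nonneg_right (abs_sub (D.al i ω' - D.g i ω) (D.al i ω - D.g i ω)) (q2_pos (D.a i)).le
      linarith
    have t4 : |D.Nr j ω - D.Nr i ω| ≤ 4 * q2 (D.a i) := by
      have n1 := Mtd.Nr_near D j ω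
      have n2 := Mtd.Nr_near D i ω
      have n3 : q2 (D.a j) ≤ q2 (D.a i) := q2_le (D.ha S.ij)
      have n4 : (D.l ω).N (D.s i ω) = (D.l ω).N (D.s j ω) - σ * (D.l ω).w := by
        rw [hσ]
        unfold Ray.N
        ring
      have n5 : |σ * (D.l ω).w| ≤ 2 * q2 (D.a i) := by
        rw [abs_mul, mul_comm 2]
        exact mul_le_mul hs S.h.w1 (abs_nonneg _) (q2_pos _).le
      rw [n4] at n2
      rw [abs_le] at n1 n2 n5 ⊢
      constructor <;> linarith [n1.1, n1.2, n2.1, n2.2, n5.1, n5.2]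
    rw [abs_mul]
    calc _ ≤ |D.al i ω' - D.al i ω| * (4 * q2 (D.a i)) := mul_le_mul_of_nonneg_left t4 (abs_nonneg _)
      _ = 4 * (|D.al i ω' - D.al i ω| * q2 (D.a i)) := by ring
      _ ≤ 4 * (2 * K * r) := by linarith
      _ = _ := by ring
  have B1 := A1 ω S.h rfl rfl
  have B1' := A1 ω' S.h' sj si
  have B2 := A2 ω S.h
  have B2' := A2 ω' S.h'
  have B3 := A3 ω S.h
  have B3' := A3 ω' S.h'
  have e5 : |D.u j ω' - D.u j ω| ≤ q2 (D.rr j) := off_near S.uj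
  have e6 := S.rj
  have q := q2_pos (D.rr i)
  have e7 : q2 (D.rr i) ≤ K * q2 (D.rr i) := by nlinarith
  rw [hNi, hNj] at E2
  have E4 : D.al i ω' * (D.Nr j ω - D.Nr i ω) = D.al i ω * (D.Nr j ω - D.Nr i ω) +
      (D.al i ω' - D.al i ω) * (D.Nr j ω - D.Nr i ω) := by ring
  rw [hNj] at B3'
  rw [abs_le] at *
  constructor <;> linarith [B1.1, B1.2, B1'.1, B1'.2, B2.1, B2.2, B2'.1, B2'.2, B3.1, B3.2, B3'.1, B3'.2, A4.1, A4.2,
    e5.1, e5.2]

end Sp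

lemma q2_le_one' (n : ℕ) : q2 n ≤ 1 := Pth.q2_le_one n

/-- the constant of the letters -/
noncomputable def cL (K : ℝ) : ℝ := 3 * Real.log ((2 * ⌈19 * K⌉₊ + 3 : ℕ) : ℝ)

section ent

variable [Fintype Ω] {S : Type*}

lemma hc_int (P : Law Ω) (f : Ω → ℤ) (Y : Ω → S) {m : ℕ}
    (h : ∀ ω ω', 0 < P.w ω → 0 < P.w ω' → Y ω = Y ω' → |f ω' - f ω| ≤ m + 1) :
    hc P f Y ≤ Real.log ((2 * m + 3 : ℕ) : ℝ) :=
  hc_le_log P _ _ _ (H364.N4.int_card P f Y h)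

/-- **few values of the letter** -/
theorem hc_lt (P : Law Ω) (Y : Ω → S) (h : ∀ ω ω', 0 < P.w ω → 0 < P.w ω' → Y ω = Y ω' → Sp D K I i j ω ω') :
    hc P (D.lt i) Y ≤ cL K := by
  set M : ℕ := ⌈19 * K⌉₊ with hM
  have hMK : 19 * K ≤ (M : ℝ) := Nat.le_ceil _
  have a1 : hc P (D.nN i) Y ≤ Real.log ((2 * M + 3 : ℕ) : ℝ) := by
    refine hc_int P _ Y fun ω ω' p p' e => ?_
    have S' := h ω ω' p p' e
    have K1 := S'.K1
    refine H364.fl1_le_of_near (M := M) ?_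
    rw [add_sub_add_right_eq_sub]
    rw [Sp.s_of S'.ti]
    exact S'.N.trans (mul_le_mul_of_nonneg_right (by linarith) (q2_pos _).le)
  have a2 : hc P (D.kN i) Y ≤ Real.log ((2 * M + 3 : ℕ) : ℝ) := by
    refine hc_int P _ Y fun ω ω' p p' e => ?_
    have S' := h ω ω' p p' e
    have K1 := S'.K1
    refine H364.fl1_le_of_near (M := M) ?_
    rw [add_sub_add_right_eq_sub]
    exact S'.kappa.trans (mul_le_mul_of_nonneg_right (by linarith) (q2_pos _).le)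
  have a3 : hc P (D.uN i) (fun ω => (D.nN i ω, Y ω)) ≤ Real.log ((2 * M + 3 : ℕ) : ℝ) := by
    refine hc_int P _ _ fun ω ω' p p' e => ?_
    have S' := h ω ω' p p' (congrArg Prod.snd e)
    refine H364.fl1_le_of_near (M := M) ?_
    rw [add_sub_add_right_eq_sub]
    exact (S'.gamma (congrArg Prod.fst e)).trans (mul_le_mul_of_nonneg_right hMK (q2_pos _).le)
  have b1 : hc P (D.lt i) Y ≤ hc P (fun ω => (D.nN i ω, (D.uN i ω, D.kN i ω))) Y := by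
    refine hc_mono_left P ?_
    intro ω ω' p p' e
    simp only [Prod.mk.injEq] at e
    obtain ⟨⟨e1, e2, e3⟩, e4⟩ := e
    have S' := h ω ω' p p' e4
    unfold Mtd.lt
    rw [S'.ti, S'.pf, e1, e2, e3]
  have b2 := hc_pair P (D.nN i) (fun ω => (D.uN i ω, D.kN i ω)) Y
  have b3 := hc_pair P (D.uN i) (D.kN i) (fun ω => (D.nN i ω, Y ω))
  have b4 : hc P (D.kN i) (fun ω => (D.uN i ω, (D.nN i ω, Y ω))) ≤ hc P (D.kN i) Y :=
    hc_mono_right P _ fun _ _ _ _ e => congrArg Prod.snd (congrArg Prod.snd e)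
  unfold cL
  rw [← hM]
  linarith

omit [Fintype Ω] in
/-- the N-position at an earlier step -/
lemma Npos_of {x : ℝ} (D : Mtd Ω π) {s : ℝ} (hs : |s - D.s i ω| ≤ q2 (D.a i))
    (hw : |(D.l ω').w - (D.l ω).w| ≤ 1) (hN : |(D.l ω').N s - (D.l ω).N s| ≤ x) (hx : x ≤ q2 (D.a i)) :
    |(D.l ω').N (D.s i ω) - (D.l ω).N (D.s i ω)| ≤ 2 * q2 (D.a i) := by
  have e : (D.l ω').N (D.s i ω) - (D.l ω).N (D.s i ω) = ((D.l ω').N s - (D.l ω).N s) -
      (s - D.s i ω) * ((D.l ω').w - (D.l ω).w) := by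
    unfold Ray.N
    ring
  rw [e]
  refine (abs_sub _ _).trans ?_
  rw [abs_mul]
  have : |s - D.s i ω| * |(D.l ω').w - (D.l ω).w| ≤ q2 (D.a i) * 1 :=
    mul_le_mul hs hw (abs_nonneg _) (q2_pos _).le
  linarith

omit [Fintype Ω] in
/-- two points with the same letter of the step `k` and the same digits of the position -/
lemma Sp_of_dg (hb : D.μ ≤ b) (K1 : 1 ≤ K) (hi : i ∈ I) (hk : k ∈ I) (ik : i ≤ k) (h : D.Hy K I ω) (h' : D.Hy K I ω')
    (pf : D.pf i ω = D.pf i ω') (e1 : D.lt k ω = D.lt k ω')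
    (w1 : fl1 (b - D.μ) ((D.l ω).w + D.o 1) = fl1 (b - D.μ) ((D.l ω').w + D.o 1))
    (n1 : fl1 (D.a k + b - D.μ) ((D.l ω).N (D.s k ω) + D.o 2) =
      fl1 (D.a k + b - D.μ) ((D.l ω').N (D.s k ω') + D.o 2)) : Sp D K I i k ω ω' := by
  have tj : fl1 (D.a k) (D.t ω) = fl1 (D.a k) (D.t ω') := congrArg (fun x : Lt π => x.1) e1
  have ti : fl1 (D.a i) (D.t ω) = fl1 (D.a i) (D.t ω') := fl1_fl1 (D.ha ik) tj
  have sk : D.s k ω' = D.s k ω := Sp.s_of tj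
  have si : D.s i ω' = D.s i ω := Sp.s_of ti
  have hw := Sp.off_near w1
  have hN := Sp.off_near n1
  rw [sk] at hN
  refine ⟨K1, hi, hk, ik, h, h', pf, e1, Npos_of D (s := D.s k ω) ?_ (hw.trans (q2_le_one' _)) hN ?_⟩
  · exact rd_sub (D.ha ik) (D.t ω)
  · have := D.ha ik
    exact q2_le (by omega)

omit [Fintype Ω] in
/-- two points in one cell `mtr k b` -/
lemma Sp_of_mtr (hb : D.μ ≤ b) (K1 : 1 ≤ K) (hi : i ∈ I) (hk : k ∈ I) (ik : i ≤ k) (h : D.Hy K I ω) (h' : D.Hy K I ω')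
    (pf : D.pf i ω = D.pf i ω') (e : D.mtr k b ω = D.mtr k b ω') : Sp D K I i k ω ω' := by
  have e2 : (D.p1 k).dg 0 b ω = (D.p1 k).dg 0 b ω' := congrArg Prod.snd e
  exact Sp_of_dg hb K1 hi hk ik h h' pf (congrArg Prod.fst e) (congrFun (congrArg Prod.snd e2) 1)
    (congrFun (congrArg Prod.snd e2) 2)

/-- **(C1)** : few letters of an earlier step in a cell `mtr k b` -/
theorem hc_lt_mtr (P : Law Ω) (K1 : 1 ≤ K) (hy : ∀ ω, 0 < P.w ω → D.Hy K I ω) (hi : i ∈ I) (hk : k ∈ I) (ik : i ≤ k)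
    (hb : D.μ ≤ b) (hpf : Stk.Fn P (D.pf i) (D.pf k)) : hc P (D.lt i) (D.mtr k b) ≤ cL K :=
  hc_lt P _ fun ω ω' p p' e => Sp_of_mtr hb K1 hi hk ik (hy ω p) (hy ω' p')
    (hpf ω ω' p p' (congrArg (fun x : Lt π × Pth.Dg => x.1.2.1) e)) e

/-- **(C3)** : few letters of the step before, given the position (in the frame of the letter `lt j`), the letter and the time -/
theorem hc_lt_A (P : Law Ω) (K1 : 1 ≤ K) (hy : ∀ ω, 0 < P.w ω → D.Hy K I ω) {k j i : ℕ} (hk : k ∈ I) (hj : j ∈ I)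
    (kj : k ≤ j) (ji : j ≤ i) (hpf : Stk.Fn P (D.pf k) (D.pf j)) :
    hc P (D.lt k) (fun ω => ((mfz D j).A j b i ω, (D.lt j ω, tdM D i ω))) ≤ cL K := by
  refine hc_lt (i := k) (j := j) (I := I) P _ fun ω ω' p p' e => ?_
  simp only [Pth.A, Prod.mk.injEq] at e
  obtain ⟨⟨-, h2, -, h4, -, -, -⟩, h8, h9⟩ := e
  have h2' : fl1 (b - D.μ) ((D.l ω).w + D.o 1) = fl1 (b - D.μ) ((D.l ω').w + D.o 1) := h2
  have h4' : fl1 ((mfz D j).a j + b) ((D.l ω).N ((mfz D j).s i ω)) =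
      fl1 ((mfz D j).a j + b) ((D.l ω').N ((mfz D j).s i ω')) := h4
  have h9' : fl1 (D.a i) (D.t ω) = fl1 (D.a i) (D.t ω') := h9
  rw [mfz_s (by omega), mfz_s (by omega), mfz_a (by omega), Sp.s_of h9'] at h4'
  have tk : fl1 (D.a k) (D.t ω) = fl1 (D.a k) (D.t ω') := fl1_fl1 (D.ha (kj.trans ji)) h9'
  have hw := Sp.off_near h2'
  have hN := fl1_close h4'.symm
  refine ⟨K1, hk, hj, kj, hy ω p, hy ω' p', hpf ω ω' p p' (congrArg (fun x : Lt π => x.2.1) h8), h8,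
    Npos_of D (s := D.s i ω) ?_ (hw.trans (q2_le_one' _)) hN ?_⟩
  · exact rd_sub (D.ha (kj.trans ji)) (D.t ω)
  · have := D.ha kj
    exact q2_le (by omega)

/-- the constant of the cells -/
noncomputable def cM (K : ℝ) : ℝ := cL K + 9 * Real.log (2 * H300.MK (8 * K) + 3)

/-- **(C4)** : the cells `mtr` are nested up to a bounded number of choices -/
theorem hc_mtr (P : Law Ω) (K1 : 1 ≤ K) (hy : ∀ ω, 0 < P.w ω → D.Hy K I ω) (hi : i ∈ I) (hk : k ∈ I) (ik : i ≤ k)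
    (hb : 8 * D.μ ≤ b) (hR : 8 * D.μ ≤ D.R i b) (a1 : hc P (D.lt i) (D.mtr k b) ≤ cL K) :
    hc P (D.mtr i b) (D.mtr k b) ≤ cM K := by
  have a2 := H300.n2 P (D.p2 i k ik) (K := 8 * K) (i := 0) (j := 1) (b := b) (by linarith)
    (fun ω p => Mtd.pa_ok K1 (hy ω p) fun n => by
      unfold Mtd.tw
      split_ifs
      · exact hi
      · exact hk) (Nat.zero_le 1) ⟨hb, by rw [Pth.R_eq]; exact hR⟩
  have a4 := hc_le_add' P (D.mtr i b) (D.lt i) (D.mtr k b)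
  have a5 : hc P (D.mtr i b) (fun ω => (D.lt i ω, D.mtr k b ω)) ≤
      hc P ((D.p2 i k ik).cell 0 b) ((D.p2 i k ik).cell 1 b) := by
    refine (hc_mono_left P (X' := (D.p2 i k ik).cell 0 b) ?_).trans (hc_mono_right P _ ?_)
    · intro ω ω' _ _ e
      exact (D.p2_cell0_iff i k ik b ω ω').1 (Prod.mk.inj e).1
    · intro ω ω' _ _ e
      simp only [Prod.mk.injEq] at e
      exact (D.p2_cell1_iff i k ik b ω ω').2 e
  unfold cM
  linarith

end ent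

/-! ### change of the frame -/

lemma okm {τ : Type} {C : Pth Ω τ} {K K' : ℝ} (h : C.Ok K ω) (hK : K ≤ K') : C.Ok K' ω := by
  have sc : ∀ {x : ℝ} {n : ℕ}, x ≤ K * q2 n → x ≤ K' * q2 n := fun hx =>
    hx.trans (mul_le_mul_of_nonneg_right hK (q2_pos _).le)
  refine ⟨h.v1, h.w1, h.p1, fun i => ?_, fun i => (h.n2 i).trans hK, fun i => (h.k1 i).trans hK,
    fun i => (h.a1 i).trans hK, fun i j hij => ⟨sc (h.ag i j hij).cN, sc (h.ag i j hij).ka, sc (h.ag i j hij).al⟩⟩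
  have h1 := h.n1 i
  have h2 := h.n2 i
  have : 0 ≤ (C.F i ω).cN (C.l ω) (C.s i ω) := by
    by_contra hc
    push Not at hc
    have : (C.F i ω).cN (C.l ω) (C.s i ω) * K < 0 ∨ K ≤ 0 := by
      rcases lt_or_ge 0 K with h0 | h0
      · exact Or.inl (mul_neg_of_neg_of_pos hc h0)
      · exact Or.inr h0
    rcases this with h3 | h3
    · linarith
    · have h4 : |(C.F i ω).ka| ≤ K := h.k1 i
      have h5 := abs_nonneg (C.F i ω).ka
      have h6 : K = 0 := by linarith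
      rw [h6, zero_mul] at h1
      linarith
  exact h1.trans (mul_le_mul_of_nonneg_right hK this)

/-- kappa of the frame of the letter `lt k`, written at the time of the step `i` -/
lemma Fs_ka (hk : k ≤ i + 1) (hkj : k ≤ j + 1) : (Fs (mfz D k) i j ω).ka =
    D.kaL k (D.lt k ω) - (D.s i ω - D.s k ω) * D.g k ω := by
  have h1 := mfz_ka (D := D) (k := k) j ω
  have h2 := mfz_al (D := D) (k := k) j ω
  have e : (Fs (mfz D k) i j ω).ka = ((mfz D k).F j ω).ka - ((mfz D k).s i ω - (mfz D k).s j ω) * ((mfz D k).F j ω).al := rfl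
  rw [e, h1, h2, mfz_s hk, mfz_s hkj]
  ring

lemma g_near (K1 : 1 ≤ K) (h : D.Hy K I ω) (hi : i ∈ I) (hj : j ∈ I) (ij : i ≤ j) :
    |D.g j ω - D.g i ω| * q2 (D.a j) ≤ 3 * K * q2 (D.rr i) := by
  have K0 : 0 ≤ K := by linarith
  have e1 := h.ap _ hi
  have e2 := h.ap _ hj
  have e3 := h.aa _ hi _ hj ij
  have rl := Mtd.rr_le D i
  have rl' : q2 (D.rk j) ≤ q2 (D.rk i) := q2_le (D.hk ij)
  have hqa : q2 (D.a j) ≤ q2 (D.a i) := q2_le (D.ha ij)
  have e4 : K * q2 (D.rk i) ≤ K * q2 (D.rr i) := mul_le_mul_of_nonneg_left rl K0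
  have e5 : K * q2 (D.rk j) ≤ K * q2 (D.rk i) := mul_le_mul_of_nonneg_left rl' K0
  have e6 : |D.g j ω - D.g i ω| ≤ |D.al j ω - D.g j ω| + |D.al j ω - D.al i ω| + |D.al i ω - D.g i ω| := by
    have : D.g j ω - D.g i ω = -(D.al j ω - D.g j ω) + (D.al j ω - D.al i ω) + (D.al i ω - D.g i ω) := by ring
    rw [this]
    refine (abs_add_le _ _).trans (add_le_add ((abs_add_le _ _).trans (add_le_add ?_ le_rfl)) le_rfl)
    rw [abs_neg]
  have e7 := mul_le_mul_of_nonneg_right e6 (q2_pos (D.a j)).le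
  have e8 : |D.al i ω - D.g i ω| * q2 (D.a j) ≤ |D.al i ω - D.g i ω| * q2 (D.a i) :=
    mul_le_mul_of_nonneg_left hqa (abs_nonneg _)
  nlinarith

/-- the two frames agree -/
lemma agf (K1 : 1 ≤ K) (h : D.Hy K I ω) (hj : j ∈ I) (hj1 : j + 1 ∈ I) (hm : HyM D j K ω) (hm1 : HyM D (j + 1) K ω)
    (ji : j + 1 ≤ i) (hr : D.a (j + 1) ≤ D.a j + D.rr j) :
    Agf (mfz D j) (mfz D (j + 1)) (8 * K) (D.rr j - (D.a (j + 1) - D.a j)) j j i i ω := by
  have K0 : 0 ≤ K := by linarith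
  set ρ := D.rr j - (D.a (j + 1) - D.a j) with hρ
  have haj : D.a j ≤ D.a (j + 1) := D.ha (Nat.le_succ j)
  have hq : q2 (D.rr j) ≤ q2 ρ := q2_le (by omega)
  have q0 := q2_pos (D.rr j)
  have m := Mtd.rr_mono D (Nat.le_succ j)
  refine ⟨okm (mfz_Ok K1 hm) (by linarith), okm (mfz_Ok K1 hm1) (by linarith), ?_, ?_, ?_⟩
  · have e1 : ((mfz D (j + 1)).F j ω).cN ((mfz D (j + 1)).l ω) ((mfz D (j + 1)).s j ω) = cN0 D (j + 1) ω :=
      mfz_cN (D := D) (k := j + 1) j ω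
    have e2 : ((mfz D j).F j ω).cN ((mfz D j).l ω) ((mfz D j).s j ω) = cN0 D j ω := mfz_cN (D := D) (k := j) j ω
    rw [e1, e2]
    have c1 := cN0_near (D := D) (k := j + 1) hm1.w1 K0 hm1.ap
    have c2 := cN0_near (D := D) (k := j) hm.w1 K0 hm.ap
    have c3 : (3 + K) * q2 (D.rr (j + 1)) ≤ (3 + K) * q2 (D.rr j) := mul_le_mul_of_nonneg_left m (by linarith)
    have e : cN0 D (j + 1) ω - cN0 D j ω = (cN0 D (j + 1) ω - D.un ω) - (cN0 D j ω - D.un ω) := by ring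
    rw [e]
    refine (abs_sub _ _).trans ?_
    have : (3 + K) * q2 (D.rr j) + (3 + K) * q2 (D.rr j) ≤ 8 * K * q2 (D.rr j) := by nlinarith
    have : 8 * K * q2 (D.rr j) ≤ 8 * K * q2 ρ := mul_le_mul_of_nonneg_left hq (by linarith)
    linarith
  · rw [Fs_ka (by omega) (by omega), Fs_ka (by omega) (by omega)]
    have e1 := Mtd.ka_near D j ω
    have e2 := Mtd.ka_near D (j + 1) ω
    have e3 := h.ka _ hj _ hj1 (Nat.le_succ j)
    have e4 : K * q2 (D.rk j) ≤ K * q2 (D.rr j) := mul_le_mul_of_nonneg_left (Mtd.rr_le D j) K0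
    have e5 : q2 (D.rr j) ≤ K * q2 (D.rr j) := by nlinarith
    have e6 := g_near K1 h hj hj1 (Nat.le_succ j)
    have e7 : |D.s i ω - D.s (j + 1) ω| ≤ q2 (D.a (j + 1)) := rd_sub (D.ha ji) (D.t ω)
    have e8 : |(D.s i ω - D.s (j + 1) ω) * (D.g (j + 1) ω - D.g j ω)| ≤ 3 * K * q2 (D.rr j) := by
      rw [abs_mul, mul_comm]
      exact (mul_le_mul_of_nonneg_left e7 (abs_nonneg _)).trans e6
    have e : D.kaL (j + 1) (D.lt (j + 1) ω) - (D.s i ω - D.s (j + 1) ω) * D.g (j + 1) ω -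
        (D.kaL j (D.lt j ω) - (D.s i ω - D.s j ω) * D.g j ω) =
        (D.kaL (j + 1) (D.lt (j + 1) ω) - D.κ (j + 1) ω) - (D.kaL j (D.lt j ω) - D.κ j ω) -
          (D.κ j ω - D.κ (j + 1) ω - (D.s (j + 1) ω - D.s j ω) * D.g j ω) -
          (D.s i ω - D.s (j + 1) ω) * (D.g (j + 1) ω - D.g j ω) := by ring
    rw [e]
    have : 16 * K * q2 (D.rr j) ≤ 2 * (8 * K) * q2 ρ := by
      have := mul_le_mul_of_nonneg_left hq (show 0 ≤ 16 * K by linarith)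
      linarith
    rw [abs_le] at e1 e2 e3 e8 ⊢
    constructor <;> linarith [e1.1, e1.2, e2.1, e2.2, e3.1, e3.2, e8.1, e8.2]
  · rw [mfz_al, mfz_al, mfz_a (by omega)]
    have e6 := g_near K1 h hj hj1 (Nat.le_succ j)
    have e7 : q2 (D.a j) * q2 (D.rr j) = q2 ρ * q2 (D.a (j + 1)) := by
      rw [← q2_add, ← q2_add]
      congr 1
      omega
    have qa := q2_pos (D.a (j + 1))
    have e8 : |D.g (j + 1) ω - D.g j ω| * q2 (D.a j) * q2 (D.a (j + 1)) ≤ 3 * K * q2 ρ * q2 (D.a (j + 1)) := by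
      calc _ = (|D.g (j + 1) ω - D.g j ω| * q2 (D.a (j + 1))) * q2 (D.a j) := by ring
        _ ≤ 3 * K * q2 (D.rr j) * q2 (D.a j) := mul_le_mul_of_nonneg_right e6 (q2_pos _).le
        _ = 3 * K * (q2 (D.a j) * q2 (D.rr j)) := by ring
        _ = _ := by rw [e7]; ring
    have e9 := le_of_mul_le_mul_right e8 qa
    have : 3 * K * q2 ρ ≤ 8 * K * q2 ρ := by
      have := q2_pos ρ
      nlinarith
    linarith

/-- levels of the change of the frame, deep phi regime -/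
lemma nfr (ji : j + 1 ≤ i) (hb : 8 * D.μ ≤ b) (hR : 8 * D.μ ≤ D.R j b)
    (hd : D.rf j + D.a (j + 1) ≤ b + D.rr j + D.a j) :
    Nfr (mfz D j) (mfz D (j + 1)) (D.rr j - (D.a (j + 1) - D.a j)) j j i i b := by
  have haj : D.a j ≤ D.a (j + 1) := D.ha (Nat.le_succ j)
  have e1 : (mfz D j).rk j = D.rr j := mfz_rk le_rfl
  have e2 : (mfz D j).rf j = D.rf j := mfz_rf (by omega)
  have e3 : (mfz D (j + 1)).rf j = D.rf j := mfz_rf (by omega)
  have e4 : (mfz D (j + 1)).rk j = min (D.rr (j + 1)) (D.rf j) := by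
    show min (D.rr (j + 1)) (D.rf (max j (j + 1 - 1))) = _
    rw [max_eq_left (by omega)]
  have hrm : D.rr j ≤ D.rr (j + 1) := Nat.sub_le_sub_right (D.hk (Nat.le_succ j)) _
  have hrf : D.rr j ≤ D.rf j := (Nat.sub_le _ _).trans (D.hkf j)
  have eR : (mfz D j).R j b = min (D.rr j + b) (D.rf j) := by rw [Pth.R_eq, e1, e2]
  have eR2 : (mfz D (j + 1)).R j b = min (min (D.rr (j + 1)) (D.rf j) + b) (D.rf j) := by rw [Pth.R_eq, e4, e3]
  have hRD : D.R j b = min (D.rr j + b) (D.rf j) := rfl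
  refine ⟨rfl, rfl, rfl, rfl, fun ω => ?_, by omega, by omega, ?_, ?_, ?_, ?_, ?_, ?_, ?_⟩
  · rw [mfz_s (by omega), mfz_s (by omega)]
  · rw [mfz_a (by omega), mfz_a (by omega)]
  · rw [e2, e3]
  · rw [eR, eR2]; omega
  · rw [eR]; omega
  · rw [eR]; omega
  · exact hb
  · rw [eR, ← hRD]; exact hR

/-- the constant of the change of the frame -/
noncomputable def cF (K : ℝ) : ℝ := 2 * Real.log ((2 * ⌈118 * (8 * K) ^ 5⌉₊ + 3 : ℕ) : ℝ)

section ent2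

variable [Fintype Ω]

/-- **(C2)** : change of the frame, deep phi regime -/
theorem hc_A_fr (P : Law Ω) (K1 : 1 ≤ K) (hy : ∀ ω, 0 < P.w ω → D.Hy K I ω) (hj : j ∈ I) (hj1 : j + 1 ∈ I)
    (hm : ∀ ω, 0 < P.w ω → HyM D j K ω) (hm1 : ∀ ω, 0 < P.w ω → HyM D (j + 1) K ω) (ji : j + 1 ≤ i)
    (hb : 8 * D.μ ≤ b) (hR : 8 * D.μ ≤ D.R j b) (hd : D.rf j + D.a (j + 1) ≤ b + D.rr j + D.a j)
    (hr : D.a (j + 1) ≤ D.a j + D.rr j) :
    hc P ((mfz D j).A j b i) (fun ω => (((mfz D (j + 1)).A j b i ω, D.lt j ω), (D.lt (j + 1) ω, tdM D i ω))) ≤ cF K := by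
  have h := hc_fr P (C := mfz D j) (C2 := mfz D (j + 1)) (K := 8 * K) (by linarith) (nfr ji hb hR hd)
    (fun ω p => agf K1 (hy ω p) hj hj1 (hm ω p) (hm1 ω p) ji hr)
    (fun ω => (D.lt j ω, (D.lt (j + 1) ω, tdM D i ω))) ?_
  · refine le_trans (hc_mono_right P _ fun ω ω' _ _ e => ?_) h
    simp only [Prod.mk.injEq] at e ⊢
    exact ⟨e.1.1, e.1.2, e.2⟩
  · intro ω ω' _ _ e
    simp only [Prod.mk.injEq] at e
    obtain ⟨e1, e2, e3⟩ := e
    have e3' : fl1 (D.a i) (D.t ω) = fl1 (D.a i) (D.t ω') := e3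
    have tj : fl1 (D.a j) (D.t ω) = fl1 (D.a j) (D.t ω') := fl1_fl1 (D.ha (by omega)) e3'
    refine ⟨(mfz_T_iff (by omega)).2 ⟨e1, tj⟩, (mfz_T_iff (by omega)).2 ⟨e2, tj⟩, ?_⟩
    rw [mfz_s (by omega), mfz_s (by omega)]
    exact (Sp.s_of e3').symm

/-! ### the positions of the window -/

/-- position in the own frame, and its letter -/
noncomputable def Ap (D : Mtd Ω π) (b i j : ℕ) (ω : Ω) : (ℤ × ℤ × ℤ × ℤ × ℤ × ℤ × ℤ) × Lt π :=
  ((mfz D j).A j b i ω, D.lt j ω)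

/-- the constant of the chain -/
noncomputable def cA (K : ℝ) : ℝ := cL K + cF K + 2 * Real.log ((2 * ⌈118 * (3 * K) ^ 5⌉₊ + 3 : ℕ) : ℝ)

/-- the chain inside one frame -/
theorem cha_mfz (P : Law Ω) (K1 : 1 ≤ K) (hm1 : ∀ ω, 0 < P.w ω → HyM D (j + 1) K ω) (ji : j + 1 ≤ i)
    (hb : 8 * D.μ ≤ b) (hR : 8 * D.μ ≤ D.R j b) :
    hc P ((mfz D (j + 1)).A j b i) (fun ω => ((mfz D (j + 1)).A (j + 1) b i ω, (D.lt (j + 1) ω, tdM D i ω))) ≤
      2 * Real.log ((2 * ⌈118 * (3 * K) ^ 5⌉₊ + 3 : ℕ) : ℝ) := by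
  have e3 : (mfz D (j + 1)).rf j = D.rf j := mfz_rf (by omega)
  have e4 : (mfz D (j + 1)).rk j = min (D.rr (j + 1)) (D.rf j) := by
    show min (D.rr (j + 1)) (D.rf (max j (j + 1 - 1))) = _
    rw [max_eq_left (by omega)]
  have hrm : D.rr j ≤ D.rr (j + 1) := Nat.sub_le_sub_right (D.hk (Nat.le_succ j)) _
  have hrf : D.rr j ≤ D.rf j := (Nat.sub_le _ _).trans (D.hkf j)
  have hL : (mfz D (j + 1)).Lev j b := by
    refine ⟨hb, ?_⟩
    have hRD : D.R j b = min (D.rr j + b) (D.rf j) := rfl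
    show 8 * D.μ ≤ _
    rw [Pth.R_eq, e4, e3]
    omega
  have h := cha P (C := mfz D (j + 1)) (K := 3 * K) (by linarith) (fun ω p => mfz_Ok K1 (hm1 ω p)) (j := j) (b := b)
    (i' := i) ji hL
  refine le_trans (hc_mono_right P _ fun ω ω' _ _ e => ?_) h
  simp only [Prod.mk.injEq] at e ⊢
  exact ⟨e.1, (mfz_T_iff (by omega)).2 e.2⟩

/-- **chain** of the positions in the own frames, given the time only -/
theorem hA_Ap (P : Law Ω) (K1 : 1 ≤ K) (hy : ∀ ω, 0 < P.w ω → D.Hy K I ω) (hj : j ∈ I) (hj1 : j + 1 ∈ I)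
    (hm : ∀ ω, 0 < P.w ω → HyM D j K ω) (hm1 : ∀ ω, 0 < P.w ω → HyM D (j + 1) K ω) (ji : j + 1 ≤ i)
    (hb : 8 * D.μ ≤ b) (hR : 8 * D.μ ≤ D.R j b) (hd : D.rf j + D.a (j + 1) ≤ b + D.rr j + D.a j)
    (hr : D.a (j + 1) ≤ D.a j + D.rr j) (hpf : Stk.Fn P (D.pf j) (D.pf (j + 1))) {S : Type*} (Θ : Ω → S)
    (hΘ : Stk.Fn P (tdM D i) Θ) :
    hc P (Ap D b i j) (fun ω => (Ap D b i (j + 1) ω, Θ ω)) ≤ cA K := by
  have h1 := hc_lt_A (b := b) P K1 hy hj hj1 (Nat.le_succ j) ji hpf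
  have h2 := hc_A_fr P K1 hy hj hj1 hm hm1 ji hb hR hd hr
  have h3 := cha_mfz P K1 hm1 ji hb hR
  set Y : Ω → ((ℤ × ℤ × ℤ × ℤ × ℤ × ℤ × ℤ) × Lt π) × S := fun ω => (Ap D b i (j + 1) ω, Θ ω) with hY
  have t : ∀ ω ω', 0 < P.w ω → 0 < P.w ω' → Y ω = Y ω' → tdM D i ω = tdM D i ω' := fun ω ω' p p' e =>
    hΘ ω ω' p p' (congrArg Prod.snd e)
  have g1 : hc P (D.lt j) Y ≤ cL K := by
    refine le_trans (hc_mono_right P _ fun ω ω' p p' e => ?_) h1
    have et := t ω ω' p p' e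
    simp only [hY, Ap, Prod.mk.injEq] at e ⊢
    exact ⟨e.1.1, e.1.2, et⟩
  have g3 : hc P ((mfz D (j + 1)).A j b i) Y ≤ 2 * Real.log ((2 * ⌈118 * (3 * K) ^ 5⌉₊ + 3 : ℕ) : ℝ) := by
    refine le_trans (hc_mono_right P _ fun ω ω' p p' e => ?_) h3
    have et := t ω ω' p p' e
    simp only [hY, Ap, Prod.mk.injEq] at e ⊢
    exact ⟨e.1.1, e.1.2, et⟩
  have f1 : hc P (Ap D b i j) Y ≤ hc P (D.lt j) Y + hc P ((mfz D j).A j b i) (fun ω => (D.lt j ω, Y ω)) := by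
    have e1 := hc_pair P (D.lt j) ((mfz D j).A j b i) Y
    have e2 : hc P (Ap D b i j) Y ≤ hc P (fun ω => (D.lt j ω, (mfz D j).A j b i ω)) Y :=
      hc_mono_left P fun ω ω' _ _ e => by
        simp only [Ap, Prod.mk.injEq] at e ⊢
        exact ⟨e.1.2, e.1.1⟩
    linarith
  have f2 := hc_le_add' P ((mfz D j).A j b i) ((mfz D (j + 1)).A j b i) (fun ω => (D.lt j ω, Y ω))
  have f3 : hc P ((mfz D (j + 1)).A j b i) (fun ω => (D.lt j ω, Y ω)) ≤ hc P ((mfz D (j + 1)).A j b i) Y :=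
    hc_mono_right P _ fun _ _ _ _ e => congrArg Prod.snd e
  have f4 : hc P ((mfz D j).A j b i) (fun ω => ((mfz D (j + 1)).A j b i ω, (D.lt j ω, Y ω))) ≤ cF K := by
    refine le_trans (hc_mono_right P _ fun ω ω' p p' e => ?_) h2
    have et := t ω ω' p p' (congrArg (fun x => x.2.2) e)
    simp only [hY, Ap, Prod.mk.injEq] at e ⊢
    exact ⟨⟨e.1, e.2.1⟩, e.2.2.1.2, et⟩
  unfold cA
  linarith

/-- **step** : the inequality of the frame of the next letter gives the inequality for the positions in the own frames -/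
theorem hs_Ap (P : Law Ω) (K1 : 1 ≤ K) (hy : ∀ ω, 0 < P.w ω → D.Hy K I ω) (hj : j ∈ I) (hj1 : j + 1 ∈ I)
    (hm : ∀ ω, 0 < P.w ω → HyM D j K ω) (hm1 : ∀ ω, 0 < P.w ω → HyM D (j + 1) K ω) (ji : j + 1 ≤ i)
    (hb : 8 * D.μ ≤ b) (hR : 8 * D.μ ≤ D.R j b) (hd : D.rf j + D.a (j + 1) ≤ b + D.rr j + D.a j)
    (hr : D.a (j + 1) ≤ D.a j + D.rr j) (hpf : Stk.Fn P (D.pf j) (D.pf (j + 1))) {S : Type*} (Θ : Ω → S)
    (hΘ : Stk.Fn P (tdM D i) Θ) {s : ℝ}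
    (hs : s ≤ hc P ((mfz D (j + 1)).A (j + 1) b i)
      (fun ω => ((mfz D (j + 1)).A j b i ω, (D.mtr (j + 1) b ω, Θ ω)))) :
    s - (cL K + cF K) ≤ hc P (Ap D b i (j + 1)) (fun ω => (Ap D b i j ω, (D.mtr (j + 1) b ω, Θ ω))) := by
  have h1 := hc_lt_mtr (b := b) P K1 hy hj hj1 (Nat.le_succ j) (by omega) hpf
  have h2 := hc_A_fr P K1 hy hj hj1 hm hm1 ji hb hR hd hr
  set X := (mfz D (j + 1)).A (j + 1) b i with hX
  set Z : Ω → (ℤ × ℤ × ℤ × ℤ × ℤ × ℤ × ℤ) × ((Lt π × Pth.Dg) × S) := fun ω =>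
    ((mfz D (j + 1)).A j b i ω, (D.mtr (j + 1) b ω, Θ ω)) with hZ
  -- the own position from the position of the next frame
  have t : ∀ ω ω', 0 < P.w ω → 0 < P.w ω' → Θ ω = Θ ω' → tdM D i ω = tdM D i ω' := fun ω ω' p p' e => hΘ ω ω' p p' e
  have f1 : hc P (Ap D b i j) Z ≤ cL K + cF K := by
    have e1 := hc_pair P (D.lt j) ((mfz D j).A j b i) Z
    have e2 : hc P (Ap D b i j) Z ≤ hc P (fun ω => (D.lt j ω, (mfz D j).A j b i ω)) Z :=
      hc_mono_left P fun ω ω' _ _ e => by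
        simp only [Ap, Prod.mk.injEq] at e ⊢
        exact ⟨e.1.2, e.1.1⟩
    have e3 : hc P (D.lt j) Z ≤ hc P (D.lt j) (D.mtr (j + 1) b) :=
      hc_mono_right P _ fun _ _ _ _ e => congrArg (fun x => x.2.1) e
    have e4 : hc P ((mfz D j).A j b i) (fun ω => (D.lt j ω, Z ω)) ≤ cF K := by
      refine le_trans (hc_mono_right P _ fun ω ω' p p' e => ?_) h2
      simp only [hZ, Prod.mk.injEq] at e ⊢
      exact ⟨⟨e.2.1, e.1⟩, congrArg Prod.fst e.2.2.1, t ω ω' p p' e.2.2.2⟩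
    linarith
  -- the position from both
  have f2 := H833.hc_le_near P X (Ap D b i j) Z
  have f3 : hc P X (fun ω => (Z ω, Ap D b i j ω)) ≤
      hc P (Ap D b i (j + 1)) (fun ω => (Ap D b i j ω, (D.mtr (j + 1) b ω, Θ ω))) := by
    refine le_trans (hc_mono_right P _ (Y' := fun ω => (Z ω, Ap D b i j ω))
      (Y := fun ω => (Z ω, Ap D b i j ω)) fun _ _ _ _ e => e) ?_
    refine le_trans ?_ (le_of_eq rfl)
    refine le_trans (hc_mono_left P (X' := Ap D b i (j + 1)) fun ω ω' _ _ e => ?_) (hc_mono_right P _ fun ω ω' _ _ e => ?_)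
    · simp only [Ap, Prod.mk.injEq] at e
      exact e.1.1
    · simp only [hZ, Prod.mk.injEq] at e ⊢
      exact ⟨e.2, e.1.2.1, e.1.2.2⟩
  linarith

/-- **junction** at the end of the window -/
theorem ju_Ap (P : Law Ω) {r : ℕ} (ri : r ≤ i) (hb : 8 * D.μ ≤ b) (hR : 8 * D.μ ≤ D.R r b) {S : Type*} (Θ : Ω → S)
    (hΘ : Stk.Fn P (tdM D i) Θ) :
    hc P (Ap D b i r) (fun ω => (Θ ω, D.mtr r b ω)) ≤ 15 * D.μ * Real.log 2 + Real.log 18865 := by
  have e1 : (mfz D r).rk r = D.rr r := mfz_rk le_rfl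
  have e2 : (mfz D r).rf r = D.rf r := mfz_rf (by omega)
  have hRD : D.R r b = min (D.rr r + b) (D.rf r) := rfl
  have hL : (mfz D r).Lev r b := ⟨hb, by
    show 8 * D.μ ≤ _
    rw [Pth.R_eq, e1, e2, ← hRD]; exact hR⟩
  have h := ju (C := mfz D r) P (k := r) (b := b) (i' := i) ri hL
  have f1 : hc P (Ap D b i r) (fun ω => (Θ ω, D.mtr r b ω)) ≤ hc P ((mfz D r).A r b i) (fun ω => (Θ ω, D.mtr r b ω)) :=
    hc_mono_left P fun ω ω' _ _ e => by
      simp only [Ap, Prod.mk.injEq] at e ⊢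
      exact ⟨e.1, congrArg Prod.fst e.2.2⟩
  refine f1.trans (le_trans (hc_mono_right P _ fun ω ω' p p' e => ?_) h)
  simp only [Prod.mk.injEq] at e ⊢
  exact ⟨(mfz_T_iff (by omega)).2 ⟨congrArg Prod.fst e.2, hΘ ω ω' p p' e.1⟩, (mfz_cell_iff b ω ω').2 e.2⟩

end ent2

end Vale.Agent.P106.U.H683.FzA
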