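import Vale.Agent.P106.U.H683.PhiS
import Vale.Agent.P106.U.MIC.Props

/-!
# P106 / U / H683 : **`PSatPhi`** of `U/MIC/Props` (helper683)
-/

set_option autoImplicit false

namespace Vale.Agent.P106.U.H683

open Finset Vale.Agent.P127 Vale.Agent.P127.Stk Vale.Agent.P106.U.Cell Vale.Agent.P106.U.MIC
open Vale.Agent.P127.U.Mic (colp)
open Vale.Agent.P127.U.CellD (q2 q2_pos q2_mul_pow)

/-- the numerology of `PSatPhi` -/
lemma num_phi {K : ℝ} {c0 m g μ : ℕ} (hK : 1 ≤ K) (hKc : 2 * K ≤ 2 ^ c0) (hmg : m ≤ g)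
    (hμ : 70 * (g + c0 + 1) ≤ μ) :
    15 * 2 ^ (m + 8 * (g + c0 + 1) + 7) * (128 * K ^ 3 * q2 μ) ≤ 1 ∧
    ((2 ^ c0 + 4062 : ℕ) : ℝ) * K ^ 7 ≤ ((2 ^ (8 * c0 + 12) : ℕ) : ℝ) ∧
    11 + 4 * Real.log (2 * ((2 ^ (8 * c0 + 12) : ℕ) : ℝ) + 3) ≤ 70 * (c0 + 1) := by
  have hK0 : 0 ≤ K := by linarith
  have h1 : K ≤ 2 ^ c0 := by linarith
  have q := q2_pos μ
  have w := q2_mul_pow μ
  refine ⟨?_, ?_, ?_⟩
  · have a1 : K ^ 3 ≤ 2 ^ (3 * c0) := by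
      calc K ^ 3 ≤ (2 ^ c0) ^ 3 := pow_le_pow_left₀ hK0 h1 3
        _ = _ := by rw [← pow_mul]; congr 1; ring
    have a2 : (15 : ℝ) * 2 ^ (m + 8 * (g + c0 + 1) + 7) * (128 * 2 ^ (3 * c0)) ≤ 2 ^ μ := by
      calc (15 : ℝ) * 2 ^ (m + 8 * (g + c0 + 1) + 7) * (128 * 2 ^ (3 * c0)) ≤
          2 ^ 4 * 2 ^ (m + 8 * (g + c0 + 1) + 7) * (2 ^ 7 * 2 ^ (3 * c0)) := by
            have : (0 : ℝ) < 2 ^ (m + 8 * (g + c0 + 1) + 7) * (2 ^ 7 * 2 ^ (3 * c0)) := by positivity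
            nlinarith
        _ = 2 ^ (4 + (m + 8 * (g + c0 + 1) + 7) + (7 + 3 * c0)) := by rw [← pow_add, ← pow_add, ← pow_add]
        _ ≤ 2 ^ μ := pow_le_pow_right₀ (by norm_num) (by omega)
    calc 15 * 2 ^ (m + 8 * (g + c0 + 1) + 7) * (128 * K ^ 3 * q2 μ) =
        (15 * 2 ^ (m + 8 * (g + c0 + 1) + 7) * (128 * K ^ 3)) * q2 μ := by ring
      _ ≤ (15 * 2 ^ (m + 8 * (g + c0 + 1) + 7) * (128 * 2 ^ (3 * c0))) * q2 μ := by gcongr
      _ ≤ 2 ^ μ * q2 μ := mul_le_mul_of_nonneg_right a2 q.le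
      _ = 1 := w
  · have a1 : K ^ 7 ≤ 2 ^ (7 * c0) := by
      calc K ^ 7 ≤ (2 ^ c0) ^ 7 := pow_le_pow_left₀ hK0 h1 7
        _ = _ := by rw [← pow_mul]; congr 1; ring
    have a2 : ((2 ^ c0 + 4062 : ℕ) : ℝ) ≤ 2 ^ (c0 + 12) := by
      have : (1 : ℝ) ≤ 2 ^ c0 := one_le_pow₀ (by norm_num)
      push_cast
      rw [pow_add]
      norm_num
      linarith
    calc ((2 ^ c0 + 4062 : ℕ) : ℝ) * K ^ 7 ≤ 2 ^ (c0 + 12) * 2 ^ (7 * c0) := by gcongr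
      _ = ((2 ^ (8 * c0 + 12) : ℕ) : ℝ) := by
          rw [← pow_add]; push_cast; congr 1; ring
  · have a1 : (2 : ℝ) * ((2 ^ (8 * c0 + 12) : ℕ) : ℝ) + 3 ≤ 2 ^ (8 * c0 + 14) := by
      have : (1 : ℝ) ≤ 2 ^ (8 * c0) := one_le_pow₀ (by norm_num)
      push_cast
      rw [pow_add, pow_add]
      norm_num
      linarith
    have a2 : Real.log (2 * ((2 ^ (8 * c0 + 12) : ℕ) : ℝ) + 3) ≤ (8 * c0 + 14 : ℕ) * Real.log 2 := by
      rw [← Real.log_pow]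
      exact Real.log_le_log (by positivity) a1
    have a3 : Real.log 2 ≤ 1 := by
      have := Real.log_two_lt_d9
      linarith
    have a4 : ((8 * c0 + 14 : ℕ) : ℝ) * Real.log 2 ≤ (8 * c0 + 14 : ℕ) * 1 :=
      mul_le_mul_of_nonneg_left a3 (Nat.cast_nonneg _)
    push_cast at a2 a4 ⊢
    have a5 : (0 : ℝ) ≤ c0 := Nat.cast_nonneg _
    linarith

/-- the earlier step -/
lemma Rj.of_Reg {Ω τ : Type} {C : Pth Ω τ} {j i b : ℕ} (h : Reg C j i b) (ha : C.a (j + 1) ≤ C.a j + C.μ) :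
    Rj C j (j + 1) b := by
  have h1 := h.hb; have h2 := h.ha; have h3 := h.f8
  constructor <;> omega

/-- **`PSatPhi`** -/
theorem pSatPhi : PSatPhi := by
  refine ⟨70, ?_⟩
  intro Ω τ _ P C K c0 m g p b b' j i ι₁ ι₂ hok hR1 hR0 hAdv hb hp hpb hKc hm hmg hμ h1 h2
  obtain ⟨ω0, hω0⟩ : ∃ ω, 0 < P.w ω := by
    by_contra hcon
    push Not at hcon
    have h3 : ∑ ω, P.w ω ≤ 0 := Finset.sum_nonpos fun ω _ => hcon ω
    rw [P.sum_one] at h3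
    norm_num at h3
  have hK := K_one (hok ω0 hω0)
  obtain ⟨n1, n2, n3⟩ := num_phi hK hKc hmg hμ
  have hth := th_phi (C := C) hR1.hi
  have hR1' := hR1.Rk
  have hR0' := hR0.Rk
  have cT0 : 0 ≤ cT P C b (j + 1) g := Vale.Agent.P127.U.Mic.colp_nonneg P _ _
  have cF0 : 0 ≤ cF P C b (j + 1) g := Vale.Agent.P127.U.Mic.colp_nonneg P _ _
  have cY0 : 0 ≤ cY P C b (j + 1) g := Vale.Agent.P127.U.Mic.colp_nonneg P _ _
  have hm0 : (0 : ℝ) ≤ m := Nat.cast_nonneg _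
  have s1 := Real.sqrt_nonneg ι₁
  have s2 := Real.sqrt_nonneg ι₂
  have pw : (2 : ℝ) ^ (31 * (g + c0 + 1)) ≤ 2 ^ (70 * (g + c0 + 1)) :=
    pow_le_pow_right₀ (by norm_num) (by omega)
  have herr : errN P C (j + 1) b c0 m g (2 ^ (8 * c0 + 12)) ι₁ ι₂ ≤
      ((70 : ℕ) : ℝ) * (c0 + 1) + ((70 : ℕ) : ℝ) * m * (cT P C b (j + 1) g + cF P C b (j + 1) g +
      cY P C b (j + 1) g) + (2 : ℝ) ^ (70 * (g + c0 + 1)) * (Real.sqrt ι₁ + Real.sqrt ι₂) := by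
    have e1 : 19 * (m : ℝ) * (cT P C b (j + 1) g + cF P C b (j + 1) g + cY P C b (j + 1) g) ≤
        70 * m * (cT P C b (j + 1) g + cF P C b (j + 1) g + cY P C b (j + 1) g) := by
      have : 0 ≤ (m : ℝ) * (cT P C b (j + 1) g + cF P C b (j + 1) g + cY P C b (j + 1) g) := by
        positivity
      nlinarith
    have e2 : (2 : ℝ) ^ (31 * (g + c0 + 1)) * (Real.sqrt ι₁ + Real.sqrt ι₂) ≤
        2 ^ (70 * (g + c0 + 1)) * (Real.sqrt ι₁ + Real.sqrt ι₂) :=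
      mul_le_mul_of_nonneg_right pw (by positivity)
    unfold errN
    unfold cT cF cY at e1
    unfold cT cF cY
    push_cast at n3 ⊢
    linarith
  rcases hAdv with ⟨ha, hf⟩ | ⟨ha, hf⟩
  · have hJ : Rj C j (j + 1) b := Rj.of_Reg hR0 (by omega)
    have main := satA_a P hR1 hJ hb hp hpb hok hKc hm hmg n1 n2 ha (by omega) (hth ▸ h1) (hth ▸ h2)
    unfold SatN
    rw [hth]
    refine le_trans ?_ main
    have hw : wt C b j = 3 * m := by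
      unfold wt
      rw [ha, hf]
      push_cast
      ring
    rw [hw]
    linarith
  · have hJ : Rj C j (j + 1) b := Rj.of_Reg hR0 (by omega)
    have main := satA_r P hR1 hJ hb hp hpb hok hKc hm hmg n1 n2 ha (by omega) (hth ▸ h1) (hth ▸ h2)
    unfold SatN
    rw [hth]
    refine le_trans ?_ main
    have hw : wt C b j = m := by
      unfold wt
      rw [ha, hf]
      push_cast
      ring
    rw [hw]
    linarith

end Vale.Agent.P106.U.H683
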