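import Vale.Agent.P106.U.Cell

/-!
# P106 / U / H683 : bookkeeping of bounds (helper683)

`Bd K c e n x` : `|x| ≤ c K^e 2^-n`.
-/

set_option autoImplicit false

namespace Vale.Agent.P106.U.H683

open Vale.Agent.P127 Vale.Agent.P127.Stk
open Vale.Agent.P127.U.CellD

/-- `|x| ≤ c K^e 2^-n` -/
def Bd (K : ℝ) (c e n : ℕ) (x : ℝ) : Prop := |x| ≤ c * K ^ e * q2 n

namespace Bd

variable {K x y : ℝ} {c c' e e' n n' m A : ℕ}

lemma mk0 (h : |x| ≤ q2 n) : Bd K 1 0 n x := by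
  unfold Bd
  simpa using h

lemma mono (hK : 1 ≤ K) (h : Bd K c e n x) (hc : c ≤ c') (he : e ≤ e') (hn : n' ≤ n) :
    Bd K c' e' n' x := by
  unfold Bd at *
  refine h.trans ?_
  have h1 : (c : ℝ) ≤ c' := by exact_mod_cast hc
  have h2 : K ^ e ≤ K ^ e' := pow_le_pow_right₀ hK he
  have h3 := q2_le hn
  have h4 := q2_pos n
  have h5 : (0 : ℝ) ≤ K ^ e := by positivity
  exact mul_le_mul (mul_le_mul h1 h2 h5 (Nat.cast_nonneg _)) h3 h4.le (by positivity)

lemma add (h : Bd K c e n x) (h' : Bd K c' e n y) : Bd K (c + c') e n (x + y) := by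
  unfold Bd at *
  refine (abs_add_le _ _).trans ?_
  push_cast
  linarith

lemma neg (h : Bd K c e n x) : Bd K c e n (-x) := by
  unfold Bd at *
  rwa [abs_neg]

lemma sub (h : Bd K c e n x) (h' : Bd K c' e n y) : Bd K (c + c') e n (x - y) := by
  rw [sub_eq_add_neg]
  exact h.add h'.neg

lemma symm (h : Bd K c e n (x - y)) : Bd K c e n (y - x) := by
  unfold Bd at *
  rwa [abs_sub_comm]

lemma mul (h : Bd K c e n x) (h' : Bd K c' e' n' y) :
    Bd K (c * c') (e + e') (n + n') (x * y) := by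
  unfold Bd at *
  rw [abs_mul]
  calc |x| * |y| ≤ (c * K ^ e * q2 n) * (c' * K ^ e' * q2 n') :=
        mul_le_mul h h' (abs_nonneg _) ((abs_nonneg _).trans h)
    _ = _ := by rw [q2_add, pow_add]; push_cast; ring

/-- multiplication by a number of size `2^A` -/
lemma mulA (h : Bd K c e m (x * q2 A)) (h' : Bd K c' e' (A + n) y) :
    Bd K (c * c') (e + e') (m + n) (x * y) := by
  have h1 : Bd K c' e' n ((2 : ℝ) ^ A * y) := by
    unfold Bd at *
    rw [abs_mul, abs_of_pos (by positivity : (0 : ℝ) < 2 ^ A)]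
    calc (2 : ℝ) ^ A * |y| ≤ 2 ^ A * (c' * K ^ e' * q2 (A + n)) :=
          mul_le_mul_of_nonneg_left h' (by positivity)
      _ = (2 ^ A * q2 A) * (c' * K ^ e' * q2 n) := by rw [q2_add]; ring
      _ = _ := by rw [q2_mul_pow, one_mul]
  have h2 := h.mul h1
  have e1 : x * q2 A * (2 ^ A * y) = x * y := by
    calc x * q2 A * (2 ^ A * y) = (2 ^ A * q2 A) * (x * y) := by ring
      _ = x * y := by rw [q2_mul_pow, one_mul]
  rwa [e1] at h2

/-- scaling -/
lemma scale {s : ℕ} (h : Bd K c e n x) (hK : 1 ≤ K) (hs : s + n' ≤ n) :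
    Bd K c e n' ((2 : ℝ) ^ s * x) := by
  have h' : Bd K c e (s + n') x := h.mono hK le_rfl le_rfl hs
  unfold Bd at *
  rw [abs_mul, abs_of_pos (by positivity : (0 : ℝ) < 2 ^ s)]
  calc (2 : ℝ) ^ s * |x| ≤ 2 ^ s * (c * K ^ e * q2 (s + n')) :=
        mul_le_mul_of_nonneg_left h' (by positivity)
    _ = (2 ^ s * q2 s) * (c * K ^ e * q2 n') := by rw [q2_add]; ring
    _ = _ := by rw [q2_mul_pow, one_mul]

/-- halves -/
lemma half (h : Bd K c e n x) : Bd K c e n (x / 2) := by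
  unfold Bd at *
  rw [abs_div, abs_of_pos (by norm_num : (0 : ℝ) < 2)]
  have := abs_nonneg x
  linarith

lemma const (hx : |x| ≤ c) : Bd K c 0 0 x := by
  unfold Bd q2
  simpa using hx

lemma of_le (hx : |x| ≤ K) : Bd K 1 1 0 x := by
  unfold Bd q2
  simpa using hx

lemma le {ρ : ℝ} (h : Bd K c e n x) (hρ : (c : ℝ) * K ^ e * q2 n ≤ ρ) : |x| ≤ ρ := h.trans hρ

lemma congr (h : Bd K c e n x) (hxy : x = y) : Bd K c e n y := hxy ▸ h

end Bd

end Vale.Agent.P106.U.H683
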