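import Vale.Agent.P106.U.H84.Cha

/-!
# P106 / U / H683 : change of the frame of the nominal positions (helper683)

Two paths `C`, `C2` over the same rays, own slopes, margin, offsets; the steps `j` of `C`, `j2` of `C2`; the same late time
(`C.s i = C2.s i2`).

* `Nfr` : the levels; `Agf` : agreement of the two functionals, written at the late time.
* `hc_fr` : the nominal position of `C` has a bounded number of values, given the nominal position of `C2`, both letters and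
  the late time.
-/

set_option autoImplicit false

namespace Vale.Agent.P106.U.H683.FzA

open Finset Vale.Agent.P127 Vale.Agent.P127.Stk
open Vale.Agent.P127.U.CellD (q2 rd q2_pos q2_add q2_le rd_err rd_sub fl1_fl1)
open Vale.Agent.P106.U.Cell Vale.Agent.P106.U.H84

variable {Ω τ τ2 : Type}

/-- two frames: the levels -/
structure Nfr (C : Pth Ω τ) (C2 : Pth Ω τ2) (ρ j j2 i i2 b : ℕ) : Prop where
  l : C2.l = C.l
  p : C2.p = C.p
  μ : C2.μ = C.μ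
  o : C2.o = C.o
  /-- the late time -/
  s : ∀ ω, C2.s i2 ω = C.s i ω
  ji : j ≤ i
  ji2 : j2 ≤ i2
  a : C.a j ≤ C2.a j2
  f : C.rf j ≤ C2.rf j2
  R : C.R j b ≤ C2.R j2 b
  /-- precision of the agreement -/
  r1 : C.R j b ≤ ρ + b
  r2 : ρ ≤ C.R j b
  L : C.Lev j b

/-- agreement of the two functionals, written at the late time -/
structure Agf (C : Pth Ω τ) (C2 : Pth Ω τ2) (K : ℝ) (ρ j j2 i i2 : ℕ) (ω : Ω) : Prop where
  ok : C.Ok K ω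
  ok2 : C2.Ok K ω
  c : |(C2.F j2 ω).cN (C2.l ω) (C2.s j2 ω) - (C.F j ω).cN (C.l ω) (C.s j ω)| ≤ K * q2 ρ
  k : |(Fs C2 i2 j2 ω).ka - (Fs C i j ω).ka| ≤ 2 * K * q2 ρ
  al : |(C2.F j2 ω).al - (C.F j ω).al| * q2 (C2.a j2) ≤ K * q2 ρ

/-- two points with the same position of `C2` and the same letters -/
structure Pq (C : Pth Ω τ) (C2 : Pth Ω τ2) (j j2 i i2 b : ℕ) (ω ω' : Ω) : Prop where
  T : C.T j ω' = C.T j ω
  T2 : C2.T j2 ω' = C2.T j2 ω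
  s : C.s i ω' = C.s i ω
  v : fl1 b (C.l ω').v = fl1 b (C.l ω).v
  w : fl1 (b - C.μ) ((C.l ω').w + C.o 1) = fl1 (b - C.μ) ((C.l ω).w + C.o 1)
  X : fl1 (C2.a j2 + b) ((C.l ω').X (C.s i ω')) = fl1 (C2.a j2 + b) ((C.l ω).X (C.s i ω))
  N : fl1 (C2.a j2 + b) ((C.l ω').N (C.s i ω')) = fl1 (C2.a j2 + b) ((C.l ω).N (C.s i ω))
  Z : fl1 (C2.a j2 + 2 * b) (C.Zs b (C.s i ω') ω') = fl1 (C2.a j2 + 2 * b) (C.Zs b (C.s i ω) ω)
  sl : fl1 (C2.R j2 b) (C2.sl j2 b ω' + C2.o 4) = fl1 (C2.R j2 b) (C2.sl j2 b ω + C2.o 4)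
  g : fl1 (C2.a j2 + b + C2.R j2 b) ((Gs C2 i2 j2 b ω').g (C2.l ω') (C2.s i2 ω')) =
    fl1 (C2.a j2 + b + C2.R j2 b) ((Gs C2 i2 j2 b ω).g (C2.l ω) (C2.s i2 ω))

section one

variable {C : Pth Ω τ} {C2 : Pth Ω τ2} {K : ℝ} {ρ j j2 i i2 b : ℕ} {ω ω' : Ω}

lemma ka_of {C : Pth Ω τ} {k : ℕ} (h : C.T k ω' = C.T k ω) : (C.F k ω').ka = (C.F k ω).ka := by
  unfold Pth.F Pth.Fv
  rw [h]

lemma ga_of {C : Pth Ω τ} {k : ℕ} (h : C.T k ω' = C.T k ω) : (C.F k ω').ga = (C.F k ω).ga := by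
  unfold Pth.F Pth.Fv
  rw [h]

lemma al_of {C : Pth Ω τ} {k : ℕ} (h : C.T k ω' = C.T k ω) : (C.F k ω').al = (C.F k ω).al := by
  unfold Pth.F Pth.Fv
  rw [h]

lemma kas_of {C : Pth Ω τ} {i k : ℕ} (h : C.T k ω' = C.T k ω) (hs : C.s i ω' = C.s i ω) :
    (Fs C i k ω').ka = (Fs C i k ω).ka := by
  unfold Fs Fu.sh
  rw [ka_of h, al_of h, hs, s_eq C h]

lemma Nfr.s2 (N : Nfr C C2 ρ j j2 i i2 b) (h : Pq C C2 j j2 i i2 b ω ω') : C2.s i2 ω' = C2.s i2 ω := by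
  rw [N.s, N.s, h.s]

lemma Agf.c4 (N : Nfr C C2 ρ j j2 i i2 b) (ho : Agf C C2 K ρ j j2 i i2 ω) :
    |(Fs C2 i2 j2 ω).cN (C.l ω) (C.s i ω) - (Fs C i j ω).cN (C.l ω) (C.s i ω)| ≤ K * q2 ρ := by
  have h1 := ho.c
  have e1 : (Fs C2 i2 j2 ω).cN (C.l ω) (C.s i ω) = (C2.F j2 ω).cN (C2.l ω) (C2.s j2 ω) := by
    rw [← N.s, ← N.l]
    unfold Fs
    rw [cN_F]
  have e2 : (Fs C i j ω).cN (C.l ω) (C.s i ω) = (C.F j ω).cN (C.l ω) (C.s j ω) := by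
    unfold Fs
    rw [cN_F]
  rw [e1, e2]
  exact h1

lemma hsl2 (N : Nfr C C2 ρ j j2 i i2 b) (h : Pq C C2 j j2 i i2 b ω ω') :
    |(Fs C2 i2 j2 ω').ph - (Fs C2 i2 j2 ω).ph| ≤ q2 (C2.R j2 b) := by
  have hbs : C2.bs j2 b ≤ b := by unfold Pth.bs; omega
  have := fl1_close h.sl
  rw [add_sub_add_right_eq_sub] at this
  have e : C2.sl j2 b ω' - C2.sl j2 b ω = (Fs C2 i2 j2 ω').ph - (Fs C2 i2 j2 ω).ph := by
    unfold Pth.sl
    rw [ka_of h.T2, N.l, rd_eq (fl1_fl1 hbs h.v)]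
    unfold Fs Fu.sh
    ring
  rwa [e] at this

lemma hsl1 (h : Pq C C2 j j2 i i2 b ω ω') :
    C.sl j b ω' - C.sl j b ω = (Fs C i j ω').ph - (Fs C i j ω).ph := by
  have hbs0 : C.bs j b ≤ b := by unfold Pth.bs; omega
  unfold Pth.sl
  rw [ka_of h.T, rd_eq (fl1_fl1 hbs0 h.v)]
  unfold Fs Fu.sh
  ring

/-- the slope of a functional at the late time -/
lemma ph_of {C : Pth Ω τ} {i k : ℕ} (hT : C.T k ω' = C.T k ω) (hs : C.s i ω' = C.s i ω) :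
    (Fs C i k ω').ph = rd (C.rf k) (C.p ω') * ((Fs C i k ω).ga - (Fs C i k ω).ka * (C.l ω').w -
      (Fs C i k ω).al * (C.l ω').N (C.s i ω)) - (Fs C i k ω).ka * (C.l ω').v -
      (Fs C i k ω).al * (C.l ω').X (C.s i ω) := by
  rw [Fs_ph, kas_of hT hs, show (Fs C i k ω').al = (Fs C i k ω).al from al_of hT, hs]
  unfold Fu.cN
  rw [show (Fs C i k ω').ga = (Fs C i k ω).ga from ga_of hT, kas_of hT hs,
    show (Fs C i k ω').al = (Fs C i k ω).al from al_of hT]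

lemma cK_of {C : Pth Ω τ} {i k : ℕ} (h0 : 0 ≤ K) (ho : C.Ok K ω') (hT : C.T k ω' = C.T k ω) (hs : C.s i ω' = C.s i ω) :
    |(Fs C i k ω).ga - (Fs C i k ω).ka * (C.l ω').w - (Fs C i k ω).al * (C.l ω').N (C.s i ω)| ≤ K := by
  have c3 := co_cK (i' := i) h0 ho k
  unfold Fu.cN at c3
  rw [show (Fs C i k ω').ga = (Fs C i k ω).ga from ga_of hT, kas_of hT hs,
    show (Fs C i k ω').al = (Fs C i k ω).al from al_of hT, hs] at c3
  exact c3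

/-- **slope** -/
lemma sl_close (hK : 1 ≤ K) (N : Nfr C C2 ρ j j2 i i2 b) (h : Pq C C2 j j2 i i2 b ω ω')
    (ho : Agf C C2 K ρ j j2 i i2 ω) (ho' : Agf C C2 K ρ j j2 i i2 ω') :
    |C.sl j b ω' - C.sl j b ω| ≤ 24 * K ^ 3 * q2 (C.R j b) := by
  have hs := h.s
  have hs2 := N.s2 h
  have hv := fl1_close h.v
  have hw : |(C.l ω').w - (C.l ω).w| ≤ q2 (b - C.μ) := by
    have := fl1_close h.w
    rwa [add_sub_add_right_eq_sub] at this
  have hX : |(C.l ω').X (C.s i ω) - (C.l ω).X (C.s i ω)| ≤ q2 (C2.a j2) * q2 b := by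
    have := fl1_close h.X
    rwa [hs, q2_add] at this
  have hN : |(C.l ω').N (C.s i ω) - (C.l ω).N (C.s i ω)| ≤ q2 (C2.a j2) * q2 b := by
    have := fl1_close h.N
    rwa [hs, q2_add] at this
  have hL1 : 8 * C.μ ≤ b := N.L.1
  have hL2 : 8 * C.μ ≤ C.R j b := N.L.2
  have hRf : C.R j b ≤ C.rf j := R_le_rf C
  have hR := N.R
  have hr1 := N.r1
  have hr2 := N.r2
  have hlev2 : C2.Lev j2 b := ⟨by rw [N.μ]; exact hL1, by rw [N.μ]; omega⟩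
  have hsl := hsl2 N h
  have h0 : 0 ≤ K := by linarith
  have c1 := co_c1 (i' := i2) ho.ok2 j2
  have c2 := cK_of (i := i2) h0 ho.ok2 (rfl : C2.T j2 ω = C2.T j2 ω) rfl
  have c3 := cK_of (i := i2) h0 ho'.ok2 h.T2 hs2
  have c4 := ho.c4 N
  have hk := ho.k
  have ha : |(Fs C2 i2 j2 ω).al - (Fs C i j ω).al| * q2 (C2.a j2) ≤ K * q2 ρ := ho.al
  have hck := co_k ho.ok2 N.ji2
  have hca : |(Fs C2 i2 j2 ω).al| * q2 (C2.a j2) ≤ K := co_a ho.ok2 j2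
  have hp1 : |rd (C2.rf j2) (C.p ω')| ≤ 2 * q2 (2 * C.μ) := by
    have := rp_le ho'.ok2 hlev2 (le_refl j2)
    rwa [N.p, N.μ] at this
  rw [hsl1 h, ph_of h.T hs, ph_of (rfl : C.T j ω = C.T j ω) rfl]
  rw [ph_of h.T2 hs2, ph_of (rfl : C2.T j2 ω = C2.T j2 ω) rfl, N.s, N.l, N.p] at hsl
  rw [N.s, N.l] at c1 c2 c3
  unfold Fu.cN at c1 c4
  exact slope_real (t1 := q2 (C2.a j2)) (r := q2 ρ) (m2 := q2 (2 * C.μ)) (bs := q2 (C.R j b - ρ)) (f := q2 (C.rf j)) hK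
    (q2_pos b) (q2_pos ρ) hv hw hX hN
    (q2_le (by omega)) (by rw [← q2_add]; exact q2_le (by omega)) (q2_le (by omega))
    (by rw [← q2_add]; congr 1; omega) (by rw [← q2_add]; exact q2_le (by omega)) (q2_le hR) (q2_le (by omega))
    (q2_le hRf) (q2_le (by omega)) (rp_le ho'.ok N.L le_rfl) hp1 (rd_sub N.f _) (rd_sub N.f _) c1 c2 c3 hck hca hk ha c4
    hsl

lemma Gs_eq {C : Pth Ω τ} {i k b : ℕ} (hT : C.T k ω' = C.T k ω) (hs : C.s i ω' = C.s i ω)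
    (hv : fl1 b (C.l ω').v = fl1 b (C.l ω).v)
    (hr : fl1 (C.R k b) (C.sl k b ω' + C.o 4) = fl1 (C.R k b) (C.sl k b ω + C.o 4)) :
    Gs C i k b ω' = Gs C i k b ω := by
  have hbs : C.bs k b ≤ b := by unfold Pth.bs; omega
  have e : C.ro 4 (C.R k b) (C.sl k b ω') = C.ro 4 (C.R k b) (C.sl k b ω) := by
    unfold Pth.ro
    rw [rd_eq hr]
  unfold Gs Fu.sh Pth.Fr
  simp only
  rw [e, ka_of hT, al_of hT, ga_of hT, hs, s_eq C hT, rd_eq (fl1_fl1 hbs hv)]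

/-- **value** -/
lemma g_close (hK : 1 ≤ K) (N : Nfr C C2 ρ j j2 i i2 b) (h : Pq C C2 j j2 i i2 b ω ω')
    (ho : Agf C C2 K ρ j j2 i i2 ω)
    (hr : fl1 (C.R j b) (C.sl j b ω' + C.o 4) = fl1 (C.R j b) (C.sl j b ω + C.o 4)) :
    |(Gs C i j b ω').g (C.l ω') (C.s i ω') - (Gs C i j b ω).g (C.l ω) (C.s i ω)| ≤
      118 * K ^ 5 * q2 (C.a j + b + C.R j b) := by
  have hs := h.s
  have hs2 := N.s2 h
  have hL1 : 8 * C.μ ≤ b := N.L.1
  have hL2 : 8 * C.μ ≤ C.R j b := N.L.2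
  have hRf : C.R j b ≤ C.rf j := R_le_rf C
  have hR := N.R
  have hr1 := N.r1
  have hr2 := N.r2
  have hlev2 : C2.Lev j2 b := ⟨by rw [N.μ]; exact hL1, by rw [N.μ]; omega⟩
  have hX : |(C.l ω').X (C.s i ω) - (C.l ω).X (C.s i ω)| ≤ q2 (C2.a j2) * q2 b := by
    have := fl1_close h.X
    rwa [hs, q2_add] at this
  have hN : |(C.l ω').N (C.s i ω) - (C.l ω).N (C.s i ω)| ≤ q2 (C2.a j2) * q2 b := by
    have := fl1_close h.N
    rwa [hs, q2_add] at this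
  have hv : |(C.l ω).v - rd b (C.l ω).v| ≤ q2 b := by
    rw [abs_sub_comm]; exact rd_err _ _
  have hw : |(C.l ω).w - C.ro 1 (b - C.μ) (C.l ω).w| ≤ q2 (b - C.μ) := by
    have := rd_err (b - C.μ) ((C.l ω).w + C.o 1)
    rw [abs_sub_comm] at this
    have e : (C.l ω).w - C.ro 1 (b - C.μ) (C.l ω).w =
        (C.l ω).w + C.o 1 - rd (b - C.μ) ((C.l ω).w + C.o 1) := by
      unfold Pth.ro; ring
    rwa [e]
  have hz : |(C.l ω).dz (C.l ω') (C.s i ω) +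
      ((C.l ω).v - rd b (C.l ω).v) * ((C.l ω').X (C.s i ω) - (C.l ω).X (C.s i ω)) +
      ((C.l ω).w - C.ro 1 (b - C.μ) (C.l ω).w) *
        ((C.l ω').N (C.s i ω) - (C.l ω).N (C.s i ω))| ≤ q2 (C2.a j2) * q2 b * q2 b := by
    have := fl1_close h.Z
    have e2 : C.ro 1 (b - C.μ) (C.l ω').w = C.ro 1 (b - C.μ) (C.l ω).w := by
      unfold Pth.ro
      rw [rd_eq h.w]
    have e : C.Zs b (C.s i ω') ω' - C.Zs b (C.s i ω) ω =
        (C.l ω).dz (C.l ω') (C.s i ω) +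
      ((C.l ω).v - rd b (C.l ω).v) * ((C.l ω').X (C.s i ω) - (C.l ω).X (C.s i ω)) +
      ((C.l ω).w - C.ro 1 (b - C.μ) (C.l ω).w) *
        ((C.l ω').N (C.s i ω) - (C.l ω).N (C.s i ω)) := by
      unfold Pth.Zs Ray.dz
      rw [e2, rd_eq h.v, hs]
      ring
    rw [e] at this
    refine this.trans (le_of_eq ?_)
    rw [q2_add, two_mul, q2_add]
    ring
  have hG := Gs_sub (C := C2) (i' := i2) (b := b) (ω := ω) j2 (C2.l ω')
  have hF := Gs_sub (C := C) (i' := i) (b := b) (ω := ω) j (C.l ω')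
  have hGs : |(Gs C2 i2 j2 b ω).g (C2.l ω') (C2.s i2 ω) -
      (Gs C2 i2 j2 b ω).g (C2.l ω) (C2.s i2 ω)| ≤
      q2 (C2.a j2) * q2 b * q2 (C2.R j2 b) := by
    have := fl1_close h.g
    have hv2 : fl1 b (C2.l ω').v = fl1 b (C2.l ω).v := by rw [N.l]; exact h.v
    rw [Gs_eq h.T2 hs2 hv2 h.sl, hs2] at this
    refine this.trans (le_of_eq ?_)
    rw [q2_add, q2_add]
  rw [Gs_eq h.T hs h.v hr, hs]
  have hp1 : |rd (C2.rf j2) (C.p ω)| ≤ 2 * q2 (2 * C.μ) := by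
    have := rp_le ho.ok2 hlev2 (le_refl j2)
    rwa [N.p, N.μ] at this
  have c1 := co_c1 (i' := i2) ho.ok2 j2
  have c2 := co_cK (i' := i2) (by linarith) ho.ok2 j2
  have c4 := ho.c4 N
  rw [N.s, N.l, N.p] at hG
  rw [N.s, N.l] at hGs c1 c2
  have hdN := dN_real hK (q2_pos b) (q2_pos (C2.a j2)) (q2_pos (2 * C.μ)).le hX hN hv hw hz
    (q2_le (by omega)) (q2_le (by omega)) hp1 c1 c2 (co_k ho.ok2 N.ji2) (co_a ho.ok2 j2) (er_le j2) hG hGs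
  have hdz := dz_real hK (q2_pos b) (q2_pos (C2.a j2)) hX hv hw hz (m2 := q2 (2 * C.μ))
    (by rw [← q2_add]; exact q2_le (by omega)) (by
      have : q2 (b - C.μ) ≤ q2 0 := q2_le (Nat.zero_le _)
      simpa [q2] using this) hdN
  refine (value_real hK (q2_pos b) (q2_pos ρ) (q2_pos _) (q2_le N.a)
    (q2_pos (C.R j b)) hX hN hdz (by rw [← q2_add]; exact q2_le (by omega)) (q2_le hR)
    (q2_le hRf) (rd_sub N.f _) (co_cK (by linarith) ho.ok j)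
    c1 c2 (co_k ho.ok N.ji) (co_a ho.ok j)
    ho.k ho.al c4 (er_le j) (er_le j2) hF hG hGs).trans (le_of_eq ?_)
  rw [q2_add, q2_add]

lemma Zs_eq (N : Nfr C C2 ρ j j2 i i2 b) (s : ℝ) (ω : Ω) : C2.Zs b s ω = C.Zs b s ω := by
  unfold Pth.Zs Pth.ro
  rw [N.l, N.μ, N.o]

lemma Pq_of (N : Nfr C C2 ρ j j2 i i2 b) (hA : C2.A j2 b i2 ω' = C2.A j2 b i2 ω) (hT : C.T j ω' = C.T j ω)
    (hT2 : C2.T j2 ω' = C2.T j2 ω) (hs : C.s i ω' = C.s i ω) : Pq C C2 j j2 i i2 b ω ω' := by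
  simp only [Pth.A, Prod.mk.injEq] at hA
  obtain ⟨h1, h2, h3, h4, h5, h6, h7⟩ := hA
  rw [N.l] at h1 h2 h3 h4
  rw [N.μ, N.o] at h2
  rw [N.s, N.s] at h3 h4 h5
  rw [Zs_eq N, Zs_eq N] at h5
  exact ⟨hT, hT2, hs, h1, h2, h3, h4, h5, h6, h7⟩

end one

/-- **change of the frame** : the nominal position of `C` has few values, given the nominal position of `C2`, both letters and the
late time -/
theorem hc_fr [Fintype Ω] (P : Law Ω) {C : Pth Ω τ} {C2 : Pth Ω τ2} {K : ℝ} {ρ j j2 i i2 b : ℕ} (hK : 1 ≤ K)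
    (N : Nfr C C2 ρ j j2 i i2 b) (hok : ∀ ω, 0 < P.w ω → Agf C C2 K ρ j j2 i i2 ω) {S : Type*} (Y : Ω → S)
    (hY : ∀ ω ω', 0 < P.w ω → 0 < P.w ω' → Y ω = Y ω' → C.T j ω = C.T j ω' ∧ C2.T j2 ω = C2.T j2 ω' ∧ C.s i ω = C.s i ω') :
    hc P (C.A j b i) (fun ω => (C2.A j2 b i2 ω, Y ω)) ≤ 2 * Real.log ((2 * ⌈118 * K ^ 5⌉₊ + 3 : ℕ) : ℝ) := by
  classical
  set M : ℕ := ⌈118 * K ^ 5⌉₊ with hM
  have hM1 : 118 * K ^ 5 ≤ (M : ℝ) := Nat.le_ceil _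
  have hM2 : 24 * K ^ 3 ≤ (M : ℝ) := by
    have h1 : K ^ 3 ≤ K ^ 5 := pow_le_pow_right₀ hK (by norm_num)
    have h2 : 0 ≤ K ^ 5 := by positivity
    linarith
  have ha : C.a j ≤ C2.a j2 := N.a
  have key : ∀ ω ω', 0 < P.w ω → 0 < P.w ω' → (C2.A j2 b i2 ω', Y ω') = (C2.A j2 b i2 ω, Y ω) →
      Pq C C2 j j2 i i2 b ω ω' := by
    intro ω ω' p p' e
    simp only [Prod.mk.injEq] at e
    obtain ⟨g1, g2, g3⟩ := hY ω' ω p' p e.2
    exact Pq_of N e.1 g1 g2 g3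
  set c6 : Ω → ℤ := fun ω => fl1 (C.R j b) (C.sl j b ω + C.o 4) with hc6
  set c7 : Ω → ℤ := fun ω => fl1 (C.a j + b + C.R j b)
    ((Gs C i j b ω).g (C.l ω) (C.s i ω)) with hc7
  have hcard : ∀ z : ℤ, (Finset.Icc (z - (M + 1)) (z + (M + 1))).card = 2 * M + 3 := by
    intro z
    rw [Int.card_Icc]
    omega
  have h1 : hc P c6 (fun ω => (C2.A j2 b i2 ω, Y ω)) ≤ Real.log ((2 * M + 3 : ℕ) : ℝ) := by
    refine hc_le_log P _ _ _ fun ω hω => ⟨Finset.Icc (c6 ω - (M + 1)) (c6 ω + (M + 1)),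
      (hcard _).le, fun ω' hω' e => ?_⟩
    have hp := key ω ω' hω hω' e
    have h2 := sl_close hK N hp (hok ω hω) (hok ω' hω')
    have h3 : |(C.sl j b ω' + C.o 4) - (C.sl j b ω + C.o 4)| ≤ M * q2 (C.R j b) := by
      rw [add_sub_add_right_eq_sub]
      refine h2.trans ?_
      have := q2_pos (C.R j b)
      gcongr
    have h4 := abs_le.1 (fl1_range h3)
    rw [Finset.mem_Icc]
    simp only [hc6]
    constructor <;> linarith [h4.1, h4.2]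
  have h2 : hc P (C.A j b i) (fun ω => (c6 ω, (C2.A j2 b i2 ω, Y ω))) ≤
      Real.log ((2 * M + 3 : ℕ) : ℝ) := by
    refine hc_le_log P _ _ _ fun ω hω => ⟨(Finset.Icc (c7 ω - (M + 1)) (c7 ω + (M + 1))).image
      (fun z => (fl1 b (C.l ω).v, fl1 (b - C.μ) ((C.l ω).w + C.o 1),
        fl1 (C.a j + b) ((C.l ω).X (C.s i ω)), fl1 (C.a j + b) ((C.l ω).N (C.s i ω)),
        fl1 (C.a j + 2 * b) (C.Zs b (C.s i ω) ω), c6 ω, z)),
      (Finset.card_image_le).trans (hcard _).le, fun ω' hω' e => ?_⟩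
    simp only [Prod.mk.injEq] at e
    obtain ⟨e6, e1, e2⟩ := e
    have hp := key ω ω' hω hω' (Prod.ext e1 e2)
    have h3 := g_close hK N hp (hok ω hω) e6
    have h4 : |(Gs C i j b ω').g (C.l ω') (C.s i ω') -
        (Gs C i j b ω).g (C.l ω) (C.s i ω)| ≤ M * q2 (C.a j + b + C.R j b) := by
      refine h3.trans ?_
      have := q2_pos (C.a j + b + C.R j b)
      gcongr
    have h5 := abs_le.1 (fl1_range h4)
    rw [Finset.mem_image]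
    refine ⟨c7 ω', ?_, ?_⟩
    · rw [Finset.mem_Icc]
      simp only [hc7]
      constructor <;> linarith [h5.1, h5.2]
    · have g1 := hp.v
      have g2 := hp.w
      have g3 := fl1_fl1 (show C.a j + b ≤ C2.a j2 + b by omega) hp.X
      have g4 := fl1_fl1 (show C.a j + b ≤ C2.a j2 + b by omega) hp.N
      have g5 := fl1_fl1 (show C.a j + 2 * b ≤ C2.a j2 + 2 * b by omega) hp.Z
      unfold Pth.A
      rw [g1, g2, g3, g4, g5]
      simp only [Prod.mk.injEq, true_and]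
      exact ⟨e6.symm, rfl⟩
  have h3 := hc_le_add P (C.A j b i) c6 (fun ω => (C2.A j2 b i2 ω, Y ω))
  linarith

end Vale.Agent.P106.U.H683.FzA
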