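import Vale.Agent.P106.U.H683.GenQ

/-!
# P106 / U / H683 : from the cube form to the stepwise form, arbitrary letters (helper683)

The same as `PhiA` with `C.s i' x = C.s i' y` in the place of the letter `Th`.
-/

set_option autoImplicit false

namespace Vale.Agent.P106.U.H683

open Finset Vale.Agent.P127 Vale.Agent.P127.Stk Vale.Agent.P106.U.Cell Vale.Agent.P106.TV
open Vale.Agent.P127.U.Pin Vale.Agent.P127.U.Mic
open Vale.Agent.P127.U.CellD (q2 rd rd_le lt_rd rd_err rd_mono rd_sub q2_pos q2_le q2_add q2_mul_pow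
  div_pow_eq fl1_fl1)

variable {Ω τ θ ω' : Type} {C : Pth Ω τ} {K : ℝ} {j k i' b b' p c0 m : ℕ} {x y : Ω}

section close

variable (hR : Reg C k i' b) (hJ : Rj C j k b) (hx : C.Ok K x) (hD : Dp C k b x = Dp C k b y)
  (hT : C.s i' x = C.s i' y) (hQ : Ql C j k i' b c0 x = Ql C j k i' b c0 y)

include hT hQ

lemma dX_Qg : Bd K 1 0 (C.a j + b) ((C.l y).X (C.s i' x) - (C.l x).X (C.s i' x)) := by
  have h := near_fl1 (Prod.mk.inj hQ).1
  rw [← hT] at h
  exact (Bd.mk0 h).symm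

lemma dZ_Qg : Bd K 1 0 (C.a j + 2 * b) (C.Zs b (C.s i' x) y - C.Zs b (C.s i' x) x) := by
  have h := near_fl1 (Prod.mk.inj (Prod.mk.inj hQ).2).1
  rw [← hT] at h
  exact (Bd.mk0 h).symm

include hD in
lemma dg_Qg : Bd K 1 0 (C.a j + b + C.R j b - c0)
    ((Fk C k i' b x).g (C.l y) (C.s i' x) - (Fk C k i' b x).g (C.l x) (C.s i' x)) := by
  have h := near_fl1 (Prod.mk.inj (Prod.mk.inj hQ).2).2
  rw [← hT, ← Fk_eq' hD hT] at h
  exact (Bd.mk0 h).symm

include hR hJ hx hD in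
lemma dN_Qg (hc0 : c0 ≤ C.rf j) :
    Bd K 44 2 (C.a j + b) ((C.l y).N (C.s i' x) - (C.l x).N (C.s i' x)) := by
  have hK := K_one hx
  have h8 := hR.b8; have hf := hR.f8; have hf2 := hJ.f8; have hRj := hJ.R; have hRk := hR.Rk
  have ha := C.ha hJ.jk
  have hn := nr_late hR hx hD
  have e0 := Fu.g_sub (Fk C k i' b x) (C.l x) (C.l y) (C.s i' x)
  have t0 := (dg_Qg (K := K) hD hT hQ).mono (c' := 1) (e' := 1) (n' := C.a j + b) hK le_rfl (by omega)
    (by omega)
  have hcV : Bd K 3 1 (2 * C.μ) ((Fk C k i' b x).cV (C.l x) (C.s i' x)) := by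
    have h := Fu.cV_sh (Fn C k b (C.R k b) x) (C.l x) (C.s k x) (C.s i' x - C.s k x)
    rw [add_sub_cancel] at h
    unfold Fk
    rw [h]
    exact (cVn_bd hx (by omega)).mono hK (by omega) le_rfl le_rfl
  have t1 := (hcV.mul (dX_Qg (K := K) hT hQ)).mono (c' := 3) (e' := 1) (n' := C.a j + b) hK
    (by omega) (by omega) (by omega)
  have hal : Bd K 1 1 0 ((Fk C k i' b x).al * q2 (C.a k)) := Bd.of_le (by
    rw [abs_mul, abs_of_pos (q2_pos _)]
    exact hx.a1 k)
  have hka : Bd K 2 1 0 (Fk C k i' b x).ka := by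
    have h1 : Bd K 1 1 0 (C.F k x).ka := Bd.of_le (hx.k1 k)
    have h2 : Bd K 1 0 (C.a k + 0) (C.s i' x - C.s k x) := Bd.mk0 (s_near hR.ki x)
    have h3 := hal.mulA h2
    refine (h1.sub (h3.mono (c' := 1) (e' := 1) (n' := 0) hK (by omega) (by omega)
      (by omega))).congr ?_
    show _ = (C.F k x).ka - (C.s i' x - C.s k x) * (C.F k x).al
    show (C.F k x).ka - (C.F k x).al * (C.s i' x - C.s k x) = _
    ring
  have t2 := (hka.mul hn.z).mono (c' := 8) (e' := 1) (n' := C.a j + b) hK (by omega) (by omega)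
    (by omega)
  have x1 := (hn.X.mul hn.X).mono (c' := 16) (e' := 0) (n' := C.a k + (C.a k + 2 * b - 2 * C.μ)) hK
    (by omega) (by omega) (by omega)
  have x2 := (hn.N.mul hn.N).mono (c' := 16) (e' := 0) (n' := C.a k + (C.a k + 2 * b - 2 * C.μ)) hK
    (by omega) (by omega) (by omega)
  have t3 := ((hal.mulA (x1.add x2)).mono (c' := 32) (e' := 1) (n' := C.a j + b) hK (by omega)
    (by omega) (by omega)).half
  have t5 := ((t0.add t1).add t2).add t3
  have hcN : 0 < (Fk C k i' b x).cN (C.l x) (C.s i' x) := by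
    rw [Fk_cN]
    exact cN_pos hx
  have hinv : Bd K 1 1 0 (1 / (Fk C k i' b x).cN (C.l x) (C.s i' x)) := Bd.of_le (by
    have h1 := hx.n1 k
    rw [abs_of_pos (by positivity), div_le_iff₀ hcN, Fk_cN]
    exact h1)
  refine ((hinv.mul t5).mono hK (by omega) (by omega) (by omega)).congr ?_
  rw [div_mul_eq_mul_div, one_mul, div_eq_iff hcN.ne']
  linear_combination e0

include hR hJ hx hD in
lemma dz_Qg (hc0 : c0 ≤ C.rf j) :
    Bd K 46 2 (C.a j + 2 * b - C.μ) ((C.l x).dz (C.l y) (C.s i' x)) := by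
  have hK := K_one hx
  have h8 := hR.b8
  rw [dz_Zs _ (cell_rv (Dp_cell hD) le_rfl) (cell_rw (Dp_cell hD))]
  have t1 := (dZ_Qg (K := K) hT hQ).mono (c' := 1) (e' := 2) (n' := C.a j + 2 * b - C.μ) hK le_rfl
    (by omega) (by omega)
  have t2 := ((v_err (K := K) (C := C) (b := b) x).mul (dX_Qg (K := K) hT hQ)).mono (c' := 1)
    (e' := 2) (n' := C.a j + 2 * b - C.μ) hK (by omega) (by omega) (by omega)
  have t3 := ((w_err (K := K) (C := C) (b := b) x).mul (dN_Qg hR hJ hx hD hT hQ hc0)).mono (c' := 44)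
    (e' := 2) (n' := C.a j + 2 * b - C.μ) hK (by omega) (by omega) (by omega)
  exact (t1.sub t2).sub t3

end close

/-- the normal position of level `j`, given the slope digits -/
lemma dgj_Qg (hR : Reg C k i' b) (hJ : Rj C j k b) (hx : C.Ok K x)
    (hD : Dp C k b x = Dp C k b y) (hT : C.s i' x = C.s i' y)
    (hQ : Ql C j k i' b c0 x = Ql C j k i' b c0 y) (hc0 : c0 ≤ C.rf j)
    (hsl : fl1 (C.R j b) (C.sl j b x + C.o 4) = fl1 (C.R j b) (C.sl j b y + C.o 4)) :
    Bd K (2 ^ c0 + 4062) 7 (C.a j + b + C.R j b) (gj C j i' b y - gj C j i' b x) := by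
  have hK := K_one hx
  have hb8 := hR.b8; have hf := hR.f8; have hf2 := hJ.f8; have hRj := hJ.R; have hRk := hR.Rk
  have hfj := C.hf hJ.jk; have ha := C.ha hJ.jk; have hj4 := hJ.hj; have ham := hJ.am
  have hTj : C.T j x = C.T j y := T_mono hJ.jk (Dp_T hD)
  have hsj : C.s j x = C.s j y := s_T hTj
  have hsi := hT
  have hF : C.Fr j b (C.R j b) x = C.Fr j b (C.R j b) y := Fr_eq hTj (Dp_v hD) hsl
  have hSz := sz_Gjk hJ hx
  set d := C.s i' x - C.s k x with hd
  -- the difference of the two functionals at the late time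
  have hG : (Gjk C j k b x).sh d = cmb ((C.Fr j b (C.R j b) x).sh (C.s i' x - C.s j x))
      (Fk C k i' b x) (rjk C j k b x) := by
    unfold Gjk Fjk Fk
    rw [cmb_sh, sh_sh]
    congr 2
    rw [hd]
    ring
  have e0 := Fu.g_sub ((Gjk C j k b x).sh d) (C.l x) (C.l y) (C.s i' x)
  have hcN : ((Gjk C j k b x).sh d).cN (C.l x) (C.s i' x) = 0 := by
    have h := Fu.cN_sh (Gjk C j k b x) (C.l x) (C.s k x) d
    rw [show C.s k x + d = C.s i' x by rw [hd]; ring] at h
    rw [h]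
    exact hSz.cN
  have hcV : ((Gjk C j k b x).sh d).cV (C.l x) (C.s i' x) = (Gjk C j k b x).cV (C.l x) (C.s k x) := by
    have h := Fu.cV_sh (Gjk C j k b x) (C.l x) (C.s k x) d
    rwa [show C.s k x + d = C.s i' x by rw [hd]; ring] at h
  have hka : Bd K 4 3 (C.rk j) ((Gjk C j k b x).sh d).ka := by
    have h1 : Bd K 1 0 (C.a k + 0) d := Bd.mk0 (s_near hR.ki x)
    refine ((hSz.ka.sub ((hSz.al.mulA h1).mono (c' := 2) (e' := 3) (n' := C.rk j) hK (by omega)
      (by omega) (by omega))).congr ?_)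
    show (Gjk C j k b x).ka - (Gjk C j k b x).al * d =
      (Gjk C j k b x).ka - d * (Gjk C j k b x).al
    ring
  have hal : Bd K 2 3 (C.rk j) (((Gjk C j k b x).sh d).al * q2 (C.a k)) := hSz.al
  rw [hcN, hcV] at e0
  have dX := dX_Qg (K := K) hT hQ
  have dN := dN_Qg hR hJ hx hD hT hQ hc0
  have dz := dz_Qg hR hJ hx hD hT hQ hc0
  have t1 := ((rjk_bd (j := j) (k := k) (b := b) hx).mul ((dg_Qg (K := K) hD hT hQ).up
    (by omega))).mono (c' := 2 ^ c0) (e' := 7) (n' := C.a j + b + C.R j b) hK (by omega)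
    (by omega) (by omega)
  have t2 := ((Gjk_cV hR hJ hx).mul dX).mono (c' := 4) (e' := 7) (n' := C.a j + b + C.R j b) hK
    (by omega) (by omega) (by omega)
  have t3 := (hka.mul dz).mono (c' := 184) (e' := 7) (n' := C.a j + b + C.R j b) hK
    (by omega) (by omega) (by omega)
  have x1 := (dX.mul dX).mono (c' := 1) (e' := 4) (n' := C.a k + (2 * C.a j + 2 * b - C.a k)) hK
    (by omega) (by omega) (by omega)
  have x2 := (dN.mul dN).mono (c' := 1936) (e' := 4) (n' := C.a k + (2 * C.a j + 2 * b - C.a k)) hK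
    (by omega) (by omega) (by omega)
  have t4 := ((hal.mulA (x1.add x2)).mono (c' := 3874) (e' := 7) (n' := C.a j + b + C.R j b) hK
    (by omega) (by omega) (by omega)).half
  refine ((((t1.sub t2).sub t3).sub t4).congr ?_).mono hK (by omega) le_rfl le_rfl
  rw [hG, cmb_g, cmb_g] at e0
  unfold gj
  rw [← hF, ← hsj, ← hsi]
  rw [hG]
  linear_combination (-1 : ℝ) * e0

/-- **`A j b i'` has a bounded number of values given `(Ql, Dp, Θ)`** -/
theorem A_leg [Fintype Ω] (P : Law Ω) (hR : Reg C k i' b) (hJ : Rj C j k b)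
    (hok : ∀ ω, 0 < P.w ω → C.Ok K ω) {Θ : Ω → θ}
    (hΘ : ∀ x y, 0 < P.w x → 0 < P.w y → Dp C k b x = Dp C k b y → Θ x = Θ y → C.s i' x = C.s i' y)
    (hc0 : c0 ≤ C.rf j) (M : ℕ)
    (hM : ((2 ^ c0 + 4062 : ℕ) : ℝ) * K ^ 7 ≤ M) :
    hc P (C.A j b i') (fun ω => (Ql C j k i' b c0 ω, (Dp C k b ω, Θ ω))) ≤
      3 * Real.log (2 * M + 3) := by
  classical
  have hpow : 1 ≤ 2 ^ c0 := Nat.one_le_two_pow
  have hb0 : ∀ (c e n : ℕ) (z : ℝ), 1 ≤ K → c ≤ 2 ^ c0 + 4062 → e ≤ 7 → Bd K c e n z →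
      |z| ≤ M * q2 n := by
    intro c e n z hK hc he h
    have h1 := h.mono (c' := 2 ^ c0 + 4062) (e' := 7) (n' := n) hK hc he le_rfl
    unfold Bd at h1
    exact h1.trans (mul_le_mul_of_nonneg_right hM (q2_pos n).le)
  -- the slope digits
  have s1 : hc P (fun ω => fl1 (C.R j b) (C.sl j b ω + C.o 4))
      (fun ω => (Ql C j k i' b c0 ω, (Dp C k b ω, Θ ω))) ≤ Real.log ((2 * M + 3 : ℕ) : ℝ) := by
    refine hc_le_log P _ _ (2 * M + 3) ?_
    intro x px
    refine ⟨Finset.Icc (fl1 (C.R j b) (C.sl j b x + C.o 4) - (M + 1))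
      (fl1 (C.R j b) (C.sl j b x + C.o 4) + (M + 1)), (card_Icc_near M _).le, ?_⟩
    intro y py e
    simp only [Prod.mk.injEq] at e
    have hx := hok x px
    have hK := K_one hx
    refine mem_Icc_near (Vale.Agent.P106.U.H364.fl1_le_of_near (M := M) ?_)
    rw [add_sub_add_right_eq_sub, hJ.R]
    exact hb0 24 3 _ _ hK (by omega) (by omega) (sl_close hR hJ hx (hok y py) e.2.1.symm)
  -- the rest
  have s2 : hc P (C.A j b i') (fun ω => (fl1 (C.R j b) (C.sl j b ω + C.o 4),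
      (Ql C j k i' b c0 ω, (Dp C k b ω, Θ ω)))) ≤
      Real.log (((2 * M + 3) * (2 * M + 3) : ℕ) : ℝ) := by
    refine hc_le_log P _ _ ((2 * M + 3) * (2 * M + 3)) ?_
    intro x px
    refine ⟨((Finset.Icc (fl1 (C.a j + b) ((C.l x).N (C.s i' x)) - (M + 1))
      (fl1 (C.a j + b) ((C.l x).N (C.s i' x)) + (M + 1))) ×ˢ
      (Finset.Icc (fl1 (C.a j + b + C.R j b) (gj C j i' b x) - (M + 1))
      (fl1 (C.a j + b + C.R j b) (gj C j i' b x) + (M + 1)))).image
      (fun q : ℤ × ℤ => (fl1 b (C.l x).v, fl1 (b - C.μ) ((C.l x).w + C.o 1),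
        fl1 (C.a j + b) ((C.l x).X (C.s i' x)), q.1, fl1 (C.a j + 2 * b) (C.Zs b (C.s i' x) x),
        fl1 (C.R j b) (C.sl j b x + C.o 4), q.2)), ?_, ?_⟩
    · refine Finset.card_image_le.trans ?_
      rw [Finset.card_product, card_Icc_near, card_Icc_near]
    · intro y py e
      simp only [Prod.mk.injEq] at e
      obtain ⟨e1, e2, e3, e4⟩ := e
      have hx := hok x px
      have hK := K_one hx
      have hD := e3.symm
      have hT := hΘ x y px py hD e4.symm
      rw [Finset.mem_image]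
      refine ⟨(fl1 (C.a j + b) ((C.l y).N (C.s i' y)), fl1 (C.a j + b + C.R j b) (gj C j i' b y)),
        ?_, ?_⟩
      · rw [Finset.mem_product]
        constructor
        · refine mem_Icc_near (Vale.Agent.P106.U.H364.fl1_le_of_near (M := M) ?_)
          have h := dN_Qg hR hJ hx hD hT e2.symm hc0
          rw [hT] at h
          have h5 := hb0 44 2 _ _ hK (by omega) (by omega) h
          rw [← hT] at h5
          rw [← hT]
          exact h5
        · refine mem_Icc_near (Vale.Agent.P106.U.H364.fl1_le_of_near (M := M) ?_)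
          exact hb0 _ _ _ _ hK le_rfl le_rfl (dgj_Qg hR hJ hx hD hT e2.symm hc0 e1.symm)
      · have f1 : fl1 b (C.l x).v = fl1 b (C.l y).v := Dp_v hD
        have f2 : fl1 (b - C.μ) ((C.l x).w + C.o 1) = fl1 (b - C.μ) ((C.l y).w + C.o 1) :=
          cell_fl (Dp_cell hD) 1
        have f3 := (Prod.mk.inj e2).1
        have f4 := (Prod.mk.inj (Prod.mk.inj e2).2).1
        simp only
        rw [f1, f2, ← f3, ← f4, ← e1]
        rfl
  have h := hc_le_add P (C.A j b i') (fun ω => fl1 (C.R j b) (C.sl j b ω + C.o 4))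
    (fun ω => (Ql C j k i' b c0 ω, (Dp C k b ω, Θ ω)))
  push_cast at s1 s2
  rw [Real.log_mul (by positivity) (by positivity)] at s2
  linarith

/-- the cube position has a bounded number of values given `A k b i'` -/
lemma Pi_leg [Fintype Ω] (P : Law Ω) (hR : Reg C k i' b) (hok : ∀ ω, 0 < P.w ω → C.Ok K ω)
    {Θ : Ω → θ} (hΘ : ∀ x y, 0 < P.w x → 0 < P.w y → Dp C k b x = Dp C k b y → Θ x = Θ y →
      C.s i' x = C.s i' y) (hc0 : c0 ≤ C.rf k) (M : ℕ) (hM : ((2 ^ c0 + 4062 : ℕ) : ℝ) * K ^ 7 ≤ M) :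
    hc P (fun ω => celi 1 (piN C k i' b c0 ω)) (fun ω => (C.A k b i' ω, (Dp C k b ω, Θ ω))) ≤
      Real.log (2 * M + 3) := by
  classical
  have hh := hc_le_log P (fun ω => celi 1 (piN C k i' b c0 ω))
    (fun ω => (C.A k b i' ω, (Dp C k b ω, Θ ω))) (2 * M + 3) ?_
  · push_cast at hh
    exact hh
  intro x px
  refine ⟨(Finset.Icc (celi 1 (piN C k i' b c0 x) 2 - (M + 1))
    (celi 1 (piN C k i' b c0 x) 2 + (M + 1))).image
    (fun q : ℤ => ![celi 1 (piN C k i' b c0 x) 0, celi 1 (piN C k i' b c0 x) 1, q]), ?_, ?_⟩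
  · exact Finset.card_image_le.trans (card_Icc_near M _).le
  · intro y py e
    simp only [Prod.mk.injEq] at e
    obtain ⟨e1, hD', hT'⟩ := e
    have hD := hD'.symm
    have hT := hΘ x y px py hD hT'.symm
    have hx := hok x px
    have hK := K_one hx
    have hRk := hR.Rk
    unfold Pth.A at e1
    simp only [Prod.mk.injEq] at e1
    obtain ⟨-, -, e2, -, e3, e5, e4⟩ := e1
    rw [Finset.mem_image]
    refine ⟨celi 1 (piN C k i' b c0 y) 2, ?_, ?_⟩
    · refine mem_Icc_near ?_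
      rw [celi1_2, celi1_2]
      refine Vale.Agent.P106.U.H364.fl1_le_of_near (M := M) ?_
      have hsi := hT
      have hsk : C.s k x = C.s k y := s_T (Dp_T hD)
      have hFr : C.Fr k b (C.R k b) x = C.Fr k b (C.R k b) y := Fr_eq (Dp_T hD) (Dp_v hD) e5.symm
      have h1 := near_fl1 e4
      rw [← hFr, ← hsi, ← hsk] at h1
      have dX := near_fl1 e2
      rw [← hsi] at dX
      have b1 : Bd K 1 0 (C.a k + b + C.R k b) _ := Bd.mk0 h1
      have b2 : Bd K 1 0 (C.a k + b) _ := Bd.mk0 dX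
      have b3 : Bd K 3 1 (C.R k b) ((Fn C k b (C.R k b) x).ph - (C.Fr k b (C.R k b) x).ph) :=
        Fn_ph_sub hx le_rfl (le_of_eq hRk) rfl rfl
      have b4 := (b3.mul b2).mono (c' := 3) (e' := 1) (n' := C.a k + b + C.R k b) hK (by omega)
        (by omega) (by omega)
      have b5 := (b1.mono (c' := 1) (e' := 1) (n' := C.a k + b + C.R k b) hK le_rfl (by omega)
        le_rfl).sub b4
      have b6 : Bd K 4 1 (C.a k + b + C.R k b) ((Fk C k i' b y).g (C.l y) (C.s i' y) -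
          (Fk C k i' b x).g (C.l x) (C.s i' x)) := by
        refine b5.congr ?_
        rw [← Fk_eq' hD hT, ← hsi]
        exact (g_ph (F := Fk C k i' b x) (G := (C.Fr k b (C.R k b) x).sh (C.s i' x - C.s k x))
          rfl rfl rfl).symm
      have hpow : 1 ≤ 2 ^ c0 := Nat.one_le_two_pow
      have b7 := b6.mono (c' := 2 ^ c0 + 4062) (e' := 7) (n' := C.a k + b + C.R k b - c0) hK
        (by omega) (by omega) (by omega)
      unfold Bd at b7
      exact b7.trans (mul_le_mul_of_nonneg_right hM (q2_pos _).le)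
    · funext i
      fin_cases i
      · show celi 1 (piN C k i' b c0 x) 0 = celi 1 (piN C k i' b c0 y) 0
        rw [celi1_0, celi1_0]
        exact e2.symm
      · show celi 1 (piN C k i' b c0 x) 1 = celi 1 (piN C k i' b c0 y) 1
        rw [celi1_1, celi1_1]
        exact e3.symm
      · rfl

/-- from the cube to the stepwise position -/
lemma step_coreg [Fintype Ω] (P : Law Ω) (hR : Reg C k i' b) (hJ : Rj C j k b)
    (hok : ∀ ω, 0 < P.w ω → C.Ok K ω)
    {Θ : Ω → θ} (hΘ : ∀ x y, 0 < P.w x → 0 < P.w y → Dp C k b x = Dp C k b y → Θ x = Θ y →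
      C.s i' x = C.s i' y) (hc0 : c0 ≤ C.rf j) (M : ℕ)
    (hM : ((2 ^ c0 + 4062 : ℕ) : ℝ) * K ^ 7 ≤ M) (L : ℝ) :
    hc P (fun ω => celi 1 (piN C k i' b c0 ω)) (fun ω => (Ql C j k i' b c0 ω,
      (celi L (piN C k i' b c0 ω), (Dp C k b ω, Θ ω)))) - 4 * Real.log (2 * M + 3) ≤
    hc P (C.A k b i') (fun ω => (C.A j b i' ω, C.cell k b ω, Θ ω)) := by
  set Q := Ql C j k i' b c0
  set Pi : Ω → Fin 3 → ℤ := fun ω => celi 1 (piN C k i' b c0 ω)
  set Pc : Ω → Fin 3 → ℤ := fun ω => celi L (piN C k i' b c0 ω)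
  set Z : Ω → ((τ × Pth.Dg) × ℤ) × θ := fun ω => (Dp C k b ω, Θ ω)
  have a1 : hc P (C.A k b i') (fun ω => (C.A j b i' ω, (Q ω, (Pc ω, Z ω)))) ≤
      hc P (C.A k b i') (fun ω => (C.A j b i' ω, C.cell k b ω, Θ ω)) := by
    refine hc_mono_right P _ ?_
    intro x y _ _ e
    simp only [Prod.mk.injEq] at e
    obtain ⟨e1, -, -, e4⟩ := e
    obtain ⟨e5, e6⟩ := Prod.mk.inj e4
    show (_, _, _) = (_, _, _)
    rw [e1, e6, Dp_cell e5]
  have a2 := hc_le_add P Pi (C.A k b i') (fun ω => (C.A j b i' ω, (Q ω, (Pc ω, Z ω))))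
  have a2' : hc P Pi (fun ω => (C.A k b i' ω, (C.A j b i' ω, (Q ω, (Pc ω, Z ω))))) ≤
      hc P Pi (fun ω => (C.A k b i' ω, Z ω)) := by
    refine hc_mono_right P _ ?_
    intro x y _ _ e
    simp only [Prod.mk.injEq] at e
    exact Prod.ext e.1 e.2.2.2.2
  have a6 := Pi_leg P hR hok hΘ (c0 := c0) (by have := C.hf hJ.jk; omega) M hM
  have a3 := hc_le_add' P Pi (C.A j b i') (fun ω => (Q ω, (Pc ω, Z ω)))
  have a4 : hc P (C.A j b i') (fun ω => (Q ω, (Pc ω, Z ω))) ≤
      hc P (C.A j b i') (fun ω => (Q ω, Z ω)) := by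
    refine hc_mono_right P _ ?_
    intro x y _ _ e
    simp only [Prod.mk.injEq] at e
    exact Prod.ext e.1 e.2.2
  have a5 := A_leg P hR hJ hok hΘ hc0 M hM
  linarith

end Vale.Agent.P106.U.H683
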