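import Vale.Agent.P106.U.H683.CellS

/-!
# P106 / U / H683 : the pair (cell of the step `k`, letter of the step `i'`), phi regime (helper683)

* `Dp` : cell and all digits of the slope; `Th` : letter of the late step with the digits of its slope.
* `Fk`, `Fi` : the nominal functionals of the steps `k` and `i'`, both written at the time of `i'`.
* `Reg` : deep phi regime.
* `gd_pair`, `res_near`, `g_late`, ...
-/

set_option autoImplicit false

namespace Vale.Agent.P106.U.H683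

open Vale.Agent.P127 Vale.Agent.P127.Stk Vale.Agent.P106.U.Cell
open Vale.Agent.P127.U.CellD (q2 rd rd_le lt_rd rd_err rd_mono rd_sub q2_pos q2_le q2_add q2_mul_pow
  div_pow_eq fl1_fl1)

variable {Ω τ : Type}

/-- cell and digits of the slope -/
noncomputable def Dp (C : Pth Ω τ) (k b : ℕ) (ω : Ω) : (τ × Pth.Dg) × ℤ :=
  (C.cell k b ω, fl1 (C.rf k) (slR C k b ω + C.o 4))

/-- the letter of the late step, with the digits of its slope -/
noncomputable def Th (C : Pth Ω τ) (i' b : ℕ) (ω : Ω) : τ × ℤ :=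
  (C.T i' ω, fl1 (C.rf i') (slR C i' b ω + C.o 4))

/-- nominal functional of the step `k`, written at the time of the step `i'` -/
noncomputable def Fk (C : Pth Ω τ) (k i' b : ℕ) (ω : Ω) : Fu :=
  (Fn C k b (C.R k b) ω).sh (C.s i' ω - C.s k ω)

/-- nominal functional of the late step -/
noncomputable def Fi (C : Pth Ω τ) (i' b : ℕ) (ω : Ω) : Fu := Fn C i' b (C.R i' b) ω

/-- the functional of the late cell -/
noncomputable def Fe (C : Pth Ω τ) (i' b : ℕ) (ω : Ω) : Fu := C.Fr i' b (C.R i' b - 3 * C.μ) ω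

/-- ratio of the N-coefficients -/
noncomputable def rh (C : Pth Ω τ) (k i' b : ℕ) (ω : Ω) : ℝ :=
  (Fk C k i' b ω).cN (C.l ω) (C.s i' ω) / (Fi C i' b ω).cN (C.l ω) (C.s i' ω)

/-- deep phi regime -/
structure Reg (C : Pth Ω τ) (k i' b : ℕ) : Prop where
  ki : k ≤ i'
  b8 : 8 * C.μ ≤ b
  f8 : 8 * C.μ ≤ C.rf k
  ha : C.a k + 8 * C.μ ≤ C.a i'
  hf : C.rf k + 8 * C.μ ≤ C.rf i'
  hb : C.rf k + C.a i' + 8 * C.μ ≤ b + C.rk k + C.a k
  hi : C.rf i' ≤ b + C.rk i'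

variable {C : Pth Ω τ} {K : ℝ} {k i' b b' m : ℕ} {x y r : Ω}

lemma Reg.bsk (h : Reg C k i' b) : C.bs k b = C.rf k - C.rk k := by
  have := h.hb; have := h.ha
  unfold Pth.bs
  omega

lemma Reg.Rk (h : Reg C k i' b) : C.R k b = C.rf k := by
  have := C.hkf k
  unfold Pth.R
  rw [h.bsk]
  omega

lemma Reg.bsi (h : Reg C k i' b) : C.bs i' b = C.rf i' - C.rk i' := by
  have := h.hi
  unfold Pth.bs
  omega

lemma Reg.Ri (h : Reg C k i' b) : C.R i' b = C.rf i' := by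
  have := C.hkf i'
  unfold Pth.R
  rw [h.bsi]
  omega

lemma Reg.bsk' (h : Reg C k i' b) (hb : b ≤ b') : C.bs k b' = C.rf k - C.rk k := by
  have := h.hb; have := h.ha
  unfold Pth.bs
  omega

lemma Reg.Rk' (h : Reg C k i' b) (hb : b ≤ b') : C.R k b' = C.rf k := by
  have := C.hkf k
  unfold Pth.R
  rw [h.bsk' hb]
  omega

lemma Reg.slk' (h : Reg C k i' b) (hb : b ≤ b') (ω : Ω) : C.sl k b' ω = C.sl k b ω := by
  unfold Pth.sl
  rw [h.bsk' hb, h.bsk]

lemma Reg.lvl (h : Reg C k i' b) : Lvl (C.rk k) (C.a i') (C.a k) b C.μ (C.rf k + 5 * C.μ) := by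
  have h1 := h.hb; have h2 := h.ha; have h3 := h.b8; have h4 := C.hkf k
  constructor <;> omega

lemma Reg.lvl' (h : Reg C k i' b) : Lvl (C.rk k) (C.a i') (C.a i') b C.μ (C.rf k) := by
  have h1 := h.hb; have h2 := h.ha; have h3 := h.b8; have h4 := C.hkf k
  constructor <;> omega

/-! ### equality of the functionals -/

lemma Dp_cell (h : Dp C k b x = Dp C k b y) : C.cell k b x = C.cell k b y := (Prod.mk.inj h).1

lemma Dp_T (h : Dp C k b x = Dp C k b y) : C.T k x = C.T k y := cell_T (Dp_cell h)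

lemma Dp_v (h : Dp C k b x = Dp C k b y) : fl1 b (C.l x).v = fl1 b (C.l y).v := cell_v (Dp_cell h)

lemma R_le_rf (C : Pth Ω τ) (k b : ℕ) : C.R k b ≤ C.rf k := by
  have := C.hkf k
  unfold Pth.R Pth.bs
  omega

lemma Dp_Fn (h : Dp C k b x = Dp C k b y) : Fn C k b (C.R k b) x = Fn C k b (C.R k b) y :=
  Fn_eq (Dp_T h) (Dp_v h) (fl1_fl1 (R_le_rf C k b) (Prod.mk.inj h).2)

lemma Dp_ro (h : Dp C k b x = Dp C k b y) :
    C.ro 4 (C.R k b) (slR C k b x) = C.ro 4 (C.R k b) (slR C k b y) := by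
  unfold Pth.ro rd
  rw [fl1_fl1 (R_le_rf C k b) (Prod.mk.inj h).2]

lemma Th_T (h : Th C i' b x = Th C i' b y) : C.T i' x = C.T i' y := (Prod.mk.inj h).1

lemma Th_s (h : Th C i' b x = Th C i' b y) : C.s i' x = C.s i' y := s_T (Th_T h)

lemma Fi_eq (hD : Dp C k b x = Dp C k b y) (h : Th C i' b x = Th C i' b y) :
    Fi C i' b x = Fi C i' b y :=
  Fn_eq (Th_T h) (Dp_v hD) (fl1_fl1 (R_le_rf C i' b) (Prod.mk.inj h).2)

lemma Fk_eq (hD : Dp C k b x = Dp C k b y) (h : Th C i' b x = Th C i' b y) :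
    Fk C k i' b x = Fk C k i' b y := by
  unfold Fk
  rw [Dp_Fn hD, Th_s h, s_T (Dp_T hD)]

/-! ### the functionals at the own ray -/

lemma Fk_cN (ω : Ω) : (Fk C k i' b ω).cN (C.l ω) (C.s i' ω) = (C.F k ω).cN (C.l ω) (C.s k ω) := by
  have h := Fu.cN_sh (Fn C k b (C.R k b) ω) (C.l ω) (C.s k ω) (C.s i' ω - C.s k ω)
  rw [add_sub_cancel] at h
  exact h

lemma Fi_cN (ω : Ω) : (Fi C i' b ω).cN (C.l ω) (C.s i' ω) = (C.F i' ω).cN (C.l ω) (C.s i' ω) := rfl

lemma Fk_cV (ω : Ω) : (Fk C k i' b ω).cV (C.l ω) (C.s i' ω) =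
    C.p ω * (C.F k ω).cN (C.l ω) (C.s k ω) - res C k b (C.R k b) ω := by
  have h := Fu.cV_sh (Fn C k b (C.R k b) ω) (C.l ω) (C.s k ω) (C.s i' ω - C.s k ω)
  rw [add_sub_cancel] at h
  exact h.trans (cV_Fn ω)

lemma Fi_cV (ω : Ω) : (Fi C i' b ω).cV (C.l ω) (C.s i' ω) =
    C.p ω * (C.F i' ω).cN (C.l ω) (C.s i' ω) - res C i' b (C.R i' b) ω := cV_Fn ω

lemma Fe_cV (ω : Ω) : (Fe C i' b ω).cV (C.l ω) (C.s i' ω) =
    C.p ω * (C.F i' ω).cN (C.l ω) (C.s i' ω) - rs C i' b (C.R i' b - 3 * C.μ) ω := cV_Fr ω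

lemma Fk_g (ω ω' : Ω) : (Fk C k i' b ω).g (C.l ω') (C.s i' ω) =
    (Fn C k b (C.R k b) ω).g (C.l ω') (C.s k ω) +
      (C.s i' ω - C.s k ω) * (Fn C k b (C.R k b) ω).gd (C.l ω') (C.s k ω) := by
  have h := Fu.g_sh (Fn C k b (C.R k b) ω) (C.l ω') (C.s k ω) (C.s i' ω - C.s k ω)
  rwa [add_sub_cancel] at h

lemma Fk_gd (ω ω' : Ω) : (Fk C k i' b ω).gd (C.l ω') (C.s i' ω) =
    (Fn C k b (C.R k b) ω).gd (C.l ω') (C.s k ω) := by
  have h := Fu.gd_sh (Fn C k b (C.R k b) ω) (C.l ω') (C.s k ω) (C.s i' ω - C.s k ω)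
  rwa [add_sub_cancel] at h

lemma rh_bd (hok : C.Ok K x) : Bd K 1 2 0 (rh C k i' b x) := by
  have hK := K_one hok
  have h1 : Bd K 1 1 0 ((Fk C k i' b x).cN (C.l x) (C.s i' x)) := by
    rw [Fk_cN]
    exact Bd.of_le (cN_abs hok)
  have h2 : 0 < (Fi C i' b x).cN (C.l x) (C.s i' x) := cN_pos hok
  have h3 : Bd K 1 1 0 (1 / (Fi C i' b x).cN (C.l x) (C.s i' x)) := Bd.of_le (by
    rw [abs_of_pos (by positivity), div_le_iff₀ h2]
    exact hok.n1 i')
  refine (h1.mul h3).congr ?_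
  unfold rh
  rw [mul_one_div]

lemma rh_mul (hok : C.Ok K x) : rh C k i' b x * (C.F i' x).cN (C.l x) (C.s i' x) =
    (C.F k x).cN (C.l x) (C.s k x) := by
  have h2 : 0 < (C.F i' x).cN (C.l x) (C.s i' x) := cN_pos hok
  unfold rh
  rw [Fk_cN, Fi_cN, div_mul_cancel₀ _ h2.ne']

/-- the difference of the two functionals -/
noncomputable def Gd (C : Pth Ω τ) (k i' b : ℕ) (ω : Ω) : Fu :=
  cmb (Fk C k i' b ω) (Fi C i' b ω) (rh C k i' b ω)

lemma sz_Gd (hR : Reg C k i' b) (hok : C.Ok K r) :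
    Sz K (C.rk k) (C.a i') (Gd C k i' b r) (C.l r) (C.s i' r) := by
  have hag := hok.ag k i' hR.ki
  exact sz_of (K_one hok) ⟨hag.cN, hag.ka, hag.al⟩ (hok.n1 i') (hok.k1 i') (hok.a1 i') rfl

lemma rsi_bd (hR : Reg C k i' b) (hok : C.Ok K x) :
    Bd K 2 1 (C.rf k + 5 * C.μ) (rs C i' b (C.R i' b - 3 * C.μ) x) := by
  have h1 := hR.Ri
  have h2 := hR.hf
  exact (rs_bd (b := b) hok (show C.R i' b - 3 * C.μ ≤ C.rf i' by omega)).mono (K_one hok) le_rfl
    le_rfl (by omega)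

lemma resi_bd (hR : Reg C k i' b) (hok : C.Ok K x) :
    Bd K 2 1 (C.rf k + 5 * C.μ) (res C i' b (C.R i' b) x) := by
  have h1 := hR.Ri
  have h2 := hR.hf
  exact (res_bd C K i' b (C.R i' b) x).mono (K_one hok) (by omega) (by omega) (by omega)

/-- value of the V-coefficient of the difference -/
lemma Gd_cV (hR : Reg C k i' b) (hok : C.Ok K r) :
    Bd K 2 3 (C.rf k + 5 * C.μ) ((Gd C k i' b r).cV (C.l r) (C.s i' r) + res C k b (C.R k b) r) := by
  have hK := K_one hok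
  have h1 := (rh_bd (k := k) (i' := i') (b := b) hok).mul (resi_bd hR hok)
  refine (h1.mono hK (by omega) (by omega) (n' := C.rf k + 5 * C.μ) (by omega)).congr ?_
  unfold Gd
  rw [cmb_cV, Fk_cV, Fi_cV]
  linear_combination C.p r * rh_mul (k := k) (i' := i') (b := b) hok

lemma s_near (hki : k ≤ i') (ω : Ω) : |C.s i' ω - C.s k ω| ≤ q2 (C.a k) := rd_sub (C.ha hki) _

lemma nr_late (hR : Reg C k i' b) (hok : C.Ok K r) (hD : Dp C k b r = Dp C k b x) :
    Nr K 4 (C.a k) b C.μ (C.l r) (C.l x) (C.s i' r) :=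
  (nr_cell (K_one hok) (Dp_cell hD) hR.b8).move (K_one hok) hR.b8 (s_near hR.ki r)

/-- **the derivative of the early functional, from the derivative of the late one** -/
lemma gd_pair (hR : Reg C k i' b) (hokr : C.Ok K r) (hD : Dp C k b r = Dp C k b x)
    (hT : Th C i' b r = Th C i' b x) :
    Bd K 30 3 (C.rf k + 5 * C.μ + b)
      ((Fk C k i' b x).gd (C.l x) (C.s i' x) -
        (rh C k i' b r * (Fi C i' b x).gd (C.l x) (C.s i' x) +
          ((Fk C k i' b r).gd (C.l r) (C.s i' r) - rh C k i' b r * (Fi C i' b r).gd (C.l r) (C.s i' r)) -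
          res C k b (C.R k b) r * ((C.l r).v - rd b (C.l r).v)) -
        res C k b (C.R k b) r * ((C.l x).v - rd b (C.l x).v)) := by
  have hK := K_one hokr
  have hn := nr_late hR hokr hD
  have h1 := sz_gd hK (sz_Gd hR hokr) hn hR.lvl
  have h2 := (Gd_cV hR hokr).mul hn.v
  have h3 := h1.sub (h2.mono (c' := 2) (e' := 3) (n' := C.rf k + 5 * C.μ + b) hK (by omega) (by omega)
    (by omega))
  refine h3.congr ?_
  unfold Gd
  rw [cmb_gd, cmb_gd, ← Fk_eq hD hT, ← Fi_eq hD hT, ← Th_s hT]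
  have hv : rd b (C.l x).v = rd b (C.l r).v := (cell_rv (Dp_cell hD) le_rfl).symm
  rw [hv]
  ring

/-- **the residual slope is a function of (cell, letter)** -/
lemma res_near (hR : Reg C k i' b) (hokr : C.Ok K r) (hokx : C.Ok K x)
    (hD : Dp C k b r = Dp C k b x) (hT : Th C i' b r = Th C i' b x) :
    Bd K 24 3 (C.rf k + 5 * C.μ) (res C k b (C.R k b) x - res C k b (C.R k b) r) := by
  have hK := K_one hokr
  have hn := nr_late hR hokr hD
  have h1 := sz_cN hK (sz_Gd hR hokr) hn hR.lvl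
  have h2 := sz_cV hK (sz_Gd hR hokr) hn hR.lvl
  have hp : Bd K 1 0 (2 * C.μ) (C.p x) := Bd.mk0 hokx.p1
  have h3 := (hp.mul h1).mono (c' := 10) (e' := 3) (n' := C.rf k + 5 * C.μ) hK (by omega) (by omega)
    (by omega)
  have h4 := (rh_bd (k := k) (i' := i') (b := b) hokr).mul ((resi_bd hR hokx).sub (resi_bd hR hokr))
  have h5 := h4.mono (c' := 4) (e' := 3) (n' := C.rf k + 5 * C.μ) hK (by omega) (by omega)
    (by omega)
  refine ((h3.add h5).sub h2).congr ?_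
  have c1 := Fk_cV (C := C) (k := k) (i' := i') (b := b) x
  have c2 := Fi_cV (C := C) (i' := i') (b := b) x
  have c3 := Fk_cV (C := C) (k := k) (i' := i') (b := b) r
  have c4 := Fi_cV (C := C) (i' := i') (b := b) r
  have c5 := rh_mul (k := k) (i' := i') (b := b) hokr
  have d1 := Fk_cN (C := C) (k := k) (i' := i') (b := b) x
  have d2 := Fi_cN (C := C) (i' := i') (b := b) x
  unfold Gd
  rw [cmb_cN, cmb_cV, cmb_cV]
  rw [← Fk_eq hD hT, ← Th_s hT] at c1 d1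
  rw [← Fi_eq hD hT, ← Th_s hT] at c2 d2
  rw [c1, c2, c3, c4, d1, d2]
  linear_combination (-C.p r) * c5

end Vale.Agent.P106.U.H683
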