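import Vale.Agent.P106.U.H683.Red
import Vale.Agent.P106.U.H683.PhiG
import Vale.Agent.P106.U.H364.Nhc

/-!
# P106 / U / H683 : reductions of the hypotheses of the N-step (deep phi regime) over the cells (helper683)

* `sk` : the digits of the slope in `Dp`; `Bads` : the new bad event.
* `Dp_of_late` : `Dp` is a function of `(cell k b, cell i' b)` outside `Bads`; `hc_sk` : entropy form.
* `colp_Dp` : collisions given `Dp` from collisions given any `Z` which determines the ray, the letter and the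
  digits of the own slope; `colp_slR` : the same for the slope block.
* `mi_f2_Dp` : the information of the late letter (the other one is `H420.f1_step`).
-/

set_option autoImplicit false

namespace Vale.Agent.P106.U.H683

open Finset Vale.Agent.P127 Vale.Agent.P127.Stk Vale.Agent.P127.U.Pin Vale.Agent.P127.U.Mic
open Vale.Agent.P106.U.Cell
open Vale.Agent.P127.U.CellD (q2 rd Nb Nb.eq rd_le lt_rd rd_err rd_mono rd_sub q2_pos q2_le q2_add
  q2_mul_pow div_pow_eq fl1_fl1)

variable {Ω τ : Type} {C : Pth Ω τ} {K : ℝ} {k i' b b' m g p : ℕ} {x y : Ω}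

/-- the digits of the slope (`= SR` of helper420) -/
noncomputable def sk (C : Pth Ω τ) (k b : ℕ) (ω : Ω) : ℤ := fl1 (C.rf k) (slR C k b ω + C.o 4)

/-- the slope is close to a change of digits -/
def Bads (C : Pth Ω τ) (K : ℝ) (k b : ℕ) (ω : Ω) : Prop :=
  Nb (C.rf k) (slR C k b ω + C.o 4) (24 * K ^ 3 * q2 (C.rf k + 5 * C.μ))

/-! ### the slope of `k` given the late cell -/

/-- functional of the step `k` with the exact slope -/
noncomputable def Fo (C : Pth Ω τ) (k b : ℕ) (ω : Ω) : Fu :=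
  { C.F k ω with ph := slR C k b ω - (C.F k ω).ka * rd (C.bs k b) (C.l ω).v }

lemma slR_late (hR : Reg C k i' b) (hx : C.Ok K x) (hy : C.Ok K y)
    (h : C.cell i' b x = C.cell i' b y) :
    Bd K 24 3 (C.rf k + 5 * C.μ) (slR C k b y - slR C k b x) := by
  have hK := K_one hx
  have hb := hR.hb; have hb8 := hR.b8; have ha := hR.ha; have hkf := C.hkf k
  have hTi := cell_T h
  have hTk : C.T k x = C.T k y := T_mono hR.ki hTi
  have hsk : C.s k x = C.s k y := s_T hTk
  have hsi : C.s i' x = C.s i' y := s_T hTi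
  have hv : rd (C.bs k b) (C.l x).v = rd (C.bs k b) (C.l y).v :=
    cell_rv h (by unfold Pth.bs; omega)
  have hn := nr_cell hK h hb8
  have hL : Lvl (C.rk k) (C.a i') (C.a i') b C.μ (C.rf k + 5 * C.μ) := by constructor <;> omega
  set d := C.s i' x - C.s k x with hd
  set A := (Fo C k b x).sh d with hA
  set B := Fe C i' b x with hB
  have eA : A.cN (C.l x) (C.s i' x) = (C.F k x).cN (C.l x) (C.s k x) := by
    have h := Fu.cN_sh (Fo C k b x) (C.l x) (C.s k x) d
    rw [show C.s k x + d = C.s i' x by rw [hd]; ring] at h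
    exact h
  have eA' : A.cV (C.l x) (C.s i' x) = C.p x * (C.F k x).cN (C.l x) (C.s k x) := by
    have h := Fu.cV_sh (Fo C k b x) (C.l x) (C.s k x) d
    rw [show C.s k x + d = C.s i' x by rw [hd]; ring] at h
    rw [hA, h]
    show slR C k b x - (C.F k x).ka * rd (C.bs k b) (C.l x).v + (C.F k x).ka * (C.l x).v +
      (C.F k x).al * (C.l x).X (C.s k x) = _
    unfold slR
    ring
  set ρ := A.cN (C.l x) (C.s i' x) / B.cN (C.l x) (C.s i' x) with hρ
  have hag := hx.ag k i' hR.ki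
  have hSz : Sz K (C.rk k) (C.a i') (cmb A B ρ) (C.l x) (C.s i' x) :=
    sz_of hK ⟨hag.cN, hag.ka, hag.al⟩ (hx.n1 i') (hx.k1 i') (hx.a1 i') hρ
  have hBp : 0 < B.cN (C.l x) (C.s i' x) := cN_pos (i := i') hx
  have hρb : Bd K 1 2 0 ρ := by
    have h1 : Bd K 1 1 0 (A.cN (C.l x) (C.s i' x)) := by
      rw [eA]
      exact Bd.of_le (cN_abs hx)
    have h3 : Bd K 1 1 0 (1 / B.cN (C.l x) (C.s i' x)) := Bd.of_le (by
      rw [abs_of_pos (by positivity), div_le_iff₀ hBp]
      exact hx.n1 i')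
    refine (h1.mul h3).congr ?_
    rw [hρ, mul_one_div]
  have hρm : ρ * B.cN (C.l x) (C.s i' x) = A.cN (C.l x) (C.s i' x) := by
    rw [hρ, div_mul_cancel₀ _ hBp.ne']
  have h1 := sz_cN hK hSz hn hL
  have h2 := sz_cV hK hSz hn hL
  have hp : Bd K 1 0 (2 * C.μ) (C.p y) := Bd.mk0 hy.p1
  have h3 := (hp.mul h1).mono (c' := 8) (e' := 3) (n' := C.rf k + 5 * C.μ) hK (by omega) (by omega)
    (by omega)
  have h4 := (hρb.mul ((rsi_bd hR hy).sub (rsi_bd hR hx))).mono (c' := 4) (e' := 3)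
    (n' := C.rf k + 5 * C.μ) hK (by omega) (by omega) (by omega)
  refine (((h3.add h4).sub h2).congr ?_).mono hK (by omega) le_rfl le_rfl
  -- the identities
  have f1 : C.p y * A.cN (C.l y) (C.s i' x) - A.cV (C.l y) (C.s i' x) =
      slR C k b y - slR C k b x := by
    have g1 := Fu.cN_sh (Fo C k b x) (C.l y) (C.s k x) d
    have g2 := Fu.cV_sh (Fo C k b x) (C.l y) (C.s k x) d
    rw [show C.s k x + d = C.s i' x by rw [hd]; ring] at g1 g2
    rw [hA, g1, g2]
    have e3 : slR C k b y = C.p y * (C.ga k (C.T k y) - C.ka k (C.T k y) * (C.l y).w -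
      C.al k (C.T k y) * (C.l y).N (C.s k y)) -
      C.ka k (C.T k y) * ((C.l y).v - rd (C.bs k b) (C.l y).v) -
      C.al k (C.T k y) * (C.l y).X (C.s k y) := rfl
    show C.p y * (C.ga k (C.T k x) - C.ka k (C.T k x) * (C.l y).w -
      C.al k (C.T k x) * (C.l y).N (C.s k x)) -
      (slR C k b x - C.ka k (C.T k x) * rd (C.bs k b) (C.l x).v +
        C.ka k (C.T k x) * (C.l y).v + C.al k (C.T k x) * (C.l y).X (C.s k x)) = _
    rw [e3, hTk, hsk, hv]
    ring
  have f2 : C.p y * B.cN (C.l y) (C.s i' x) - B.cV (C.l y) (C.s i' x) =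
      rs C i' b (C.R i' b - 3 * C.μ) y := by
    have e1 : B = Fe C i' b y := Fr_eq hTi (cell_v h) (cell_fl h 4)
    rw [e1, hsi]
    have e2 := Fe_cV (C := C) (i' := i') (b := b) y
    have e3 : (Fe C i' b y).cN (C.l y) (C.s i' y) = (C.F i' y).cN (C.l y) (C.s i' y) := rfl
    rw [e2, e3]
    ring
  have f3 : C.p x * B.cN (C.l x) (C.s i' x) - B.cV (C.l x) (C.s i' x) =
      rs C i' b (C.R i' b - 3 * C.μ) x := by
    have e2 := Fe_cV (C := C) (i' := i') (b := b) x
    have e3 : (Fe C i' b x).cN (C.l x) (C.s i' x) = (C.F i' x).cN (C.l x) (C.s i' x) := rfl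
    rw [hB, e2, e3]
    ring
  rw [cmb_cN, cmb_cV, cmb_cV]
  linear_combination f1 - ρ * f2 + ρ * f3 + eA' - C.p x * eA - C.p x * hρm

/-- **`Dp` is a function of the cells `(k, b)` and `(i', b)` outside `Bads`** -/
theorem sk_of_late (hR : Reg C k i' b) (hx : C.Ok K x) (hy : C.Ok K y)
    (h : C.cell i' b x = C.cell i' b y) (hB : ¬ Bads C K k b x) : sk C k b x = sk C k b y := by
  have hK := K_one hx
  have h1 := slR_late hR hx hy h
  unfold Bd at h1
  push_cast at h1
  refine Nb.eq hB ?_ ?_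
  · rw [sub_self, abs_zero]
    have := q2_pos (C.rf k + 5 * C.μ)
    positivity
  · rw [add_sub_add_right_eq_sub]
    exact h1

theorem Dp_of_late (hR : Reg C k i' b) (hx : C.Ok K x) (hy : C.Ok K y)
    (h0 : C.cell k b x = C.cell k b y) (h : C.cell i' b x = C.cell i' b y)
    (hB : ¬ Bads C K k b x) : Dp C k b x = Dp C k b y :=
  Prod.ext h0 (sk_of_late hR hx hy h hB)

lemma mem_Icc_nr {M : ℕ} {z z' : ℤ} (h : |z' - z| ≤ (M : ℤ) + 1) :
    z' ∈ Finset.Icc (z - (M + 1)) (z + (M + 1)) := by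
  rw [Finset.mem_Icc]
  have := abs_le.1 h
  constructor <;> linarith

lemma card_Icc_nr (M : ℕ) (z : ℤ) : (Finset.Icc (z - (M + 1)) (z + (M + 1))).card = 2 * M + 3 := by
  rw [Int.card_Icc]
  have : z + (M + 1) + 1 - (z - (M + 1)) = ((2 * M + 3 : ℕ) : ℤ) := by push_cast; ring
  rw [this, Int.toNat_natCast]

/-- the entropy of the slope digits given the late cell -/
theorem hc_sk [Fintype Ω] (P : Law Ω) (hR : Reg C k i' b) (hok : ∀ ω, 0 < P.w ω → C.Ok K ω)
    {M : ℕ} (hM : 24 * K ^ 3 ≤ M) :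
    hc P (sk C k b) (C.cell i' b) ≤
      (2 + Real.log (2 * M + 3)) * Real.sqrt (prE P (Bads C K k b)) := by
  have h := Vale.Agent.P106.U.H364.nhc P (sk C k b) (C.cell i' b) (Bads C K k b) (2 * M + 3)
    (by omega) ?_ ?_
  · push_cast at h
    exact h
  · intro x y px py hB _ e
    exact sk_of_late hR (hok x px) (hok y py) e hB
  · intro x px
    refine ⟨Finset.Icc (sk C k b x - (M + 1)) (sk C k b x + (M + 1)), (card_Icc_nr M _).le, ?_⟩
    intro y py e
    refine mem_Icc_nr (Vale.Agent.P106.U.H364.fl1_le_of_near (M := M) ?_)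
    rw [add_sub_add_right_eq_sub]
    have h1 := slR_late hR (hok x px) (hok y py) e.symm
    unfold Bd at h1
    push_cast at h1
    refine h1.trans ?_
    have h2 : q2 (C.rf k + 5 * C.μ) ≤ q2 (C.rf k) := q2_le (by omega)
    have h3 : (0 : ℝ) ≤ M := Nat.cast_nonneg _
    exact mul_le_mul hM h2 (q2_pos _).le h3

/-! ### the side of the ray -/

/-- `Z` determines the ray, the letter of `k` and the digits of the own slope -/
def Side [Fintype Ω] {T : Type*} (P : Law Ω) (C : Pth Ω τ) (k : ℕ) (Z : Ω → T) : Prop :=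
  ∀ x y, 0 < P.w x → 0 < P.w y → Z x = Z y → C.l x = C.l y ∧ C.T k x = C.T k y ∧
    fl1 (C.rf k) (C.p x) = fl1 (C.rf k) (C.p y)

lemma slR_side (hx : C.Ok K x) (hl : C.l x = C.l y) (hT : C.T k x = C.T k y) :
    |slR C k b x - slR C k b y| ≤ K * |C.p x - C.p y| := by
  have hs : C.s k x = C.s k y := s_T hT
  have e : slR C k b x - slR C k b y = (C.F k x).cN (C.l x) (C.s k x) * (C.p x - C.p y) := by
    show C.p x * (C.ga k (C.T k x) - C.ka k (C.T k x) * (C.l x).w -
      C.al k (C.T k x) * (C.l x).N (C.s k x)) -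
      C.ka k (C.T k x) * ((C.l x).v - rd (C.bs k b) (C.l x).v) -
      C.al k (C.T k x) * (C.l x).X (C.s k x) -
      (C.p y * (C.ga k (C.T k y) - C.ka k (C.T k y) * (C.l y).w -
      C.al k (C.T k y) * (C.l y).N (C.s k y)) -
      C.ka k (C.T k y) * ((C.l y).v - rd (C.bs k b) (C.l y).v) -
      C.al k (C.T k y) * (C.l y).X (C.s k y)) =
      (C.ga k (C.T k x) - C.ka k (C.T k x) * (C.l x).w -
      C.al k (C.T k x) * (C.l x).N (C.s k x)) * (C.p x - C.p y)
    rw [hT, hs, hl]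
    ring
  rw [e, abs_mul]
  exact mul_le_mul_of_nonneg_right (cN_abs hx) (abs_nonneg _)

lemma slR_side' (hx : C.Ok K x) (hl : C.l x = C.l y) (hT : C.T k x = C.T k y) :
    |C.p x - C.p y| ≤ K * |slR C k b x - slR C k b y| := by
  have hs : C.s k x = C.s k y := s_T hT
  have hK := K_one hx
  have e : slR C k b x - slR C k b y = (C.F k x).cN (C.l x) (C.s k x) * (C.p x - C.p y) := by
    show C.p x * (C.ga k (C.T k x) - C.ka k (C.T k x) * (C.l x).w -
      C.al k (C.T k x) * (C.l x).N (C.s k x)) -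
      C.ka k (C.T k x) * ((C.l x).v - rd (C.bs k b) (C.l x).v) -
      C.al k (C.T k x) * (C.l x).X (C.s k x) -
      (C.p y * (C.ga k (C.T k y) - C.ka k (C.T k y) * (C.l y).w -
      C.al k (C.T k y) * (C.l y).N (C.s k y)) -
      C.ka k (C.T k y) * ((C.l y).v - rd (C.bs k b) (C.l y).v) -
      C.al k (C.T k y) * (C.l y).X (C.s k y)) =
      (C.ga k (C.T k x) - C.ka k (C.T k x) * (C.l x).w -
      C.al k (C.T k x) * (C.l x).N (C.s k x)) * (C.p x - C.p y)
    rw [hT, hs, hl]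
    ring
  have h1 := hx.n1 k
  have h2 := cN_pos (i := k) hx
  rw [e, abs_mul, abs_of_pos h2, ← mul_assoc]
  have := mul_le_mul_of_nonneg_right h1 (abs_nonneg (C.p x - C.p y))
  linarith

/-- the cell is a function of the ray, the letter and the digits of the own slope -/
lemma cell_side (hl : C.l x = C.l y) (hT : C.T k x = C.T k y)
    (hp : fl1 (C.rf k) (C.p x) = fl1 (C.rf k) (C.p y)) : C.cell k b x = C.cell k b y := by
  have hs : C.s k x = C.s k y := s_T hT
  have hrd : rd (C.rf k) (C.p x) = rd (C.rf k) (C.p y) := by unfold rd; rw [hp]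
  have hF : C.F k x = C.F k y := by
    show C.Fv k (C.T k x) (C.l x) (rd (C.rf k) (C.p x)) = C.Fv k (C.T k y) (C.l y) (rd (C.rf k) (C.p y))
    rw [hT, hl, hrd]
  have hsl : C.sl k b x = C.sl k b y := by
    unfold Pth.sl
    rw [hF, hl]
  have hFr : ∀ n, C.Fr k b n x = C.Fr k b n y := by
    intro n
    unfold Pth.Fr
    rw [hF, hsl, hl]
  have hZ : C.Zs b (C.s k x) x = C.Zs b (C.s k y) y := by
    unfold Pth.Zs
    rw [hl, hs]
  have hva : C.va k b x = C.va k b y := by
    unfold Pth.va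
    rw [hsl, hFr, hZ, hs, hl]
  unfold Pth.cell Pth.dg
  rw [hT, hl, hva]

/-- number of values of the slope digits -/
lemma sk_card [Fintype Ω] {T : Type*} (P : Law Ω) {Z : Ω → T} (hZ : Side P C k Z)
    (hok : ∀ ω, 0 < P.w ω → C.Ok K ω) {M : ℕ} (hM : K ≤ M) :
    ∀ ω, 0 < P.w ω → ∃ F : Finset ℤ, F.card ≤ 2 * M + 3 ∧
      ∀ ω', 0 < P.w ω' → Z ω' = Z ω → sk C k b ω' ∈ F := by
  intro x px
  refine ⟨Finset.Icc (sk C k b x - (M + 1)) (sk C k b x + (M + 1)), (card_Icc_nr M _).le, ?_⟩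
  intro y py e
  obtain ⟨hl, hT, hp⟩ := hZ y x py px e
  refine mem_Icc_nr (Vale.Agent.P106.U.H364.fl1_le_of_near (M := M) ?_)
  rw [add_sub_add_right_eq_sub]
  have hK := K_one (hok y py)
  refine (slR_side (b := b) (hok y py) hl hT).trans ?_
  have h1 : |C.p y - C.p x| ≤ q2 (C.rf k) := near_fl1 hp
  exact mul_le_mul hM h1 (abs_nonneg _) (by linarith)

/-- **collisions given `Dp` from collisions on the side of the ray** -/
theorem colp_Dp [Fintype Ω] {T S : Type*} (P : Law Ω) (X : Ω → S) {Z : Ω → T} (hZ : Side P C k Z)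
    (hok : ∀ ω, 0 < P.w ω → C.Ok K ω) {M : ℕ} (hM : K ≤ M) :
    colp P X (Dp C k b) ≤ Real.sqrt (((2 * M + 3 : ℕ) : ℝ) * colp P X Z) := by
  refine colp_fin' P X (sk C k b) Z (Dp C k b) (2 * M + 3)
    (sk_card P hZ hok hM) ?_
  intro x y px py e
  simp only [Prod.mk.injEq] at e
  obtain ⟨hl, hT, hp⟩ := hZ x y px py e.2
  exact Prod.ext (cell_side hl hT hp) e.1

/-- **the slope block** -/
theorem colp_slR [Fintype Ω] {T : Type*} (P : Law Ω) {Z : Ω → T} (hZ : Side P C k Z)
    (hok : ∀ ω, 0 < P.w ω → C.Ok K ω) {M : ℕ} (hM : K ≤ M) (n : ℕ) :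
    colp P (fun ω => fl1 n (slR C k b ω)) (Dp C k b) ≤
      Real.sqrt (((2 * M + 3 : ℕ) : ℝ) *
        ((2 * (M + 1 : ℕ) + 1) * colp P (fun ω => fl1 n (C.p ω)) Z)) := by
  refine (colp_Dp P _ hZ hok hM).trans (Real.sqrt_le_sqrt (mul_le_mul_of_nonneg_left ?_
    (Nat.cast_nonneg _)))
  refine colp_near P _ (fun ω => fl1 n (C.p ω)) Z (M + 1) ?_
  intro x y px py e e1
  obtain ⟨hl, hT, -⟩ := hZ x y px py e
  have h1 := near_fl1 e1
  have h2 := slR_side' (b := b) (hok x px) hl hT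
  have hK := K_one (hok x px)
  have h3 : |C.p x - C.p y| ≤ M * q2 n :=
    h2.trans (mul_le_mul hM h1 (abs_nonneg _) (by linarith))
  have := Vale.Agent.P106.U.H364.fl1_le_of_near (M := M) h3
  push_cast
  exact this

/-- **(I2)** -/
theorem mi_f2_Dp [Fintype Ω] (P : Law Ω) :
    mi P (Th C i' b) (C.cell k b') (Dp C k b) ≤
      mi P (fun ω => (Th C i' b ω, sk C k b ω)) (C.cell k b') (C.cell k b) :=
  mi_pair_cond P (Th C i' b) (sk C k b) (C.cell k b') (C.cell k b)

end Vale.Agent.P106.U.H683
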