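import Vale.Agent.P106.U.H683.GenQ
import Vale.Agent.P106.U.H683.RedC

/-!
# P106 / U / H683 : the same slab in the frames of two paths (helper683)

Two paths `C`, `C0` over the same rays, times and own slopes (letters of the line with more or less digits: the
sliding cells of two caps).

* `slR_two` : the true slopes in the two frames, at two points of one cell of `C`, differ by the ratio of the
  normal coefficients, up to `2^-E`, `E + 3 μ ≤ r + b` (`r` = digits to which the two lines agree).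
* `slR_of_base`, `base_of_slR` : one from the other.
* `tok_Th`, `tok_base` : the hypothesis `TOk` for the letter `Th` and for the FIXED letter of the first cap.
* `fine_slide` : the hypothesis `Fine` for the cell of the other path.
-/

set_option autoImplicit false

namespace Vale.Agent.P106.U.H683

open Finset Vale.Agent.P127 Vale.Agent.P127.Stk Vale.Agent.P106.U.Cell
open Vale.Agent.P127.U.CellD (q2 rd rd_le lt_rd rd_err rd_mono rd_sub q2_pos q2_le q2_add q2_mul_pow
  div_pow_eq fl1_fl1)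

variable {Ω τ τ0 : Type} {C : Pth Ω τ} {C0 : Pth Ω τ0} {K : ℝ} {k i' b b0 b' p r E A : ℕ} {x y : Ω}

/-- ratio of the normal coefficients of the two paths -/
noncomputable def rt (C : Pth Ω τ) (C0 : Pth Ω τ0) (k : ℕ) (x : Ω) : ℝ :=
  (C.F k x).cN (C.l x) (C.s k x) / (C0.F k x).cN (C.l x) (C.s k x)

/-- the two paths have the same rays, and their slabs of the step `k` agree to `r` digits at `x` -/
structure Two (C : Pth Ω τ) (C0 : Pth Ω τ0) (K : ℝ) (k r : ℕ) (x : Ω) : Prop where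
  l : C0.l = C.l
  p : C0.p = C.p
  t : C0.t = C.t
  a : C0.a k = C.a k
  ok : C0.Ok K x
  ag : Pth.Agr K r (C.a k) (C.F k x) (C0.F k x) (C.l x) (C.s k x)

lemma Two.s (h : Two C C0 K k r x) (z : Ω) : C0.s k z = C.s k z := by
  unfold Pth.s
  rw [h.a, h.t]

lemma Two.cN0 (h : Two C C0 K k r x) : 0 < (C0.F k x).cN (C.l x) (C.s k x) := by
  have := cN_pos (i := k) h.ok
  rwa [h.l, h.s] at this

lemma Two.cN1 (h : Two C C0 K k r x) : 1 ≤ K * (C0.F k x).cN (C.l x) (C.s k x) := by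
  have := h.ok.n1 k
  rwa [h.l, h.s] at this

lemma rt_bd (hok : C.Ok K x) (h : Two C C0 K k r x) : Bd K 1 2 0 (rt C C0 k x) := by
  have h1 : Bd K 1 1 0 ((C.F k x).cN (C.l x) (C.s k x)) := Bd.of_le (cN_abs hok)
  have h2 := h.cN0
  have h3 : Bd K 1 1 0 (1 / (C0.F k x).cN (C.l x) (C.s k x)) := Bd.of_le (by
    rw [abs_of_pos (by positivity), div_le_iff₀ h2]
    exact h.cN1)
  refine (h1.mul h3).congr ?_
  unfold rt
  rw [mul_one_div]

lemma rt_inv (hok : C.Ok K x) (h : Two C C0 K k r x) : Bd K 1 2 0 (1 / rt C C0 k x) := by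
  have h1 : Bd K 1 1 0 ((C0.F k x).cN (C.l x) (C.s k x)) := Bd.of_le (by
    have := cN_abs (i := k) h.ok
    rwa [h.l, h.s] at this)
  have h2 := cN_pos (i := k) hok
  have h3 : Bd K 1 1 0 (1 / (C.F k x).cN (C.l x) (C.s k x)) := Bd.of_le (by
    rw [abs_of_pos (by positivity), div_le_iff₀ h2]
    exact hok.n1 k)
  refine (h1.mul h3).congr ?_
  unfold rt
  rw [one_div_div, mul_one_div]

lemma rt_pos (hok : C.Ok K x) (h : Two C C0 K k r x) : 0 < rt C C0 k x :=
  div_pos (cN_pos hok) h.cN0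

lemma rt_mul (h : Two C C0 K k r x) : rt C C0 k x * (C0.F k x).cN (C.l x) (C.s k x) =
    (C.F k x).cN (C.l x) (C.s k x) := by
  unfold rt
  rw [div_mul_cancel₀ _ h.cN0.ne']

/-- coefficient of the functional with the exact slope -/
lemma Fo_cV (ω : Ω) : (Fo C k b ω).cV (C.l ω) (C.s k ω) =
    C.p ω * (C.F k ω).cN (C.l ω) (C.s k ω) := by
  show slR C k b ω - (C.F k ω).ka * rd (C.bs k b) (C.l ω).v + (C.F k ω).ka * (C.l ω).v +
      (C.F k ω).al * (C.l ω).X (C.s k ω) = _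
  unfold slR
  ring

/-- the slope at another point with the same letter -/
lemma slR_pt (hT : C.T k x = C.T k y) (hv : rd (C.bs k b) (C.l x).v = rd (C.bs k b) (C.l y).v) :
    C.p y * (Fo C k b x).cN (C.l y) (C.s k x) - (Fo C k b x).cV (C.l y) (C.s k x) =
      slR C k b y - slR C k b x := by
  have hs : C.s k x = C.s k y := s_T hT
  have e3 : slR C k b y = C.p y * (C.ga k (C.T k y) - C.ka k (C.T k y) * (C.l y).w -
    C.al k (C.T k y) * (C.l y).N (C.s k y)) -
    C.ka k (C.T k y) * ((C.l y).v - rd (C.bs k b) (C.l y).v) -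
    C.al k (C.T k y) * (C.l y).X (C.s k y) := rfl
  show C.p y * (C.ga k (C.T k x) - C.ka k (C.T k x) * (C.l y).w -
    C.al k (C.T k x) * (C.l y).N (C.s k x)) -
    (slR C k b x - C.ka k (C.T k x) * rd (C.bs k b) (C.l x).v +
      C.ka k (C.T k x) * (C.l y).v + C.al k (C.T k x) * (C.l y).X (C.s k x)) = _
  rw [e3, hT, hs, hv]
  ring

/-- **the slopes in the frames of the two paths** -/
theorem slR_two (hok : C.Ok K x) (hoky : C.Ok K y) (h : Two C C0 K k r x)
    (hn : Nr K 4 A b C.μ (C.l x) (C.l y) (C.s k x)) (hA : A ≤ C.a k) (hA2 : C.a k + 3 * C.μ ≤ A + b)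
    (hT : C.T k x = C.T k y) (hT0 : C0.T k x = C0.T k y)
    (hv : rd (C.bs k b') (C.l x).v = rd (C.bs k b') (C.l y).v)
    (hv0 : rd (C0.bs k b0) (C.l x).v = rd (C0.bs k b0) (C.l y).v)
    (hb8 : 8 * C.μ ≤ b) (hE : E + C.a k + 3 * C.μ ≤ r + A + b) :
    Bd K 20 3 E ((slR C k b' y - slR C k b' x) - rt C C0 k x * (slR C0 k b0 y - slR C0 k b0 x)) := by
  have hK := K_one hok
  set G := cmb (Fo C k b' x) (Fo C0 k b0 x) (rt C C0 k x) with hG
  have hSz : Sz K r (C.a k) G (C.l x) (C.s k x) := by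
    refine sz_of hK ⟨h.ag.cN, h.ag.ka, h.ag.al⟩ h.cN1 (h.ok.k1 k) ?_ rfl
    have := h.ok.a1 k
    rwa [h.a] at this
  have hL : Lvl r (C.a k) A b C.μ E := ⟨hb8, hA, hA2, hE⟩
  have h1 := sz_cN hK hSz hn hL
  have h2 := sz_cV hK hSz hn hL
  have hp : Bd K 1 0 0 (C.p y) := (Bd.mk0 hoky.p1).mono hK le_rfl le_rfl (by omega)
  have c0 : G.cV (C.l x) (C.s k x) = 0 := by
    have e1 := Fo_cV (C := C) (k := k) (b := b') x
    have e2 := Fo_cV (C := C0) (k := k) (b := b0) x
    rw [h.l, h.s, h.p] at e2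
    have e3 : (Fo C0 k b0 x).cV (C.l x) (C.s k x) = C.p x * (C0.F k x).cN (C.l x) (C.s k x) := e2
    have e4 := rt_mul h
    rw [hG, cmb_cV, e1, e3]
    linear_combination (-C.p x) * e4
  rw [c0, sub_zero] at h2
  have h3 := ((hp.mul h1).mono (c' := 10) (e' := 3) (n' := E) hK (by omega) (by omega)
    (by omega)).sub h2
  refine (h3.congr ?_).mono hK (by omega) le_rfl le_rfl
  have e1 := slR_pt (C := C) (k := k) (b := b') hT hv
  have e2 := slR_pt (C := C0) (k := k) (b := b0) hT0 (by rw [h.l]; exact hv0)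
  rw [h.l, h.s, h.p] at e2
  rw [hG, cmb_cN, cmb_cV]
  linear_combination e1 - rt C C0 k x * e2

/-- the fine frame from the coarse frame -/
theorem slR_of_base (hok : C.Ok K x) (hoky : C.Ok K y) (h : Two C C0 K k r x)
    (hn : Nr K 4 A b C.μ (C.l x) (C.l y) (C.s k x)) (hA : A ≤ C.a k) (hA2 : C.a k + 3 * C.μ ≤ A + b)
    (hT : C.T k x = C.T k y) (hT0 : C0.T k x = C0.T k y)
    (hv : rd (C.bs k b') (C.l x).v = rd (C.bs k b') (C.l y).v)
    (hv0 : rd (C0.bs k b0) (C.l x).v = rd (C0.bs k b0) (C.l y).v)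
    (hb8 : 8 * C.μ ≤ b) (hE : E + C.a k + 3 * C.μ ≤ r + A + b) {c e : ℕ} (he : e ≤ 4)
    (h0 : Bd K c e E (slR C0 k b0 y - slR C0 k b0 x)) :
    Bd K (20 + c) 6 E (slR C k b' y - slR C k b' x) := by
  have hK := K_one hok
  have h1 := slR_two hok hoky h hn hA hA2 hT hT0 hv hv0 hb8 hE
  have h2 := ((rt_bd hok h).mul h0).mono (c' := c) (e' := 6) (n' := E) hK (by omega) (by omega)
    (by omega)
  refine ((h1.mono (c' := 20) (e' := 6) (n' := E) hK le_rfl (by omega) le_rfl).add h2).congr ?_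
  ring

/-- the coarse frame from the fine frame -/
theorem base_of_slR (hok : C.Ok K x) (hoky : C.Ok K y) (h : Two C C0 K k r x)
    (hn : Nr K 4 A b C.μ (C.l x) (C.l y) (C.s k x)) (hA : A ≤ C.a k) (hA2 : C.a k + 3 * C.μ ≤ A + b)
    (hT : C.T k x = C.T k y) (hT0 : C0.T k x = C0.T k y)
    (hv : rd (C.bs k b') (C.l x).v = rd (C.bs k b') (C.l y).v)
    (hv0 : rd (C0.bs k b0) (C.l x).v = rd (C0.bs k b0) (C.l y).v)
    (hb8 : 8 * C.μ ≤ b) (hE : E + C.a k + 3 * C.μ ≤ r + A + b) {c e : ℕ} (he : e ≤ 4)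
    (h0 : Bd K c e E (slR C k b' y - slR C k b' x)) :
    Bd K (20 + c) 6 E (slR C0 k b0 y - slR C0 k b0 x) := by
  have hK := K_one hok
  have h1 := slR_two hok hoky h hn hA hA2 hT hT0 hv hv0 hb8 hE
  have hρ := rt_pos hok h
  have h2 := ((rt_inv hok h).mul ((h0.mono (c' := c) (e' := 4) (n' := E) hK le_rfl he le_rfl).sub
    (h1.mono (c' := 20) (e' := 4) (n' := E) hK le_rfl (by omega) le_rfl))).mono (c' := 20 + c)
    (e' := 6) (n' := E) hK (by omega) (by omega) (by omega)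
  refine h2.congr ?_
  rw [one_div, inv_mul_eq_iff_eq_mul₀ hρ.ne']
  ring

/-! ### the hypothesis on the letter -/

/-- the letter `Th` -/
theorem tok_Th (hR : Reg C k i' b) (hx : C.Ok K x) (hy : C.Ok K y) (hD : Dp C k b x = Dp C k b y)
    (hT : Th C i' b x = Th C i' b y) : TOk C K k i' b x y := by
  refine ⟨Th_s hT, ?_⟩
  refine ((res_near hR hy hx hD.symm hT.symm).mono (K_one hx) (by omega) (by omega)
    (by omega)).congr ?_
  unfold res
  rw [Dp_ro hD]
  ring

/-- **the FIXED letter of a coarser path** `C0` (first cap of the window) : late time and digits of the slope in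
the frame of `C0` to `rf k + 3 μ` digits -/
noncomputable def Sb (C0 : Pth Ω τ0) (k b0 i' : ℕ) (n : ℕ) (ω : Ω) : ℤ × ℤ :=
  (fl1 (C0.a i') (C0.t ω), fl1 n (slR C0 k b0 ω + C0.o 4))

theorem tok_base (hR : Reg C k i' b) (hx : C.Ok K x) (hy : C.Ok K y) (h : Two C C0 K k r x)
    (hai : C0.a i' = C.a i') (hD : Dp C k b x = Dp C k b y) (hT0 : C0.T k x = C0.T k y)
    (hb0 : C0.bs k b0 ≤ b) (hr : C.rf k + 6 * C.μ ≤ r + b) {n : ℕ} (hn : C.rf k + 3 * C.μ ≤ n)
    (hs : Sb C0 k b0 i' n x = Sb C0 k b0 i' n y) : TOk C K k i' b x y := by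
  obtain ⟨h1, h2⟩ := Prod.mk.inj hs
  have hb8 := hR.b8
  have hK := K_one hx
  refine ⟨?_, ?_⟩
  · unfold Pth.s rd
    rw [hai, h.t] at h1
    rw [h1]
  · have h3 := near_fl1 h2
    rw [add_sub_add_right_eq_sub] at h3
    have h4 : Bd K 1 0 (C.rf k + 3 * C.μ) (slR C0 k b0 y - slR C0 k b0 x) :=
      ((Bd.mk0 (K := K) h3).symm).mono hK le_rfl le_rfl hn
    have hnr : Nr K 4 (C.a k) b C.μ (C.l x) (C.l y) (C.s k x) :=
      (nr_cell hK (Dp_cell hD) hb8).move hK hb8 (by
        rw [sub_self, abs_zero]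
        exact (q2_pos _).le)
    have h5 := slR_of_base (b' := b) hx hy h hnr le_rfl (by omega) (Dp_T hD) hT0
      (cell_rv (Dp_cell hD) (by unfold Pth.bs; omega)) (cell_rv (Dp_cell hD) hb0) hb8
      (show C.rf k + 3 * C.μ + C.a k + 3 * C.μ ≤ r + C.a k + b by omega) (by omega) h4
    exact (h5.symm.mono hK (by omega) le_rfl (by omega))

/-! ### the letter of the coarser path, given the late cell -/

lemma Nr.low {c A' b μ : ℕ} {l l' : Ray} {s : ℝ} (hK : 1 ≤ K) (h : Nr K c A' b μ l l' s)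
    (hA : A ≤ A') : Nr K c A b μ l l' s :=
  ⟨h.X.mono hK le_rfl le_rfl (by omega), h.N.mono hK le_rfl le_rfl (by omega), h.v, h.w,
    h.z.mono hK le_rfl le_rfl (by omega)⟩

/-- **the slope in the frame of the coarser path is known given the late cell** -/
theorem base_late (hR : Reg C k i' b) (hx : C.Ok K x) (hy : C.Ok K y) (h : Two C C0 K k r x)
    (hT0 : C0.T k x = C0.T k y) (hb0 : C0.bs k b0 ≤ b) (hr : C.rf k + 8 * C.μ ≤ r + b)
    (hE : C.cell i' b x = C.cell i' b y) :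
    Bd K 44 6 (C.rf k + 5 * C.μ) (slR C0 k b0 y - slR C0 k b0 x) := by
  have hK := K_one hx
  have hb8 := hR.b8
  have hTk : C.T k x = C.T k y := T_mono hR.ki (cell_T hE)
  have hn : Nr K 4 (C.a k) b C.μ (C.l x) (C.l y) (C.s k x) :=
    ((nr_cell hK hE hb8).low hK (C.ha hR.ki)).move hK hb8 (by
      rw [abs_sub_comm]
      exact s_near hR.ki x)
  have h1 := slR_late hR hx hy hE
  exact (base_of_slR (b' := b) hx hy h hn le_rfl (by omega) hTk hT0
    (cell_rv hE (by unfold Pth.bs; omega)) (cell_rv hE hb0) hb8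
    (show C.rf k + 5 * C.μ + C.a k + 3 * C.μ ≤ r + C.a k + b by omega) (by omega)
    h1).mono hK (by omega) le_rfl le_rfl

/-- the digits of the fixed letter are close to a change -/
def Badb (C0 : Pth Ω τ0) (K : ℝ) (k b0 n m : ℕ) (ω : Ω) : Prop :=
  Vale.Agent.P127.U.CellD.Nb n (slR C0 k b0 ω + C0.o 4) (44 * K ^ 6 * q2 m)

/-- **the entropy of the fixed letter given the late cell** -/
theorem hc_base [Fintype Ω] (P : Law Ω) (hR : Reg C k i' b) (hok : ∀ ω, 0 < P.w ω → C.Ok K ω)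
    (h : ∀ ω, 0 < P.w ω → Two C C0 K k r ω)
    (hT0 : ∀ x y, 0 < P.w x → 0 < P.w y → C.cell i' b x = C.cell i' b y → C0.T k x = C0.T k y)
    (hb0 : C0.bs k b0 ≤ b) (hr : C.rf k + 8 * C.μ ≤ r + b) {n : ℕ} (hn : n ≤ C.rf k + 5 * C.μ)
    {M : ℕ} (hM : 44 * K ^ 6 ≤ M) :
    hc P (fun ω => fl1 n (slR C0 k b0 ω + C0.o 4)) (C.cell i' b) ≤
      (2 + Real.log (2 * M + 3)) * Real.sqrt (prE P (Badb C0 K k b0 n (C.rf k + 5 * C.μ))) := by
  have key : ∀ x y, 0 < P.w x → 0 < P.w y → C.cell i' b x = C.cell i' b y →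
      |slR C0 k b0 y - slR C0 k b0 x| ≤ 44 * K ^ 6 * q2 (C.rf k + 5 * C.μ) := by
    intro x y px py e
    have := base_late (b0 := b0) hR (hok x px) (hok y py) (h x px) (hT0 x y px py e) hb0 hr e
    unfold Bd at this
    push_cast at this
    exact this
  have hh := Vale.Agent.P106.U.H364.nhc P (fun ω => fl1 n (slR C0 k b0 ω + C0.o 4)) (C.cell i' b)
    (Badb C0 K k b0 n (C.rf k + 5 * C.μ)) (2 * M + 3) (by omega) ?_ ?_
  · push_cast at hh
    exact hh
  · intro x y px py hB _ e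
    have h1 := key x y px py e
    refine Vale.Agent.P127.U.CellD.Nb.eq hB ?_ ?_
    · rw [sub_self, abs_zero]
      exact (abs_nonneg _).trans h1
    · rw [add_sub_add_right_eq_sub]
      exact h1
  · intro x px
    refine ⟨Finset.Icc (fl1 n (slR C0 k b0 x + C0.o 4) - (M + 1))
      (fl1 n (slR C0 k b0 x + C0.o 4) + (M + 1)), (card_Icc_nr M _).le, ?_⟩
    intro y py e
    refine mem_Icc_nr (Vale.Agent.P106.U.H364.fl1_le_of_near (M := M) ?_)
    rw [add_sub_add_right_eq_sub]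
    have hK := K_one (hok x px)
    have h3 : (0 : ℝ) ≤ M := Nat.cast_nonneg _
    exact (key x y px py e.symm).trans (mul_le_mul hM (q2_le hn) (q2_pos _).le h3)

/-! ### the hypothesis on the fine letter: the cell of the other path -/

/-- **the cell of a deeper cap, with other digits of the line** : `C0` = path of the deeper cap -/
theorem fine_slide (hR : Reg C k i' b) (hb : b + 8 * C.μ ≤ b') (hpb : b + p ≤ b')
    (hx : C.Ok K x) (h : Two C C0 K k r x) (hμ : C0.μ = C.μ)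
    (hR0 : C0.R k b' = C.rf k) (hr : C.rf k + 6 * C.μ ≤ r + b') (hD : Dp C k b x = Dp C k b y)
    (hW : C0.cell k b' x = C0.cell k b' y) : Fine C K k b p x y := by
  have hK := K_one hx
  have h2 := hR.f8; have h3 := hR.b8; have hRk := hR.Rk
  have hn := nr_cell hK hW (by rw [hμ]; omega)
  rw [h.l, h.s, h.a, hμ] at hn
  have hs : C.s k x = C.s k y := s_T (Dp_T hD)
  have hv1 : fl1 b' (C.l x).v = fl1 b' (C.l y).v := by
    have := cell_v hW
    rwa [h.l] at this
  -- the functional of the deeper cell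
  set F' := C0.Fr k b' (C0.R k b' - 3 * C0.μ) x with hF'
  have hFF : F' = C0.Fr k b' (C0.R k b' - 3 * C0.μ) y :=
    Fr_eq (cell_T hW) (cell_v hW) (cell_fl hW 4)
  set ρ := rt C C0 k x with hρ
  set G := cmb (Fn C k b (C.R k b) x) F' ρ with hG
  have hSz : Sz K r (C.a k) G (C.l x) (C.s k x) := by
    refine sz_of hK ⟨h.ag.cN, h.ag.ka, h.ag.al⟩ h.cN1 (h.ok.k1 k) ?_ rfl
    have := h.ok.a1 k
    rwa [h.a] at this
  have hL : Lvl r (C.a k) (C.a k) b' C.μ (C.rf k + 3 * C.μ) := ⟨by omega, le_rfl, by omega, by omega⟩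
  have hcV : Bd K 3 3 (C.rf k - 3 * C.μ) (G.cV (C.l x) (C.s k x)) := by
    have e2 := cV_Fr (C := C0) (i := k) (b := b') (m := C0.R k b' - 3 * C0.μ) x
    rw [h.l, h.s, h.p] at e2
    have e4 := rt_mul h
    have r1 : Bd K 2 1 (C0.R k b' - 3 * C0.μ) (slR C0 k b' x - C0.ro 4 (C0.R k b' - 3 * C0.μ)
        (C0.sl k b' x)) := rs_bd (b := b') h.ok (by
      have := R_le_rf C0 k b'
      omega)
    rw [hR0, hμ] at r1
    have r2 := ((rt_bd hx h).mul r1).mono (c' := 2) (e' := 3) (n' := C.rf k - 3 * C.μ) hK (by omega)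
      (by omega) (by omega)
    have r3 := (res_bd C K k b (C.R k b) x).mono (c' := 1) (e' := 3) (n' := C.rf k - 3 * C.μ) hK
      le_rfl (by omega) (by omega)
    refine ((r2.sub r3).congr ?_).mono hK (by omega) le_rfl le_rfl
    rw [hG, cmb_cV, cV_Fn, hF', e2, hR0, hμ]
    linear_combination C.p x * e4
  refine ⟨fl1_fl1 hpb hv1, ?_, ?_, ?_, ?_, ?_, ?_⟩
  · exact hn.X.mono hK le_rfl le_rfl (by omega)
  · exact hn.v.mono hK le_rfl le_rfl (by omega)
  · exact hn.w.mono hK le_rfl le_rfl (by omega)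
  · -- the null coordinate
    have h4 := cell_3 hW
    rw [h.s, h.s, ← hs, h.a, hμ] at h4
    have b3 := (Bd.mk0 (K := K) h4).symm
    have hv : Bd K 1 0 b (rd b' (C.l x).v - rd b (C.l x).v) := Bd.mk0 (rd_sub (by omega) _)
    have hw : Bd K 2 0 (b - C.μ) (C0.ro 1 (b' - C0.μ) (C0.l x).w - C.ro 1 (b - C.μ) (C.l x).w) := by
      have e1 : Bd K 1 0 (b' - C0.μ) (C0.ro 1 (b' - C0.μ) (C0.l x).w - (C0.l x).w) :=
        Bd.mk0 (ro_err 1 (b' - C0.μ) (C0.l x).w)
      have e2 : Bd K 1 0 (b - C.μ) (C.ro 1 (b - C.μ) (C.l x).w - (C.l x).w) :=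
        Bd.mk0 (ro_err 1 (b - C.μ) (C.l x).w)
      refine ((e1.mono (c' := 1) (e' := 0) (n' := b - C.μ) hK le_rfl le_rfl (by omega)).sub
        e2).congr ?_
      rw [h.l]
      ring
    have t1 := (hv.mul hn.X).mono (c' := 3) (e' := 0) (n' := C.a k + 2 * b + C.μ) hK (by omega)
      (by omega) (by omega)
    have t2 := (hw.mul hn.N).mono (c' := 6) (e' := 0) (n' := C.a k + 2 * b + C.μ) hK (by omega)
      (by omega) (by omega)
    have t3 := b3.mono (c' := 1) (e' := 0) (n' := C.a k + 2 * b + C.μ) hK (by omega)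
      (by omega) (by omega)
    refine (((t3.add t1).add t2).congr ?_).mono hK (by omega) le_rfl le_rfl
    have v1 : rd b (C.l x).v = rd b (C.l y).v := cell_rv (Dp_cell hD) le_rfl
    have v2 : rd b' (C.l x).v = rd b' (C.l y).v := rd_congr le_rfl hv1
    have w1 := cell_rw (Dp_cell hD)
    have w2 := cell_rw hW
    unfold Pth.Zs
    rw [h.l] at w2 ⊢
    rw [← v1, ← v2, ← w1, ← w2]
    ring
  · -- the value
    have g1 := (sz_g hK hSz hn hL).mono (c' := 42) (e' := 6) (n' := C.a k + b + C.rf k + C.μ) hK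
      (by omega) (by omega) (by omega)
    have g2 := (hcV.mul hn.X).mono (c' := 9) (e' := 6) (n' := C.a k + b + C.rf k + C.μ) hK (by omega)
      (by omega) (by omega)
    have h6 := cell_6 hW
    rw [← hF', ← hFF, h.s, h.s, ← hs, h.a, h.l, hμ, hR0] at h6
    have g3 := ((rt_bd hx h).mul (Bd.mk0 (K := K) h6).symm).mono (c' := 1) (e' := 6)
      (n' := C.a k + b + C.rf k + C.μ) hK (by omega) (by omega) (by omega)
    refine (((g1.sub g2).add g3).congr ?_).mono hK (by omega) le_rfl le_rfl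
    rw [hG, cmb_g, cmb_g]
    ring
  · -- the derivative
    have g1 := (sz_gd hK hSz hn hL).mono (c' := 22) (e' := 6) (n' := C.rf k + b + C.μ) hK
      (by omega) (by omega) (by omega)
    have g2 := (hcV.mul hn.v).mono (c' := 3) (e' := 6) (n' := C.rf k + b + C.μ) hK (by omega)
      (by omega) (by omega)
    have h6 := cell_5 hW
    rw [← hF', ← hFF, h.s, h.s, ← hs, h.l, hμ, hR0] at h6
    have g3 := ((rt_bd hx h).mul (Bd.mk0 (K := K) h6).symm).mono (c' := 1) (e' := 6)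
      (n' := C.rf k + b + C.μ) hK (by omega) (by omega) (by omega)
    refine (((g1.sub g2).add g3).congr ?_).mono hK (by omega) le_rfl le_rfl
    rw [hG, cmb_gd, cmb_gd]
    ring

end Vale.Agent.P106.U.H683
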