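import Vale.Agent.P106.U.H683.GenB

/-!
# P106 / U / H683 : ONE fixed letter for all steps and all caps of a window, deep phi regime (helper683)

Two paths `C`, `C0` over the same rays, times, own slopes; `k` = step of `C`, `k0` = step of `C0` (the start of the
window at its first cap), the functional of `k0` written at the time of `k`.

* `TwoK` : the slabs `(C0, k0)` and `(C, k)` agree to `r` digits at the ray of `x`; `twoK_self` (one path, `Ok.ag`).
* `slR_twoK` : true slopes in the two frames, at two points of one cell of `C`.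
* **`tok_fix`** : `TOk C K k i' b` from the fixed letter `Sb C0 k0 b0 i' n`; `fix_late` : the fixed letter given the
  late cell; `hc_fix`.
-/

set_option autoImplicit false

namespace Vale.Agent.P106.U.H683

open Finset Vale.Agent.P127 Vale.Agent.P127.Stk Vale.Agent.P106.U.Cell
open Vale.Agent.P127.U.CellD (q2 rd rd_le lt_rd rd_err rd_mono rd_sub q2_pos q2_le q2_add q2_mul_pow
  div_pow_eq fl1_fl1)

variable {Ω τ τ0 : Type} {C : Pth Ω τ} {C0 : Pth Ω τ0} {K : ℝ}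
  {k k0 i' b b0 b' p r E A : ℕ} {x y : Ω}

/-- the functional of `(C0, k0)` written at the time of `(C, k)` -/
noncomputable def F0 (C : Pth Ω τ) (C0 : Pth Ω τ0) (k k0 : ℕ) (x : Ω) : Fu :=
  (C0.F k0 x).sh (C.s k x - C0.s k0 x)

/-- the two paths have the same rays; the slabs `(C0, k0)` and `(C, k)` agree to `r` digits at `x` -/
structure TwoK (C : Pth Ω τ) (C0 : Pth Ω τ0) (K : ℝ) (k k0 r : ℕ) (x : Ω) : Prop where
  l : C0.l = C.l
  p : C0.p = C.p
  t : C0.t = C.t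
  ok : C0.Ok K x
  ag : Pth.Agr K r (C.a k) (F0 C C0 k k0 x) (C.F k x) (C.l x) (C.s k x)

/-- one path -/
theorem twoK_self (h : C.Ok K x) (hk : k0 ≤ k) : TwoK C C K k k0 (C.rk k0) x :=
  ⟨rfl, rfl, rfl, h, h.ag k0 k hk⟩

/-- ratio of the normal coefficients -/
noncomputable def rtK (C : Pth Ω τ) (C0 : Pth Ω τ0) (k k0 : ℕ) (x : Ω) : ℝ :=
  (C0.F k0 x).cN (C.l x) (C0.s k0 x) / (C.F k x).cN (C.l x) (C.s k x)

lemma TwoK.cN_pos0 (h : TwoK C C0 K k k0 r x) : 0 < (C0.F k0 x).cN (C.l x) (C0.s k0 x) := by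
  have := cN_pos (i := k0) h.ok
  rwa [h.l] at this

lemma rtK_pos (hok : C.Ok K x) (h : TwoK C C0 K k k0 r x) : 0 < rtK C C0 k k0 x :=
  div_pos h.cN_pos0 (cN_pos hok)

lemma rtK_bd (hok : C.Ok K x) (h : TwoK C C0 K k k0 r x) : Bd K 1 2 0 (rtK C C0 k k0 x) := by
  have h1 : Bd K 1 1 0 ((C0.F k0 x).cN (C.l x) (C0.s k0 x)) := Bd.of_le (by
    have := cN_abs (i := k0) h.ok
    rwa [h.l] at this)
  have h2 := cN_pos (i := k) hok
  have h3 : Bd K 1 1 0 (1 / (C.F k x).cN (C.l x) (C.s k x)) := Bd.of_le (by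
    rw [abs_of_pos (by positivity), div_le_iff₀ h2]
    exact hok.n1 k)
  refine (h1.mul h3).congr ?_
  unfold rtK
  rw [mul_one_div]

lemma rtK_inv (hok : C.Ok K x) (h : TwoK C C0 K k k0 r x) : Bd K 1 2 0 (1 / rtK C C0 k k0 x) := by
  have h1 : Bd K 1 1 0 ((C.F k x).cN (C.l x) (C.s k x)) := Bd.of_le (cN_abs hok)
  have h2 := h.cN_pos0
  have h3 : Bd K 1 1 0 (1 / (C0.F k0 x).cN (C.l x) (C0.s k0 x)) := Bd.of_le (by
    rw [abs_of_pos (by positivity), div_le_iff₀ h2]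
    have := h.ok.n1 k0
    rwa [h.l] at this)
  refine (h1.mul h3).congr ?_
  unfold rtK
  rw [one_div_div, mul_one_div]

/-- **the slopes in the frames of the two slabs** -/
theorem slR_twoK (hok : C.Ok K x) (hoky : C.Ok K y) (h : TwoK C C0 K k k0 r x)
    (hn : Nr K 4 A b C.μ (C.l x) (C.l y) (C.s k x)) (hA : A ≤ C.a k) (hA2 : C.a k + 3 * C.μ ≤ A + b)
    (hT : C.T k x = C.T k y) (hT0 : C0.T k0 x = C0.T k0 y)
    (hv : rd (C.bs k b') (C.l x).v = rd (C.bs k b') (C.l y).v)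
    (hv0 : rd (C0.bs k0 b0) (C.l x).v = rd (C0.bs k0 b0) (C.l y).v)
    (hb8 : 8 * C.μ ≤ b) (hE : E + C.a k + 3 * C.μ ≤ r + A + b) :
    Bd K 20 3 E ((slR C0 k0 b0 y - slR C0 k0 b0 x) -
      rtK C C0 k k0 x * (slR C k b' y - slR C k b' x)) := by
  have hK := K_one hok
  set d := C.s k x - C0.s k0 x with hd
  have hsd : C0.s k0 x + d = C.s k x := by rw [hd]; ring
  set H := (Fo C0 k0 b0 x).sh d with hH
  have eN : ∀ l : Ray, H.cN l (C.s k x) = (Fo C0 k0 b0 x).cN l (C0.s k0 x) := by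
    intro l
    have := Fu.cN_sh (Fo C0 k0 b0 x) l (C0.s k0 x) d
    rwa [hsd] at this
  have eV : ∀ l : Ray, H.cV l (C.s k x) = (Fo C0 k0 b0 x).cV l (C0.s k0 x) := by
    intro l
    have := Fu.cV_sh (Fo C0 k0 b0 x) l (C0.s k0 x) d
    rwa [hsd] at this
  have eN' : (F0 C C0 k k0 x).cN (C.l x) (C.s k x) = (C0.F k0 x).cN (C.l x) (C0.s k0 x) := by
    have := Fu.cN_sh (C0.F k0 x) (C.l x) (C0.s k0 x) d
    rwa [hsd] at this
  set G := cmb H (Fo C k b' x) (rtK C C0 k k0 x) with hG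
  have hSz : Sz K r (C.a k) G (C.l x) (C.s k x) := by
    refine sz_of hK ⟨?_, h.ag.ka, h.ag.al⟩ (hok.n1 k) (hok.k1 k) (hok.a1 k) ?_
    · exact h.ag.cN
    · unfold rtK
      rw [eN]
      rfl
  have hL : Lvl r (C.a k) A b C.μ E := ⟨hb8, hA, hA2, hE⟩
  have h1 := sz_cN hK hSz hn hL
  have h2 := sz_cV hK hSz hn hL
  have hp : Bd K 1 0 0 (C.p y) := (Bd.mk0 hoky.p1).mono hK le_rfl le_rfl (by omega)
  have c0 : G.cV (C.l x) (C.s k x) = 0 := by
    have e1 := Fo_cV (C := C) (k := k) (b := b') x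
    have e2 := Fo_cV (C := C0) (k := k0) (b := b0) x
    rw [h.l, h.p] at e2
    have e4 : rtK C C0 k k0 x * (C.F k x).cN (C.l x) (C.s k x) =
        (C0.F k0 x).cN (C.l x) (C0.s k0 x) := by
      unfold rtK
      rw [div_mul_cancel₀ _ (cN_pos hok).ne']
    rw [hG, cmb_cV, e1, eV, e2]
    linear_combination (-C.p x) * e4
  rw [c0, sub_zero] at h2
  have h3 := ((hp.mul h1).mono (c' := 10) (e' := 3) (n' := E) hK (by omega) (by omega)
    (by omega)).sub h2
  refine (h3.congr ?_).mono hK (by omega) le_rfl le_rfl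
  have e1 := slR_pt (C := C) (k := k) (b := b') hT hv
  have e2 := slR_pt (C := C0) (k := k0) (b := b0) hT0 (by rw [h.l]; exact hv0)
  rw [h.l, h.p] at e2
  rw [hG, cmb_cN, cmb_cV, eN, eV]
  linear_combination e2 - rtK C C0 k k0 x * e1

/-- the fine frame from the coarse frame -/
theorem slR_of_baseK (hok : C.Ok K x) (hoky : C.Ok K y) (h : TwoK C C0 K k k0 r x)
    (hn : Nr K 4 A b C.μ (C.l x) (C.l y) (C.s k x)) (hA : A ≤ C.a k) (hA2 : C.a k + 3 * C.μ ≤ A + b)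
    (hT : C.T k x = C.T k y) (hT0 : C0.T k0 x = C0.T k0 y)
    (hv : rd (C.bs k b') (C.l x).v = rd (C.bs k b') (C.l y).v)
    (hv0 : rd (C0.bs k0 b0) (C.l x).v = rd (C0.bs k0 b0) (C.l y).v)
    (hb8 : 8 * C.μ ≤ b) (hE : E + C.a k + 3 * C.μ ≤ r + A + b) {c e : ℕ} (he : e ≤ 4)
    (h0 : Bd K c e E (slR C0 k0 b0 y - slR C0 k0 b0 x)) :
    Bd K (20 + c) 6 E (slR C k b' y - slR C k b' x) := by
  have hK := K_one hok
  have h1 := slR_twoK hok hoky h hn hA hA2 hT hT0 hv hv0 hb8 hE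
  have hρ := rtK_pos hok h
  have h2 := ((rtK_inv hok h).mul ((h0.mono (c' := c) (e' := 4) (n' := E) hK le_rfl he le_rfl).sub
    (h1.mono (c' := 20) (e' := 4) (n' := E) hK le_rfl (by omega) le_rfl))).mono (c' := 20 + c)
    (e' := 6) (n' := E) hK (by omega) (by omega) (by omega)
  refine h2.congr ?_
  rw [one_div, inv_mul_eq_iff_eq_mul₀ hρ.ne']
  ring

/-- the coarse frame from the fine frame -/
theorem base_of_slRK (hok : C.Ok K x) (hoky : C.Ok K y) (h : TwoK C C0 K k k0 r x)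
    (hn : Nr K 4 A b C.μ (C.l x) (C.l y) (C.s k x)) (hA : A ≤ C.a k) (hA2 : C.a k + 3 * C.μ ≤ A + b)
    (hT : C.T k x = C.T k y) (hT0 : C0.T k0 x = C0.T k0 y)
    (hv : rd (C.bs k b') (C.l x).v = rd (C.bs k b') (C.l y).v)
    (hv0 : rd (C0.bs k0 b0) (C.l x).v = rd (C0.bs k0 b0) (C.l y).v)
    (hb8 : 8 * C.μ ≤ b) (hE : E + C.a k + 3 * C.μ ≤ r + A + b) {c e : ℕ} (he : e ≤ 4)
    (h0 : Bd K c e E (slR C k b' y - slR C k b' x)) :
    Bd K (20 + c) 6 E (slR C0 k0 b0 y - slR C0 k0 b0 x) := by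
  have hK := K_one hok
  have h1 := slR_twoK hok hoky h hn hA hA2 hT hT0 hv hv0 hb8 hE
  have h2 := ((rtK_bd hok h).mul h0).mono (c' := c) (e' := 6) (n' := E) hK (by omega) (by omega)
    (by omega)
  refine ((h1.mono (c' := 20) (e' := 6) (n' := E) hK le_rfl (by omega) le_rfl).add h2).congr ?_
  ring

/-- **the fixed letter of the window** `Sb C0 k0 b0 i' n` (late time, slope in the frame of the start of the window
at its first cap) gives `TOk` at every step `k` and every cap `b` of the window -/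
theorem tok_fix (hR : Reg C k i' b) (hx : C.Ok K x) (hy : C.Ok K y) (h : TwoK C C0 K k k0 r x)
    (hai : C0.a i' = C.a i') (hD : Dp C k b x = Dp C k b y) (hT0 : C0.T k0 x = C0.T k0 y)
    (hb0 : C0.bs k0 b0 ≤ b) (hr : C.rf k + 6 * C.μ ≤ r + b) {n : ℕ} (hn : C.rf k + 3 * C.μ ≤ n)
    (hs : Sb C0 k0 b0 i' n x = Sb C0 k0 b0 i' n y) : TOk C K k i' b x y := by
  obtain ⟨h1, h2⟩ := Prod.mk.inj hs
  have hb8 := hR.b8
  have hK := K_one hx
  refine ⟨?_, ?_⟩
  · unfold Pth.s rd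
    rw [hai, h.t] at h1
    rw [h1]
  · have h3 := near_fl1 h2
    rw [add_sub_add_right_eq_sub] at h3
    have h4 : Bd K 1 0 (C.rf k + 3 * C.μ) (slR C0 k0 b0 y - slR C0 k0 b0 x) :=
      ((Bd.mk0 (K := K) h3).symm).mono hK le_rfl le_rfl hn
    have hnr : Nr K 4 (C.a k) b C.μ (C.l x) (C.l y) (C.s k x) :=
      (nr_cell hK (Dp_cell hD) hb8).move hK hb8 (by
        rw [sub_self, abs_zero]
        exact (q2_pos _).le)
    have h5 := slR_of_baseK (b' := b) hx hy h hnr le_rfl (by omega) (Dp_T hD) hT0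
      (cell_rv (Dp_cell hD) (by unfold Pth.bs; omega)) (cell_rv (Dp_cell hD) hb0) hb8
      (show C.rf k + 3 * C.μ + C.a k + 3 * C.μ ≤ r + C.a k + b by omega) (by omega) h4
    exact (h5.symm.mono hK (by omega) le_rfl (by omega))

/-- **the fixed letter of the window, given a late cell** of the step `i` (its own slope is known to `rf i` digits) -/
theorem fix_late {i : ℕ} (hx : C.Ok K x) (hy : C.Ok K y) (h : TwoK C C0 K i k0 r x)
    (hT0 : C0.T k0 x = C0.T k0 y) (hb0 : C0.bs k0 b0 ≤ b) (hb8 : 8 * C.μ ≤ b) {E : ℕ}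
    (hE1 : E + 3 * C.μ ≤ C.R i b) (hE2 : E + 3 * C.μ ≤ r + b)
    (hE : C.cell i b x = C.cell i b y) :
    Bd K 64 6 E (slR C0 k0 b0 y - slR C0 k0 b0 x) := by
  have hK := K_one hx
  have hTk : C.T i x = C.T i y := cell_T hE
  have hRf := R_le_rf C i b
  have hn : Nr K 4 (C.a i) b C.μ (C.l x) (C.l y) (C.s i x) :=
    (nr_cell hK hE hb8).move hK hb8 (by
      rw [sub_self, abs_zero]
      exact (q2_pos _).le)
  have h1 : Bd K 3 1 E (slR C i b y - slR C i b x) := by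
    have h4 := near_fl1 (cell_fl hE 4)
    rw [add_sub_add_right_eq_sub] at h4
    have h5 : Bd K 1 0 (C.R i b - 3 * C.μ) (C.sl i b x - C.sl i b y) := Bd.mk0 h4
    have a1 := (slR_near (i := i) (b := b) hx).mono (c' := 1) (e' := 1) (n' := E) hK le_rfl le_rfl
      (by omega)
    have a2 := (slR_near (i := i) (b := b) hy).mono (c' := 1) (e' := 1) (n' := E) hK le_rfl le_rfl
      (by omega)
    have a3 := h5.symm.mono (c' := 1) (e' := 1) (n' := E) hK le_rfl (by omega) (by omega)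
    refine ((a3.add a2).sub a1).congr ?_
    ring
  exact (base_of_slRK (b' := b) hx hy h hn le_rfl (by omega) hTk hT0
    (cell_rv hE (by unfold Pth.bs; omega)) (cell_rv hE hb0) hb8
    (show E + C.a i + 3 * C.μ ≤ r + C.a i + b by omega) (by omega)
    h1).mono hK (by omega) le_rfl le_rfl

/-- the digits of the fixed letter are close to a change -/
def Badf (C0 : Pth Ω τ0) (K : ℝ) (k0 b0 n m : ℕ) (ω : Ω) : Prop :=
  Vale.Agent.P127.U.CellD.Nb n (slR C0 k0 b0 ω + C0.o 4) (64 * K ^ 6 * q2 m)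

/-- **entropy of the fixed letter given a late cell** -/
theorem hc_fix [Fintype Ω] (P : Law Ω) {i : ℕ} (hok : ∀ ω, 0 < P.w ω → C.Ok K ω)
    (h : ∀ ω, 0 < P.w ω → TwoK C C0 K i k0 r ω)
    (hT0 : ∀ x y, 0 < P.w x → 0 < P.w y → C.cell i b x = C.cell i b y → C0.T k0 x = C0.T k0 y)
    (hb0 : C0.bs k0 b0 ≤ b) (hb8 : 8 * C.μ ≤ b) {E n : ℕ} (hE1 : E + 3 * C.μ ≤ C.R i b)
    (hE2 : E + 3 * C.μ ≤ r + b) (hn : n ≤ E) {M : ℕ} (hM : 64 * K ^ 6 ≤ M) :
    hc P (fun ω => fl1 n (slR C0 k0 b0 ω + C0.o 4)) (C.cell i b) ≤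
      (2 + Real.log (2 * M + 3)) * Real.sqrt (prE P (Badf C0 K k0 b0 n E)) := by
  have key : ∀ x y, 0 < P.w x → 0 < P.w y → C.cell i b x = C.cell i b y →
      |slR C0 k0 b0 y - slR C0 k0 b0 x| ≤ 64 * K ^ 6 * q2 E := by
    intro x y px py e
    have := fix_late (b0 := b0) (hok x px) (hok y py) (h x px) (hT0 x y px py e) hb0 hb8 hE1 hE2 e
    unfold Bd at this
    push_cast at this
    exact this
  have hh := Vale.Agent.P106.U.H364.nhc P (fun ω => fl1 n (slR C0 k0 b0 ω + C0.o 4)) (C.cell i b)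
    (Badf C0 K k0 b0 n E) (2 * M + 3) (by omega) ?_ ?_
  · push_cast at hh
    exact hh
  · intro x y px py hB _ e
    have h1 := key x y px py e
    refine Vale.Agent.P127.U.CellD.Nb.eq hB ?_ ?_
    · rw [sub_self, abs_zero]
      exact (abs_nonneg _).trans h1
    · rw [add_sub_add_right_eq_sub]
      exact h1
  · intro x px
    refine ⟨Finset.Icc (fl1 n (slR C0 k0 b0 x + C0.o 4) - (M + 1))
      (fl1 n (slR C0 k0 b0 x + C0.o 4) + (M + 1)), (card_Icc_nr M _).le, ?_⟩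
    intro y py e
    refine mem_Icc_nr (Vale.Agent.P106.U.H364.fl1_le_of_near (M := M) ?_)
    rw [add_sub_add_right_eq_sub]
    have hK := K_one (hok x px)
    have h3 : (0 : ℝ) ≤ M := Nat.cast_nonneg _
    exact (key x y px py e.symm).trans (mul_le_mul hM (q2_le hn) (q2_pos _).le h3)

end Vale.Agent.P106.U.H683
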