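import Vale.Agent.P106.U.H683.PhiS

/-!
# P106 / U / H683 : the N-step, deep phi regime, for ARBITRARY letters `Θ`, `W` (helper683)

* `TOk` : two points with the same late time and almost the same own slope (what is needed of `Θ`).
* `Fine` : two points whose early data are close at the level `b + μ` (what is needed of `W`).
* `fine_cell` : `W = cell k b'`.
-/

set_option autoImplicit false

namespace Vale.Agent.P106.U.H683

open Finset Vale.Agent.P127 Vale.Agent.P127.Stk Vale.Agent.P106.U.Cell Vale.Agent.P106.TV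
open Vale.Agent.P127.U.CellD (q2 rd rd_le lt_rd rd_err rd_mono rd_sub q2_pos q2_le q2_add q2_mul_pow
  div_pow_eq fl1_fl1)

variable {Ω τ θ ω' : Type} {C : Pth Ω τ} {K : ℝ} {k i' b b' p c0 : ℕ} {x y r : Ω}

/-- the points `x`, `y` have the same late time and almost the same own slope -/
structure TOk (C : Pth Ω τ) (K : ℝ) (k i' b : ℕ) (x y : Ω) : Prop where
  s : C.s i' x = C.s i' y
  r : Bd K 64 6 (C.rf k + 2 * C.μ) (slR C k b x - slR C k b y)

/-- closeness of the early data -/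
structure Fine (C : Pth Ω τ) (K : ℝ) (k b p : ℕ) (x y : Ω) : Prop where
  e : fl1 (b + p) (C.l x).v = fl1 (b + p) (C.l y).v
  X : Bd K 3 0 (C.a k + b + C.μ) ((C.l y).X (C.s k x) - (C.l x).X (C.s k x))
  v : Bd K 1 0 (b + C.μ) ((C.l y).v - (C.l x).v)
  w : Bd K 1 0 (b + 2 * C.μ) ((C.l y).w - (C.l x).w)
  z : Bd K 13 0 (C.a k + 2 * b + C.μ) (C.Zs b (C.s k x) y - C.Zs b (C.s k x) x)
  g : Bd K 64 6 (C.a k + b + C.rf k + C.μ)
    ((Fn C k b (C.R k b) x).g (C.l y) (C.s k x) - (Fn C k b (C.R k b) x).g (C.l x) (C.s k x))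
  gd : Bd K 64 6 (C.rf k + b + C.μ)
    ((Fn C k b (C.R k b) x).gd (C.l y) (C.s k x) - (Fn C k b (C.R k b) x).gd (C.l x) (C.s k x))

/-- the cell of a deeper cap -/
theorem fine_cell (hR : Reg C k i' b) (hb : b + 8 * C.μ ≤ b') (hpb : b + p ≤ b') (hok : C.Ok K x)
    (hD : Dp C k b x = Dp C k b y) (h : C.cell k b' x = C.cell k b' y) : Fine C K k b p x y := by
  have hK := K_one hok
  have hn := fine_nr hR hb hok h
  have h3 := hR.b8
  refine ⟨fl1_fl1 hpb (cell_v h), ?_, ?_, ?_, ?_, ?_, ?_⟩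
  · exact hn.X.mono hK le_rfl le_rfl (by omega)
  · exact hn.v.mono hK le_rfl le_rfl (by omega)
  · exact hn.w.mono hK le_rfl le_rfl (by omega)
  · exact (Zs_fine hR hb hok hD h).mono hK le_rfl le_rfl (by omega)
  · exact (g_fine hR hb hok h).mono hK (by omega) (by omega) (by omega)
  · exact (gd_fine hR hb hok h).mono hK (by omega) (by omega) (by omega)

/-! ### equality of the functionals -/

lemma Fk_eq' (hD : Dp C k b x = Dp C k b y) (hs : C.s i' x = C.s i' y) :
    Fk C k i' b x = Fk C k i' b y := by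
  unfold Fk
  rw [Dp_Fn hD, hs, s_T (Dp_T hD)]

/-- the residual slope is determined by `TOk` -/
lemma res_tok (hD : Dp C k b x = Dp C k b y) (h : TOk C K k i' b x y) :
    Bd K 64 6 (C.rf k + 2 * C.μ) (res C k b (C.R k b) x - res C k b (C.R k b) y) := by
  refine h.r.congr ?_
  unfold res
  rw [Dp_ro hD]
  ring

/-- the difference of the two functionals, with the functional of the late cell -/
noncomputable def Ge (C : Pth Ω τ) (k i' b : ℕ) (ω : Ω) : Fu :=
  cmb (Fk C k i' b ω) (Fe C i' b ω) (rh C k i' b ω)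

lemma Fe_cN (ω : Ω) : (Fe C i' b ω).cN (C.l ω) (C.s i' ω) = (C.F i' ω).cN (C.l ω) (C.s i' ω) := rfl

lemma sz_Ge (hR : Reg C k i' b) (hok : C.Ok K r) :
    Sz K (C.rk k) (C.a i') (Ge C k i' b r) (C.l r) (C.s i' r) := by
  have hag := hok.ag k i' hR.ki
  exact sz_of (K_one hok) ⟨hag.cN, hag.ka, hag.al⟩ (hok.n1 i') (hok.k1 i') (hok.a1 i') rfl

lemma Ge_cV (hR : Reg C k i' b) (hok : C.Ok K r) :
    Bd K 2 3 (C.rf k + 5 * C.μ) ((Ge C k i' b r).cV (C.l r) (C.s i' r) + res C k b (C.R k b) r) := by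
  have hK := K_one hok
  have h1 := (rh_bd (k := k) (i' := i') (b := b) hok).mul (rsi_bd hR hok)
  refine (h1.mono hK (by omega) (by omega) (n' := C.rf k + 5 * C.μ) (by omega)).congr ?_
  unfold Ge
  rw [cmb_cV, Fk_cV, Fe_cV]
  linear_combination C.p r * rh_mul (k := k) (i' := i') (b := b) hok

/-- **the derivative of the early functional, from the derivative of the late cell** -/
lemma gd_pairE (hR : Reg C k i' b) (hokr : C.Ok K r) (hD : Dp C k b r = Dp C k b x)
    (hs : C.s i' r = C.s i' x) (hE : C.cell i' b r = C.cell i' b x) :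
    Bd K 30 3 (C.rf k + 5 * C.μ + b)
      ((Fk C k i' b x).gd (C.l x) (C.s i' x) -
        (rh C k i' b r * (Fe C i' b x).gd (C.l x) (C.s i' x) +
          ((Fk C k i' b r).gd (C.l r) (C.s i' r) - rh C k i' b r * (Fe C i' b r).gd (C.l r) (C.s i' r)) -
          res C k b (C.R k b) r * ((C.l r).v - rd b (C.l r).v)) -
        res C k b (C.R k b) r * ((C.l x).v - rd b (C.l x).v)) := by
  have hK := K_one hokr
  have hn := nr_late hR hokr hD
  have h1 := sz_gd hK (sz_Ge hR hokr) hn hR.lvl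
  have h2 := (Ge_cV hR hokr).mul hn.v
  have h3 := h1.sub (h2.mono (c' := 2) (e' := 3) (n' := C.rf k + 5 * C.μ + b) hK (by omega) (by omega)
    (by omega))
  have hFe : Fe C i' b r = Fe C i' b x := late_Fe hE
  refine h3.congr ?_
  unfold Ge
  rw [cmb_gd, cmb_gd, ← Fk_eq' hD hs, ← hFe, ← hs]
  have hv : rd b (C.l x).v = rd b (C.l r).v := (cell_rv (Dp_cell hD) le_rfl).symm
  rw [hv]
  ring

/-- the derivative of the functional of the late cell -/
lemma gde_late (hK : 1 ≤ K) (hR : Reg C k i' b) (h : C.cell i' b x = C.cell i' b y) :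
    Bd K 1 0 (C.rf i' + b - 5 * C.μ)
      ((Fe C i' b y).gd (C.l y) (C.s i' y) - (Fe C i' b x).gd (C.l x) (C.s i' x)) := by
  have h5 := cell_5 h
  rw [hR.Ri] at h5
  have b5 := (Bd.mk0 (K := K) h5).symm
  unfold Fe
  rw [hR.Ri]
  exact b5.mono hK le_rfl le_rfl le_rfl

/-- the value of the functional of the late cell -/
lemma ge_late (hK : 1 ≤ K) (hR : Reg C k i' b) (h : C.cell i' b x = C.cell i' b y) :
    Bd K 1 0 (C.a i' + b + C.rf i' - 7 * C.μ)
      ((Fe C i' b y).g (C.l y) (C.s i' y) - (Fe C i' b x).g (C.l x) (C.s i' x)) := by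
  have h5 := cell_6 h
  rw [hR.Ri] at h5
  have b5 := (Bd.mk0 (K := K) h5).symm
  unfold Fe
  rw [hR.Ri]
  exact b5.mono hK le_rfl le_rfl le_rfl

/-- the early functional at the late time, same late cell -/
lemma g_lateE (hR : Reg C k i' b) (hok : C.Ok K x) (h : C.cell i' b x = C.cell i' b y) :
    Bd K 61 3 (C.a k + b + C.rf k + C.μ)
      ((Fk C k i' b x).g (C.l y) (C.s i' x) - (Fk C k i' b x).g (C.l x) (C.s i' x)) := by
  have hK := K_one hok
  have h1 := hR.hf; have h2 := hR.f8; have h3 := hR.b8; have h4 := hR.ha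
  have hn := late_nr hR hok h
  have hs : C.s i' x = C.s i' y := s_T (cell_T h)
  have g1 := (sz_g hK (sz_Ge hR hok) hn hR.lvl').mono (c' := 42) (e' := 3)
    (n' := C.a k + b + C.rf k + C.μ) hK (by omega) le_rfl (by omega)
  have c1 := (Ge_cV hR hok).mono (c' := 2) (e' := 3) (n' := C.rf k) hK le_rfl le_rfl (by omega)
  have c2 := (res_bd C K k b (C.R k b) x).mono (c' := 2) (e' := 3) (n' := C.rf k) hK (by omega)
    (by omega) (le_of_eq hR.Rk.symm)
  have g2 := ((c1.sub c2).mul hn.X).mono (c' := 12) (e' := 3) (n' := C.a k + b + C.rf k + C.μ) hK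
    (by omega) (by omega) (by omega)
  have g3 := ((rh_bd (k := k) (i' := i') (b := b) hok).mul (ge_late hK hR h)).mono (c' := 7)
    (e' := 3) (n' := C.a k + b + C.rf k + C.μ) hK (by omega) (by omega) (by omega)
  refine (((g1.sub g2).add g3).congr ?_).mono hK (by omega) le_rfl le_rfl
  have hFe : Fe C i' b x = Fe C i' b y := late_Fe h
  unfold Ge
  rw [cmb_g, cmb_g, ← hFe, ← hs]
  ring

end Vale.Agent.P106.U.H683
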