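import Vale.Agent.P106.U.H683.GenG

/-!
# P106 / U / H683 : the cube form of the N-step, deep phi regime, arbitrary letters `Θ`, `W` (helper683)
-/

set_option autoImplicit false

namespace Vale.Agent.P106.U.H683

open Finset Vale.Agent.P127 Vale.Agent.P127.Stk Vale.Agent.P106.U.Cell Vale.Agent.P106.TV
open Vale.Agent.P127.U.Pin Vale.Agent.P127.U.Mic
open Vale.Agent.P127.U.CellD (q2 rd rd_le lt_rd rd_err rd_mono rd_sub q2_pos q2_le q2_add q2_mul_pow
  div_pow_eq fl1_fl1)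

variable {Ω τ θ ω' : Type} {C : Pth Ω τ} {K : ℝ} {k i' b b' p c0 : ℕ} {x y r : Ω}

section defs

variable [Fintype Ω] [Nonempty Ω] (P : Law Ω) (C : Pth Ω τ) (k i' b p c0 : ℕ) (Θ : Ω → θ)
  (W : Ω → ω')

/-- the pair (cell, letter) -/
noncomputable def Yg (ω : Ω) : ((τ × Pth.Dg) × ℤ) × θ := (Dp C k b ω, Θ ω)

/-- the triple (cell, letter, late cell) -/
noncomputable def Ye (ω : Ω) : ((τ × Pth.Dg) × ℤ) × (θ × (τ × Pth.Dg)) :=
  (Dp C k b ω, (Θ ω, C.cell i' b ω))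

/-- the fine letter with the direction -/
noncomputable def Wg (ω : Ω) : ω' × ℤ := (W ω, fl1 (b + p) (C.l ω).v)

/-- the direction, in units -/
noncomputable def exg (d : (τ × Pth.Dg) × ℤ) (w : ω' × ℤ) : ℝ :=
  2 ^ b * ((w.2 : ℝ) / 2 ^ (b + p)) - (d.1.2.1 : ℝ)

/-- difference of the late times, in units -/
noncomputable def Sfg (d : (τ × Pth.Dg) × ℤ) (u u' : θ) : ℝ :=
  2 ^ C.a k * (C.s i' (rp P (Yg C k b Θ) (d, u')) - C.s i' (rp P (Yg C k b Θ) (d, u)))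

/-- relative slope, in units -/
noncomputable def Gfg (d : (τ × Pth.Dg) × ℤ) (u : θ) : ℝ :=
  2 ^ (C.R k b - c0) * res C k b (C.R k b) (rp P (Yg C k b Θ) (d, u))

/-- the known part of the derivative -/
noncomputable def Ae (r ω : Ω) : ℝ :=
  rh C k i' b r * (Fe C i' b ω).gd (C.l ω) (C.s i' ω) +
    ((Fk C k i' b r).gd (C.l r) (C.s i' r) - rh C k i' b r * (Fe C i' b r).gd (C.l r) (C.s i' r)) -
    res C k b (C.R k b) r * ((C.l r).v - rd b (C.l r).v)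

/-- the position moved to the time of the letter `u` -/
noncomputable def beG (u : θ) (ω : Ω) : Fin 3 → ℝ :=
  ![2 ^ (C.a k + b) * (C.l ω).X (C.s i' ω) -
      Sfg P C k i' b Θ (Dp C k b ω) u (Θ ω) * (2 ^ b * rd b (C.l ω).v),
    2 ^ (C.a k + 2 * b) * C.Zs b (C.s i' ω) ω -
      Sfg P C k i' b Θ (Dp C k b ω) u (Θ ω) * (2 ^ (2 * b) *
        ((((C.l (rp P (Ye C k i' b Θ) (Ye C k i' b Θ ω))).w - C.ro 1 (b - C.μ) (C.l ω).w) ^ 2 -
          (rd b (C.l ω).v ^ 2 + C.ro 1 (b - C.μ) (C.l ω).w ^ 2)) / 2)),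
    2 ^ (C.a k + b + C.R k b - c0) * (Fk C k i' b ω).g (C.l ω) (C.s i' ω) -
      Sfg P C k i' b Θ (Dp C k b ω) u (Θ ω) * (2 ^ (b + C.R k b - c0) *
        Ae C k i' b (rp P (Ye C k i' b Θ) (Ye C k i' b Θ ω)) ω)]

end defs

/-- the hypotheses on the letters -/
structure Lok [Fintype Ω] (P : Law Ω) (C : Pth Ω τ) (K : ℝ) (k i' b p : ℕ) (Θ : Ω → θ)
    (W : Ω → ω') : Prop where
  θ : ∀ x y, 0 < P.w x → 0 < P.w y → Dp C k b x = Dp C k b y → Θ x = Θ y → TOk C K k i' b x y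
  w : ∀ x y, 0 < P.w x → 0 < P.w y → Dp C k b x = Dp C k b y → W x = W y → Fine C K k b p x y

lemma Sfg_eq [Fintype Ω] [Nonempty Ω] {P : Law Ω} {Θ : Ω → θ} {W : Ω → ω'}
    (hL : Lok P C K k i' b p Θ W) (px : 0 < P.w x) (py : 0 < P.w y)
    (hD : Dp C k b x = Dp C k b y) {d : (τ × Pth.Dg) × ℤ} (hd : d = Dp C k b x) :
    Sfg P C k i' b Θ d (Θ x) (Θ y) = 2 ^ C.a k * (C.s i' y - C.s i' x) := by
  obtain ⟨p1, e1⟩ := rp_spec P (Yg C k b Θ) px
  obtain ⟨p2, e2⟩ := rp_spec P (Yg C k b Θ) py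
  obtain ⟨a1, a2⟩ := Prod.mk.inj e1
  obtain ⟨b1, b2⟩ := Prod.mk.inj e2
  have h1 := (hL.θ _ _ p1 px a1 a2).s
  have h2 := (hL.θ _ _ p2 py b1 b2).s
  unfold Sfg
  have c1 : (d, Θ x) = Yg C k b Θ x := by rw [hd]; rfl
  have c2 : (d, Θ y) = Yg C k b Θ y := by rw [hd, hD]; rfl
  rw [c1, c2, h1, h2]

lemma Sfg_le [Fintype Ω] [Nonempty Ω] {P : Law Ω} {Θ : Ω → θ} {W : Ω → ω'}
    (hL : Lok P C K k i' b p Θ W) (hki : k ≤ i') (px : 0 < P.w x) (py : 0 < P.w y)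
    (hD : Dp C k b x = Dp C k b y) {d : (τ × Pth.Dg) × ℤ} (hd : d = Dp C k b x) :
    |Sfg P C k i' b Θ d (Θ x) (Θ y)| ≤ 1 := by
  rw [Sfg_eq hL px py hD hd]
  have := Sf_le (b := b) hki (Dp_T hD)
  rwa [Sf_eq] at this

lemma exg_eq {W : Ω → ω'} (hD : Dp C k b x = Dp C k b y) :
    exg b p (Dp C k b x) (Wg C b p W y) = 2 ^ b * (rd (b + p) (C.l y).v - rd b (C.l y).v) :=
  ex_eq (b' := b) hD

lemma exg_mem {W : Ω → ω'} (hD : Dp C k b x = Dp C k b y) :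
    0 ≤ exg b p (Dp C k b x) (Wg C b p W y) ∧ exg b p (Dp C k b x) (Wg C b p W y) ≤ 1 :=
  ex_mem (b' := b) hD

lemma exg_err {W : Ω → ω'} (hK : 1 ≤ K) (hp : C.μ ≤ p) (hD : Dp C k b x = Dp C k b y) :
    Bd K 1 0 C.μ (2 ^ b * ((C.l y).v - rd b (C.l y).v) - exg b p (Dp C k b x) (Wg C b p W y)) :=
  ex_err (b' := b) hK hp hD

lemma Gfg_le [Fintype Ω] [Nonempty Ω] {P : Law Ω} {Θ : Ω → θ} (hR : Reg C k i' b)
    (hok : ∀ ω, 0 < P.w ω → C.Ok K ω) (hc : 2 * K ≤ 2 ^ c0) (hc0 : c0 ≤ C.rf k)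
    (hD : Dp C k b x = Dp C k b y) (hy : 0 < P.w y) :
    |Gfg P C k b c0 Θ (Dp C k b x) (Θ y)| ≤ 1 := by
  obtain ⟨h1, _⟩ := rp_spec P (Yg C k b Θ) hy
  have e1 : (Dp C k b x, Θ y) = Yg C k b Θ y := by rw [hD]; rfl
  unfold Gfg
  rw [e1]
  have h2 := (res_bd C K k b (C.R k b) (rp P (Yg C k b Θ) (Yg C k b Θ y))).mono (c' := 2)
    (e' := 1) (n' := C.R k b) (K_one (hok _ h1)) (by omega) (by omega) le_rfl
  unfold Bd at h2
  rw [abs_mul, abs_of_pos (by positivity : (0 : ℝ) < 2 ^ (C.R k b - c0))]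
  have e2 : (2 : ℝ) ^ C.R k b = 2 ^ (C.R k b - c0) * 2 ^ c0 := by
    rw [← pow_add, Nat.sub_add_cancel (by rw [hR.Rk]; exact hc0)]
  have e3 := q2_mul_pow (C.R k b)
  have e4 : (0 : ℝ) < 2 ^ (C.R k b - c0) := by positivity
  have e5 := q2_pos (C.R k b)
  calc (2 : ℝ) ^ (C.R k b - c0) * |res C k b (C.R k b) (rp P (Yg C k b Θ) (Yg C k b Θ y))| ≤
        2 ^ (C.R k b - c0) * ((2 : ℕ) * K ^ 1 * q2 (C.R k b)) :=
        mul_le_mul_of_nonneg_left h2 e4.le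
    _ = (2 * K) * (2 ^ (C.R k b - c0) * q2 (C.R k b)) := by push_cast; ring
    _ ≤ 2 ^ c0 * (2 ^ (C.R k b - c0) * q2 (C.R k b)) :=
        mul_le_mul_of_nonneg_right hc (mul_pos e4 e5).le
    _ = 1 := by rw [← e3, e2]; ring

/-! ### the three coordinates -/

/-- first coordinate -/
lemma cg0 (hR : Reg C k i' b) (hp : C.μ ≤ p) (hok : C.Ok K x) {W : Ω → ω'}
    (hD : Dp C k b x = Dp C k b y) (hF : Fine C K k b p x y) {S : ℝ}
    (hS : S = 2 ^ C.a k * (C.s i' y - C.s i' x)) :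
    Bd K 5 0 C.μ (2 ^ (C.a k + b) * (C.l y).X (C.s i' y) -
      S * (2 ^ b * rd b (C.l y).v) -
      2 ^ (C.a k + b) * (C.l x).X (C.s i' x) -
      S * exg b p (Dp C k b x) (Wg C b p W x)) := by
  have hK := K_one hok
  have hs : C.s k x = C.s k y := s_T (Dp_T hD)
  have h3 := hR.b8
  have t1 := hF.X.scale (s := C.a k + b) (n' := C.μ) hK (by omega)
  have t2 := ((Bd.mk0 (K := K) (s_near (C := C) hR.ki y)).mul hF.v).scale (s := C.a k + b)
    (n' := C.μ) hK (by omega)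
  have hS1 : Bd K 1 0 0 S := by
    have := Sf_le (b := b) hR.ki (Dp_T hD)
    rw [Sf_eq, ← hS] at this
    exact Bd.const (by simpa using this)
  have t3 := hS1.mul (exg_err (W := W) (k := k) (b := b) (p := p) hK hp (x := x) (y := x) rfl)
  have e1 : (C.l y).X (C.s i' y) = (C.l y).X (C.s k y) + (C.s i' y - C.s k y) * (C.l y).v := by
    rw [← Ray.X_add]; congr 1; ring
  have e2 : (C.l x).X (C.s i' x) = (C.l x).X (C.s k x) + (C.s i' x - C.s k x) * (C.l x).v := by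
    rw [← Ray.X_add]; congr 1; ring
  refine (((t1.add (t2.mono (c' := 1) (e' := 0) (n' := C.μ) hK (by omega) (by omega) le_rfl)).add
    (t3.mono (c' := 1) (e' := 0) (n' := C.μ) hK (by omega) (by omega) (by omega))).congr ?_).mono hK
    (by omega) le_rfl le_rfl
  have hv : rd b (C.l y).v = rd b (C.l x).v := (cell_rv (Dp_cell hD) le_rfl).symm
  rw [e1, e2, hv, hS, hs, pow_add]
  ring

/-- second coordinate -/
lemma cg1 (hR : Reg C k i' b) (hp : C.μ ≤ p) (hok : C.Ok K x) {W : Ω → ω'}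
    (hD : Dp C k b x = Dp C k b y) (hDr : Dp C k b x = Dp C k b r) (hF : Fine C K k b p x y) {S : ℝ}
    (hS : S = 2 ^ C.a k * (C.s i' y - C.s i' x)) :
    Bd K 64 2 C.μ (2 ^ (C.a k + 2 * b) * C.Zs b (C.s i' y) y -
      S * (2 ^ (2 * b) *
        ((((C.l r).w - C.ro 1 (b - C.μ) (C.l y).w) ^ 2 -
          (rd b (C.l y).v ^ 2 + C.ro 1 (b - C.μ) (C.l y).w ^ 2)) / 2)) -
      2 ^ (C.a k + 2 * b) * C.Zs b (C.s i' x) x -
      S * (exg b p (Dp C k b x) (Wg C b p W x) ^ 2 / 2)) := by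
  have hK := K_one hok
  have hs : C.s k x = C.s k y := s_T (Dp_T hD)
  have h3 := hR.b8
  have hS1 : Bd K 1 0 0 S := by
    have := Sf_le (b := b) hR.ki (Dp_T hD)
    rw [Sf_eq, ← hS] at this
    exact Bd.const (by simpa using this)
  have hv : rd b (C.l y).v = rd b (C.l x).v := (cell_rv (Dp_cell hD) le_rfl).symm
  have hw : C.ro 1 (b - C.μ) (C.l y).w = C.ro 1 (b - C.μ) (C.l x).w := (cell_rw (Dp_cell hD)).symm
  have hwr : C.ro 1 (b - C.μ) (C.l r).w = C.ro 1 (b - C.μ) (C.l x).w := (cell_rw (Dp_cell hDr)).symm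
  have vx := v_err (K := K) (C := C) (b := b) x
  have vy := v_err (K := K) (C := C) (b := b) y
  have wx := w_err (K := K) (C := C) (b := b) x
  have wy := w_err (K := K) (C := C) (b := b) y
  have wr := w_err (K := K) (C := C) (b := b) r
  rw [hv] at vy
  rw [hw] at wy
  rw [hwr] at wr
  set vb := rd b (C.l x).v with hvb
  set wb := C.ro 1 (b - C.μ) (C.l x).w with hwb
  -- T1
  have t1 := hF.z.scale (s := C.a k + 2 * b) (n' := C.μ) hK (by omega)
  -- T2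
  have q1 := (hF.v.mul (vy.add vx)).mono (c' := 2) (e' := 0) (n' := 2 * b + C.μ) hK (by omega)
    (by omega) (by omega)
  have q2' := (hF.w.mul (wy.add wx)).mono (c' := 2) (e' := 0) (n' := 2 * b + C.μ) hK (by omega)
    (by omega) (by omega)
  have t2 := ((Bd.mk0 (K := K) (s_near (C := C) hR.ki y)).mul (q1.add q2').half).scale
    (s := C.a k + 2 * b) (n' := C.μ) hK (by omega)
  -- T3
  have e0 := exg_err (W := W) (k := k) (b := b) (p := p) hK hp (x := x) (y := x) rfl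
  obtain ⟨m0, m1⟩ := exg_mem (C := C) (W := W) (k := k) (b := b) (p := p) (x := x) (y := x) rfl
  set e := exg b p (Dp C k b x) (Wg C b p W x) with he
  have hsum : Bd K 2 0 0 (2 ^ b * ((C.l x).v - vb) + e) := by
    have a1 : Bd K 1 0 0 (2 ^ b * ((C.l x).v - vb)) := vx.scale (s := b) (n' := 0) hK (by omega)
    have a2 : Bd K 1 0 0 e := Bd.const (by rw [abs_of_nonneg m0]; simpa using m1)
    exact a1.add a2
  have t3 := (e0.mul hsum).half
  -- T4
  have w1 := w_cell hok (Dp_cell hDr) hR.b8 (by rw [hR.Rk]; exact hR.f8)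
  have t4 := ((w1.symm.mul (wx.add wr)).scale (s := 2 * b) (n' := C.μ) hK (by omega)).half
  refine (((t1.mono (c' := 13) (e' := 2) (n' := C.μ) hK le_rfl (by omega) le_rfl).add
    (t2.mono (c' := 4) (e' := 2) (n' := C.μ) hK (by omega) (by omega) le_rfl)).add
    (((hS1.mul t3).mono (c' := 2) (e' := 2) (n' := C.μ) hK (by omega) (by omega) (by omega)).add
    ((hS1.mul t4).mono (c' := 32) (e' := 2) (n' := C.μ) hK (by omega) (by omega)
      (by omega))) |>.congr ?_).mono hK (by omega) le_rfl le_rfl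
  have f1 : C.Zs b (C.s i' y) y = C.Zs b (C.s k x) y + (C.s i' y - C.s k x) *
      ((((C.l y).v - vb) ^ 2 + ((C.l y).w - wb) ^ 2) / 2 - (vb ^ 2 + wb ^ 2) / 2) := by
    have := Zs_add (C := C) (b := b) (C.s k x) (C.s i' y - C.s k x) y
    rw [add_sub_cancel, hv, hw] at this
    exact this
  have f2 : C.Zs b (C.s i' x) x = C.Zs b (C.s k x) x + (C.s i' x - C.s k x) *
      ((((C.l x).v - vb) ^ 2 + ((C.l x).w - wb) ^ 2) / 2 - (vb ^ 2 + wb ^ 2) / 2) := by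
    have := Zs_add (C := C) (b := b) (C.s k x) (C.s i' x - C.s k x) x
    rw [add_sub_cancel] at this
    exact this
  have e2 : (2 : ℝ) ^ (C.a k + 2 * b) = 2 ^ C.a k * (2 ^ b * 2 ^ b) := by
    rw [← pow_add, ← pow_add]
    congr 1
    omega
  have e3 : (2 : ℝ) ^ (2 * b) = 2 ^ b * 2 ^ b := by
    rw [← pow_add]
    congr 1
    omega
  rw [f1, f2, hS, hv, hw, e2, e3, hs]
  ring

/-- third coordinate -/
lemma cg2 (hR : Reg C k i' b) (hp : C.μ ≤ p) (hokx : C.Ok K x) (hokr : C.Ok K r)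
    (hc0 : c0 ≤ C.rf k) {W : Ω → ω'}
    (hD : Dp C k b x = Dp C k b y) (hF : Fine C K k b p x y)
    (hDr : Dp C k b r = Dp C k b y) (hsr : C.s i' r = C.s i' y) (hEr : C.cell i' b r = C.cell i' b y)
    {S G : ℝ} (hS : S = 2 ^ C.a k * (C.s i' y - C.s i' x)) (hG1 : |G| ≤ 1)
    (hG : Bd K 64 6 (2 * C.μ + c0) (2 ^ (C.R k b - c0) * res C k b (C.R k b) r - G)) :
    Bd K 255 6 C.μ (2 ^ (C.a k + b + C.R k b - c0) * (Fk C k i' b y).g (C.l y) (C.s i' y) -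
      S * (2 ^ (b + C.R k b - c0) * Ae C k i' b r y) -
      2 ^ (C.a k + b + C.R k b - c0) * (Fk C k i' b x).g (C.l x) (C.s i' x) -
      S * (G * exg b p (Dp C k b x) (Wg C b p W x))) := by
  have hK := K_one hokx
  have hs : C.s k x = C.s k y := s_T (Dp_T hD)
  have h2 := hR.f8
  have h3 := hR.b8
  have hRk := hR.Rk
  have hS1 : Bd K 1 0 0 S := by
    have := Sf_le (b := b) hR.ki (Dp_T hD)
    rw [Sf_eq, ← hS] at this
    exact Bd.const (by simpa using this)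
  have t1 := hF.g.scale (s := C.a k + b + C.R k b - c0) (n' := C.μ) hK (by omega)
  have t2 := ((Bd.mk0 (K := K) (s_near (C := C) hR.ki x)).mul hF.gd).scale
    (s := C.a k + b + C.R k b - c0) (n' := C.μ) hK (by omega)
  have t3 := hS1.mul ((gd_pairE hR hokr hDr hsr hEr).scale (s := b + C.R k b - c0) (n' := C.μ) hK
    (by omega))
  have hG1' : Bd K 1 0 0 G := Bd.const (by simpa using hG1)
  have hex : exg b p (Dp C k b x) (Wg C b p W x) = exg b p (Dp C k b y) (Wg C b p W y) := by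
    rw [hD]
    unfold exg Wg
    simp only
    rw [hF.e]
  have t4 := hS1.mul (hG1'.mul (exg_err (W := W) (k := k) (b := b) (p := p) hK hp (x := y) (y := y) rfl))
  have vy : Bd K 1 0 0 (2 ^ b * ((C.l y).v - rd b (C.l y).v)) :=
    (v_err (K := K) (C := C) (b := b) y).scale (s := b) (n' := 0) hK (by omega)
  have t5 := hS1.mul (hG.mul vy)
  refine ((((t1.mono (c' := 64) (e' := 6) (n' := C.μ) hK le_rfl (by omega) le_rfl).add
    (t2.mono (c' := 64) (e' := 6) (n' := C.μ) hK (by omega) (by omega) le_rfl)).add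
    (((t3.mono (c' := 62) (e' := 6) (n' := C.μ) hK (by omega) (by omega) (by omega)).add
    (t4.mono (c' := 1) (e' := 6) (n' := C.μ) hK (by omega) (by omega) (by omega))).add
    (t5.mono (c' := 64) (e' := 6) (n' := C.μ) hK (by omega) (by omega) (by omega)))).congr ?_).mono hK
    (by omega) le_rfl le_rfl
  rw [hex, hS]
  have f1 := Fk_g (C := C) (k := k) (i' := i') (b := b) y y
  have f2 := Fk_g (C := C) (k := k) (i' := i') (b := b) x x
  have f3 := Fk_gd (C := C) (k := k) (i' := i') (b := b) y y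
  rw [f1, f2, f3, ← Dp_Fn hD, ← hs]
  have e1 : (2 : ℝ) ^ (C.a k + b + C.R k b - c0) = 2 ^ C.a k * (2 ^ b * 2 ^ (C.R k b - c0)) := by
    rw [← pow_add, ← pow_add]
    congr 1
    omega
  have e2 : (2 : ℝ) ^ (b + C.R k b - c0) = 2 ^ b * 2 ^ (C.R k b - c0) := by
    rw [← pow_add]
    congr 1
    omega
  rw [e1, e2]
  unfold Ae
  ring

/-! ### the geometry -/

section geo

variable [Fintype Ω] [Nonempty Ω] {P : Law Ω} {Θ : Ω → θ} {W : Ω → ω'}

/-- relative slope at the representative of the triple and of the pair -/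
lemma Gfg_near (hL : Lok P C K k i' b p Θ W) (hR : Reg C k i' b)
    (hok : ∀ ω, 0 < P.w ω → C.Ok K ω) (hc0 : c0 ≤ C.rf k) (py : 0 < P.w y)
    {d : (τ × Pth.Dg) × ℤ} (hd : d = Dp C k b y) {r : Ω} (pr : 0 < P.w r)
    (hDr : Dp C k b r = Dp C k b y) (hΘ : Θ r = Θ y) :
    Bd K 64 6 (2 * C.μ + c0)
      (2 ^ (C.R k b - c0) * res C k b (C.R k b) r - Gfg P C k b c0 Θ d (Θ y)) := by
  obtain ⟨p1, e1⟩ := rp_spec P (Yg C k b Θ) py
  obtain ⟨a1, a2⟩ := Prod.mk.inj e1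
  have c1 : (d, Θ y) = Yg C k b Θ y := by rw [hd]; rfl
  unfold Gfg
  rw [c1, ← mul_sub]
  have h1 := res_tok (hDr.trans a1.symm) (hL.θ _ _ pr p1 (hDr.trans a1.symm) (hΘ.trans a2.symm))
  exact h1.scale (K_one (hok _ py)) (by rw [hR.Rk]; omega)

/-- **the geometry of the N-step, deep phi regime, arbitrary letters** -/
theorem geoG (hL : Lok P C K k i' b p Θ W) (hR : Reg C k i' b)
    (hp : C.μ ≤ p) (hok : ∀ ω, 0 < P.w ω → C.Ok K ω) (hc : 2 * K ≤ 2 ^ c0) (hc0 : c0 ≤ C.rf k) :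
    GeoG P (Dp C k b) Θ (Wg C b p W) (C.cell i' b) (exg b p) (piN C k i' b c0)
      (beG P C k i' b c0 Θ) (Fph (Sfg P C k i' b Θ) (fun d _ u' => Gfg P C k b c0 Θ d u'))
      (fun _ => 256 * K ^ 6 * q2 C.μ) := by
  have key : ∀ x y, 0 < P.w x → C.cell i' b x = C.cell i' b y → Dp C k b x = Dp C k b y →
      Bd K 3 0 C.μ (2 ^ (C.a k + b) * (C.l x).X (C.s i' x) - 2 ^ (C.a k + b) * (C.l y).X (C.s i' y)) ∧
      Bd K 1 0 C.μ (2 ^ (C.a k + 2 * b) * C.Zs b (C.s i' x) x -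
        2 ^ (C.a k + 2 * b) * C.Zs b (C.s i' y) y) ∧
      Bd K 61 3 C.μ (2 ^ (C.a k + b + C.R k b - c0) * (Fk C k i' b x).g (C.l x) (C.s i' x) -
        2 ^ (C.a k + b + C.R k b - c0) * (Fk C k i' b y).g (C.l y) (C.s i' y)) := by
    intro x y px hE hD
    have hokx := hok x px
    have hK := K_one hokx
    have hs : C.s i' x = C.s i' y := s_T (cell_T hE)
    have h1 := hR.ha; have h2 := hR.b8; have h3 := hR.Rk
    refine ⟨?_, ?_, ?_⟩
    · rw [← mul_sub, ← hs]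
      exact (late_nr hR hokx hE).X.symm.scale hK (by omega)
    · rw [← mul_sub]
      exact (Bd.mk0 (cell_3 hE)).scale hK (by omega)
    · rw [← mul_sub, ← Fk_eq' hD hs, ← hs]
      exact (g_lateE hR hokx hE).symm.scale hK (by omega)
  have fin : ∀ {c e : ℕ} {z : ℝ}, 1 ≤ K → c ≤ 256 → e ≤ 6 → Bd K c e C.μ z →
      |z| ≤ 256 * K ^ 6 * q2 C.μ := by
    intro c e z hK h1 h2 h
    exact (h.mono (c' := 256) (e' := 6) (n' := C.μ) hK h1 h2 le_rfl).le (by push_cast; exact le_rfl)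
  refine ⟨?_, ?_, ?_⟩
  · intro x y px _ hD _ hE i
    have hK := K_one (hok x px)
    obtain ⟨k1, k2, k3⟩ := key x y px hE hD
    fin_cases i
    · exact fin hK (by omega) (by omega) k1
    · exact fin hK (by omega) (by omega) k2
    · exact fin hK (by omega) (by omega) k3
  · intro o x y po px py hDo hD hT hE i
    have hokx := hok x px
    have hK := K_one hokx
    have h1 := hR.hf; have h2 := hR.b8; have h3 := hR.Rk; have h4 := hR.f8
    obtain ⟨k1, k2, k3⟩ := key x y px hE hD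
    have hv : rd b (C.l y).v = rd b (C.l x).v := (cell_rv (Dp_cell hD) le_rfl).symm
    have hw : C.ro 1 (b - C.μ) (C.l y).w = C.ro 1 (b - C.μ) (C.l x).w := (cell_rw (Dp_cell hD)).symm
    have hY : Ye C k i' b Θ y = Ye C k i' b Θ x := (Prod.ext hD (Prod.ext hT hE)).symm
    have hS : Bd K 1 0 0 (Sfg P C k i' b Θ (Dp C k b x) (Θ o) (Θ x)) :=
      Bd.const (by simpa using Sfg_le hL hR.ki po px hDo hDo.symm)
    fin_cases i
    · refine fin hK (c := 3) (e := 0) (by omega) (by omega) (k1.congr ?_)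
      show _ = (2 ^ (C.a k + b) * (C.l x).X (C.s i' x) -
        Sfg P C k i' b Θ (Dp C k b x) (Θ o) (Θ x) * (2 ^ b * rd b (C.l x).v)) -
        (2 ^ (C.a k + b) * (C.l y).X (C.s i' y) -
        Sfg P C k i' b Θ (Dp C k b y) (Θ o) (Θ y) * (2 ^ b * rd b (C.l y).v))
      rw [hv, ← hT, ← hD]
      ring
    · refine fin hK (c := 1) (e := 0) (by omega) (by omega) (k2.congr ?_)
      show _ = (2 ^ (C.a k + 2 * b) * C.Zs b (C.s i' x) x -
        Sfg P C k i' b Θ (Dp C k b x) (Θ o) (Θ x) * (2 ^ (2 * b) *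
        ((((C.l (rp P (Ye C k i' b Θ) (Ye C k i' b Θ x))).w - C.ro 1 (b - C.μ) (C.l x).w) ^ 2 -
          (rd b (C.l x).v ^ 2 + C.ro 1 (b - C.μ) (C.l x).w ^ 2)) / 2))) -
        (2 ^ (C.a k + 2 * b) * C.Zs b (C.s i' y) y -
        Sfg P C k i' b Θ (Dp C k b y) (Θ o) (Θ y) * (2 ^ (2 * b) *
        ((((C.l (rp P (Ye C k i' b Θ) (Ye C k i' b Θ y))).w - C.ro 1 (b - C.μ) (C.l y).w) ^ 2 -
          (rd b (C.l y).v ^ 2 + C.ro 1 (b - C.μ) (C.l y).w ^ 2)) / 2)))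
      rw [hv, hw, hY, ← hT, ← hD]
      ring
    · obtain ⟨pr, -⟩ := rp_spec P (Ye C k i' b Θ) px
      have k4 := hS.mul (((rh_bd (k := k) (i' := i') (b := b) (hok _ pr)).mul
        (gde_late hK hR hE.symm)).scale (s := b + C.R k b - c0) (n' := C.μ) hK (by omega))
      refine fin hK (c := 64) (e := 3) (by omega) (by omega) (((k3.sub (k4.mono (c' := 3) (e' := 3)
        (n' := C.μ) hK (by omega) (by omega) (by omega))).congr ?_))
      show _ = (2 ^ (C.a k + b + C.R k b - c0) * (Fk C k i' b x).g (C.l x) (C.s i' x) -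
        Sfg P C k i' b Θ (Dp C k b x) (Θ o) (Θ x) * (2 ^ (b + C.R k b - c0) *
        Ae C k i' b (rp P (Ye C k i' b Θ) (Ye C k i' b Θ x)) x)) -
        (2 ^ (C.a k + b + C.R k b - c0) * (Fk C k i' b y).g (C.l y) (C.s i' y) -
        Sfg P C k i' b Θ (Dp C k b y) (Θ o) (Θ y) * (2 ^ (b + C.R k b - c0) *
        Ae C k i' b (rp P (Ye C k i' b Θ) (Ye C k i' b Θ y)) y))
      rw [hY, ← hT, ← hD]
      unfold Ae
      ring
  · intro x y px py hD hW i
    have hokx := hok x px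
    have hK := K_one hokx
    have hW1 : W x = W y := (Prod.mk.inj hW).1
    have hF := hL.w x y px py hD hW1
    obtain ⟨pr, er⟩ := rp_spec P (Ye C k i' b Θ) py
    obtain ⟨r1, r2⟩ := Prod.mk.inj er
    obtain ⟨r3, r4⟩ := Prod.mk.inj r2
    have hS := Sfg_eq hL px py hD (d := Dp C k b x) rfl
    have hS' := Sfg_eq hL px py hD (d := Dp C k b y) hD.symm
    fin_cases i
    · have h := cg0 (W := W) hR hp hokx hD hF hS
      rw [hS] at h
      refine fin hK (by omega) (by omega) (h.congr ?_)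
      show _ = (2 ^ (C.a k + b) * (C.l y).X (C.s i' y) -
        Sfg P C k i' b Θ (Dp C k b y) (Θ x) (Θ y) * (2 ^ b * rd b (C.l y).v)) -
        2 ^ (C.a k + b) * (C.l x).X (C.s i' x) -
        Sfg P C k i' b Θ (Dp C k b x) (Θ x) (Θ y) * exg b p (Dp C k b x) (Wg C b p W x)
      rw [hS, hS']
    · have h := cg1 (W := W) hR hp hokx hD (hD.trans r1.symm) hF hS
      rw [hS] at h
      refine fin hK (by omega) (by omega) (h.congr ?_)
      show _ = (2 ^ (C.a k + 2 * b) * C.Zs b (C.s i' y) y -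
        Sfg P C k i' b Θ (Dp C k b y) (Θ x) (Θ y) * (2 ^ (2 * b) *
        ((((C.l (rp P (Ye C k i' b Θ) (Ye C k i' b Θ y))).w - C.ro 1 (b - C.μ) (C.l y).w) ^ 2 -
          (rd b (C.l y).v ^ 2 + C.ro 1 (b - C.μ) (C.l y).w ^ 2)) / 2))) -
        2 ^ (C.a k + 2 * b) * C.Zs b (C.s i' x) x -
        Sfg P C k i' b Θ (Dp C k b x) (Θ x) (Θ y) *
          (exg b p (Dp C k b x) (Wg C b p W x) ^ 2 / 2)
      rw [hS, hS']
    · have hG := Gfg_near hL hR hok hc0 py (d := Dp C k b x) hD pr r1 r3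
      have h := cg2 (W := W) hR hp hokx (hok _ pr) hc0 hD hF r1
        (hL.θ _ _ pr py r1 r3).s r4 hS (Gfg_le (Θ := Θ) hR hok hc hc0 hD py) hG
      rw [hS] at h
      refine fin hK (by omega) (by omega) (h.congr ?_)
      show _ = (2 ^ (C.a k + b + C.R k b - c0) * (Fk C k i' b y).g (C.l y) (C.s i' y) -
        Sfg P C k i' b Θ (Dp C k b y) (Θ x) (Θ y) * (2 ^ (b + C.R k b - c0) *
        Ae C k i' b (rp P (Ye C k i' b Θ) (Ye C k i' b Θ y)) y)) -
        2 ^ (C.a k + b + C.R k b - c0) * (Fk C k i' b x).g (C.l x) (C.s i' x) -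
        Sfg P C k i' b Θ (Dp C k b x) (Θ x) (Θ y) *
          (Gfg P C k b c0 Θ (Dp C k b x) (Θ y) * exg b p (Dp C k b x) (Wg C b p W x))
      rw [hS, hS']

end geo

/-! ### the cube form -/

/-- numerology of the precision -/
lemma num_mug {K : ℝ} {m g μ : ℕ} (hK : 1 ≤ K)
    (hρ : 15 * 2 ^ (m + 8 * g + 7) * (256 * K ^ 6 * q2 μ) ≤ 1) : m + 8 * g + 7 ≤ μ := by
  by_contra hcon
  push Not at hcon
  have h1 : (2 : ℝ) ^ μ ≤ 2 ^ (m + 8 * g + 7) := pow_le_pow_right₀ (by norm_num) (by omega)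
  have h2 := q2_mul_pow μ
  have h3 := q2_pos μ
  have h4 : (1 : ℝ) ≤ K ^ 6 := one_le_pow₀ hK
  have h5 : (1 : ℝ) ≤ 2 ^ (m + 8 * g + 7) * q2 μ := by
    calc (1 : ℝ) = 2 ^ μ * q2 μ := h2.symm
      _ ≤ _ := mul_le_mul_of_nonneg_right h1 h3.le
  have h6 : (1 : ℝ) * 1 ≤ (2 ^ (m + 8 * g + 7) * q2 μ) * K ^ 6 :=
    mul_le_mul h5 h4 (by norm_num) (by positivity)
  nlinarith

/-- the slope part of the non-degeneracy -/
lemma Gfg_far [Fintype Ω] [Nonempty Ω] {P : Law Ω} {Θ : Ω → θ} {W : Ω → ω'}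
    (hL : Lok P C K k i' b p Θ W) (hR : Reg C k i' b)
    (hok : ∀ ω, 0 < P.w ω → C.Ok K ω) (hc0 : c0 ≤ C.rf k) {m g : ℕ}
    (hρ : 15 * 2 ^ (m + 8 * (g + c0 + 1) + 7) * (256 * K ^ 6 * q2 C.μ) ≤ 1) {ω x y : Ω}
    (px : 0 < P.w x) (py : 0 < P.w y)
    (hx : Dp C k b x = Dp C k b ω) (hy : Dp C k b y = Dp C k b ω)
    (h : ¬ |fl1 (C.rf k + g) (slR C k b x) - fl1 (C.rf k + g) (slR C k b y)| ≤ ((1 : ℕ) : ℤ)) :
    q2 (g + c0 + 1) ≤ |Gfg P C k b c0 Θ (Dp C k b ω) (Θ y) -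
      Gfg P C k b c0 Θ (Dp C k b ω) (Θ x)| := by
  have hK := K_one (hok x px)
  have hmu := num_mug hK hρ
  have key : ∀ z, 0 < P.w z → Dp C k b z = Dp C k b ω →
      Bd K 64 6 (C.rf k + 2 * C.μ) (res C k b (C.R k b) z -
        res C k b (C.R k b) (rp P (Yg C k b Θ) (Dp C k b ω, Θ z))) := by
    intro z pz hz
    obtain ⟨h1, h2⟩ := rp_spec P (Yg C k b Θ) pz
    obtain ⟨h3, h4⟩ := Prod.mk.inj h2
    have e1 : (Dp C k b ω, Θ z) = Yg C k b Θ z := Prod.ext hz.symm rfl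
    rw [e1]
    exact res_tok h3.symm (hL.θ _ _ pz h1 h3.symm h4.symm)
  have kx := key x px hx
  have ky := key y py hy
  unfold Bd at kx ky
  have h5 := far_real h
  have h6 : res C k b (C.R k b) x - res C k b (C.R k b) y = slR C k b x - slR C k b y := by
    unfold res
    rw [Dp_ro (hx.trans hy.symm)]
    ring
  rw [← h6] at h5
  unfold Gfg
  set rx := res C k b (C.R k b) (rp P (Yg C k b Θ) (Dp C k b ω, Θ x))
  set ry := res C k b (C.R k b) (rp P (Yg C k b Θ) (Dp C k b ω, Θ y))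
  set ax := res C k b (C.R k b) x
  set ay := res C k b (C.R k b) y
  have h7 : |ax - ay| ≤ |ry - rx| + |ax - rx| + |ay - ry| := by
    have e : ax - ay = -(ry - rx) + (ax - rx) + -(ay - ry) := by ring
    rw [e]
    refine (abs_add_le _ _).trans (add_le_add ((abs_add_le _ _).trans ?_) ?_)
    · rw [abs_neg]
    · rw [abs_neg]
  rw [← mul_sub, abs_mul, abs_of_pos (by positivity : (0 : ℝ) < 2 ^ (C.R k b - c0))]
  have h8 : q2 (C.rf k + g) - 128 * (K ^ 6 * q2 (C.rf k + 2 * C.μ)) ≤ |ry - rx| := by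
    push_cast at kx ky
    linarith
  have h9 : 128 * (K ^ 6 * q2 (C.rf k + 2 * C.μ)) ≤ q2 (C.rf k + g) / 2 := by
    have a1 : q2 (2 * C.μ) ≤ q2 C.μ := q2_le (by omega)
    have a2 : (0 : ℝ) ≤ K ^ 6 := by positivity
    have a3 : (2 : ℝ) ^ g * q2 g = 1 := q2_mul_pow g
    have a4 : (2 : ℝ) ^ g ≤ 2 ^ (m + 8 * (g + c0 + 1) + 7) :=
      pow_le_pow_right₀ (by norm_num) (by omega)
    have a5 := q2_pos C.μ
    have a6 := q2_pos g
    have a7 : 15 * 2 ^ g * (256 * K ^ 6 * q2 C.μ) ≤ 1 := by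
      refine le_trans ?_ hρ
      have : (0 : ℝ) ≤ 256 * K ^ 6 * q2 C.μ := by positivity
      nlinarith
    have a8 : 3840 * (K ^ 6 * q2 C.μ) ≤ q2 g := by
      have := mul_le_mul_of_nonneg_right a7 a6.le
      have e : 15 * 2 ^ g * (256 * K ^ 6 * q2 C.μ) * q2 g =
          3840 * (K ^ 6 * q2 C.μ) * (2 ^ g * q2 g) := by ring
      rw [e, a3, mul_one, one_mul] at this
      exact this
    have a9 : K ^ 6 * q2 (2 * C.μ) ≤ K ^ 6 * q2 C.μ := mul_le_mul_of_nonneg_left a1 a2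
    rw [q2_add, q2_add]
    have a10 := q2_pos (C.rf k)
    have a11 : 128 * (K ^ 6 * q2 (2 * C.μ)) ≤ q2 g / 2 := by
      have : 0 ≤ K ^ 6 * q2 C.μ := by positivity
      linarith
    have a12 := mul_le_mul_of_nonneg_left a11 a10.le
    linarith
  have h10 : q2 (C.rf k + g) / 2 ≤ |ry - rx| := by linarith
  have h11 := mul_le_mul_of_nonneg_left h10 (by positivity : (0 : ℝ) ≤ 2 ^ (C.R k b - c0))
  refine le_trans (le_of_eq ?_) h11
  rw [hR.Rk]
  have b1 : C.rf k + g = (C.rf k - c0) + (g + c0) := by omega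
  rw [b1, q2_add (g + c0) 1, q2_add (C.rf k - c0) (g + c0)]
  have b2 := q2_mul_pow (C.rf k - c0)
  have b3 : q2 1 = 1 / 2 := by unfold q2; norm_num
  rw [b3]
  calc q2 (g + c0) * (1 / 2) = (2 ^ (C.rf k - c0) * q2 (C.rf k - c0)) * (q2 (g + c0) / 2) := by
        rw [b2]; ring
    _ = _ := by ring

/-- **THE N-STEP OVER THE CELLS, DEEP PHI REGIME, arbitrary letters, cube form** -/
theorem satQg [Fintype Ω] (P : Law Ω) {Θ : Ω → θ} {W : Ω → ω'} (hL : Lok P C K k i' b p Θ W)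
    (hR : Reg C k i' b) (hp : C.μ ≤ p) (hok : ∀ ω, 0 < P.w ω → C.Ok K ω) (hKc : 2 * K ≤ 2 ^ c0)
    {m g : ℕ} (hm : 1 ≤ m) (hmg : m ≤ g)
    (hρ : 15 * 2 ^ (m + 8 * (g + c0 + 1) + 7) * (256 * K ^ 6 * q2 C.μ) ≤ 1) {ι₁ ι₂ : ℝ}
    (h1 : mi P (fun ω => fl1 (b + p) (C.l ω).v) (C.cell i' b)
      (fun ω => (Dp C k b ω, Θ ω)) ≤ ι₁)
    (h2 : mi P Θ W (Dp C k b) ≤ ι₂) :
    3 * m * Real.log 2 - (11 + 19 * m *
      (colp P (fun ω => fl1 (C.a k + g) (C.t ω)) (Dp C k b) +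
        colp P (fun ω => fl1 (C.rf k + g) (slR C k b ω)) (Dp C k b) +
        colp P (fun ω => fl1 (b + g) (C.l ω).v) (Dp C k b)) +
      2 ^ (31 * (g + c0 + 1)) * (Real.sqrt ι₁ + Real.sqrt ι₂)) ≤
    hc P (fun ω => celi 1 (piN C k i' b c0 ω))
      (fun ω => (celi (2 ^ m) (piN C k i' b c0 ω), (Dp C k b ω, Θ ω))) := by
  have : Nonempty Ω := by
    by_contra h
    rw [not_nonempty_iff] at h
    have := P.sum_one
    simp at this
  obtain ⟨ω0, hω0⟩ : ∃ ω, 0 < P.w ω := by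
    by_contra hcon
    push Not at hcon
    have h3 : ∑ ω, P.w ω ≤ 0 := Finset.sum_nonpos fun ω _ => hcon ω
    rw [P.sum_one] at h3
    norm_num at h3
  have hK := K_one (hok ω0 hω0)
  have hmu := num_mug hK hρ
  have h8 := hR.f8
  have hc0 : c0 ≤ C.rf k := by omega
  have hgeo := geoG hL hR hp hok hKc hc0
  refine satP P hgeo hm (show m ≤ g + c0 + 1 by omega) (fun ω => fl1 (C.a k + g) (C.t ω))
    (fun ω => fl1 (C.rf k + g) (slR C k b ω)) (fun ω => fl1 (b + g) (C.l ω).v)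
    ?_ ?_ ?_ ?_ ?_ ?_ (by have := q2_pos C.μ; positivity) hρ ?_ ?_
  · intro ω ω' p1 p2 hD
    exact Sfg_le hL hR.ki p1 p2 hD.symm rfl
  · intro ω ω' _ p' hD
    exact Gfg_le hR hok hKc hc0 hD.symm p'
  · intro ω ω' _ _ hD
    exact exg_mem hD.symm
  · intro ω ω' p1 p2 hD h
    rw [Sfg_eq hL p1 p2 hD.symm rfl, abs_mul, abs_of_pos (by positivity : (0 : ℝ) < 2 ^ C.a k),
      abs_sub_comm]
    have h3 := far_of_fl1 (n' := C.a i') (by have := hR.ha; omega) h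
    have h4 := mul_le_mul_of_nonneg_left h3 (by positivity : (0 : ℝ) ≤ 2 ^ C.a k)
    rw [q2_add, ← mul_assoc, q2_mul_pow, one_mul] at h4
    exact (q2_le (by omega)).trans h4
  · intro ω x y _ px py hx hy h
    exact Gfg_far hL hR hok hc0 hρ px py hx hy h
  · intro ω x y _ _ _ hx hy h
    rw [exg_eq hx.symm, exg_eq hy.symm]
    have hv : rd b (C.l x).v = rd b (C.l y).v := cell_rv (Dp_cell (hx.trans hy.symm)) le_rfl
    rw [hv, ← mul_sub, sub_sub_sub_cancel_right, abs_mul,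
      abs_of_pos (by positivity : (0 : ℝ) < 2 ^ b)]
    have h3 := far_of_fl1 (n' := b + p) (by omega) h
    have h4 := mul_le_mul_of_nonneg_left h3 (by positivity : (0 : ℝ) ≤ 2 ^ b)
    rw [q2_add, ← mul_assoc, q2_mul_pow, one_mul] at h4
    exact (q2_le (by omega)).trans h4
  · refine le_trans (mi_mono_left P _ ?_) h1
    intro x y _ _ e
    simp only [Prod.mk.injEq] at e
    unfold exg Wg
    simp only
    rw [e.1, e.2.1]
  · refine le_trans (mi_mono_right P _ ?_) h2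
    intro x y px py e
    simp only [Prod.mk.injEq] at e
    unfold Wg
    exact Prod.ext e.1 (hL.w x y px py e.2 e.1).e

end Vale.Agent.P106.U.H683
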