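import Vale.Agent.P106.U.H683.GenA
import Vale.Agent.P106.U.H683.PSatPhi

/-!
# P106 / U / H683 : **the N-step, deep phi regime, arbitrary letters `Θ`, `W`, stepwise form** (helper683)

* `satAg_a`, `satAg_r`, `pSatPhiG`.
-/

set_option autoImplicit false

namespace Vale.Agent.P106.U.H683

open Finset Vale.Agent.P127 Vale.Agent.P127.Stk Vale.Agent.P106.U.Cell Vale.Agent.P106.TV
open Vale.Agent.P127.U.Pin Vale.Agent.P127.U.Mic Vale.Agent.P106.U.MIC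
open Vale.Agent.P127.U.CellD (q2 rd rd_le lt_rd rd_err rd_mono rd_sub q2_pos q2_le q2_add q2_mul_pow
  div_pow_eq fl1_fl1)

section

variable {Ω τ θ ω' : Type} {C : Pth Ω τ} {K : ℝ} {j k i' b b' p c0 m : ℕ}

/-- **PSatN, deep phi regime, `a`-step** -/
theorem satAg_a [Fintype Ω] (P : Law Ω) (hR : Reg C k i' b) (hJ : Rj C j k b)
    (hp : C.μ ≤ p) {Θ : Ω → θ} {W : Ω → ω'} (hL : Lok P C K k i' b p Θ W) (hok : ∀ ω, 0 < P.w ω → C.Ok K ω) (hKc : 2 * K ≤ 2 ^ c0)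
    {g M : ℕ} (hm : 1 ≤ m) (hmg : m ≤ g)
    (hρ : 15 * 2 ^ (m + 8 * (g + c0 + 1) + 7) * (256 * K ^ 6 * q2 C.μ) ≤ 1)
    (hM : ((2 ^ c0 + 4062 : ℕ) : ℝ) * K ^ 7 ≤ M)
    (ha : C.a k = C.a j + m) (hf : C.rf k = C.rf j) {ι₁ ι₂ : ℝ}
    (h1 : mi P (fun ω => fl1 (b + p) (C.l ω).v) (C.cell i' b)
      (fun ω => (Dp C k b ω, Θ ω)) ≤ ι₁)
    (h2 : mi P Θ W (Dp C k b) ≤ ι₂) :
    3 * m * Real.log 2 - errN P C k b c0 m g M ι₁ ι₂ ≤
    hc P (C.A k b i') (fun ω => (C.A j b i' ω, C.cell k b ω, Θ ω)) := by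
  obtain ⟨ω0, hω0⟩ : ∃ ω, 0 < P.w ω := by
    by_contra hcon
    push Not at hcon
    have h3 : ∑ ω, P.w ω ≤ 0 := Finset.sum_nonpos fun ω _ => hcon ω
    rw [P.sum_one] at h3
    norm_num at h3
  have hmu := num_mug (K_one (hok ω0 hω0)) hρ
  have h8 := hJ.f8; have h9 := hR.b8; have hRk := hR.Rk; have hRj := hJ.R
  have main := satQg P hL hR hp hok hKc hm hmg hρ h1 h2
  have core := step_coreg P hR hJ hok (fun x y px py e1 e2 => (hL.θ x y px py e1 e2).s) (c0 := c0) (by omega) M hM ((2 : ℝ) ^ m)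
  have e1 : hc P (fun ω => celi 1 (piN C k i' b c0 ω))
      (fun ω => (celi (2 ^ m) (piN C k i' b c0 ω), (Dp C k b ω, Θ ω))) ≤
      hc P (fun ω => celi 1 (piN C k i' b c0 ω)) (fun ω => (Ql C j k i' b c0 ω,
      (celi (2 ^ m) (piN C k i' b c0 ω), (Dp C k b ω, Θ ω)))) := by
    refine hc_mono_right P _ ?_
    intro x y _ _ e
    refine Prod.ext ?_ e
    have e2 := (Prod.mk.inj e).1
    have q0 := congrFun e2 0
    have q1 := congrFun e2 1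
    have q2 := congrFun e2 2
    rw [celim_0 (by omega), celim_0 (by omega)] at q0
    rw [celim_1 (by omega), celim_1 (by omega)] at q1
    rw [celim_2 (by omega), celim_2 (by omega)] at q2
    rw [show C.a k + b - m = C.a j + b by omega] at q0
    rw [show C.a k + 2 * b - m = C.a j + 2 * b by omega] at q1
    rw [show C.a k + b + C.R k b - c0 - m = C.a j + b + C.R j b - c0 by omega] at q2
    exact Prod.ext q0 (Prod.ext q1 q2)
  unfold errN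
  linarith

/-- **PSatN, deep phi regime, `r`-step** -/
theorem satAg_r [Fintype Ω] (P : Law Ω) (hR : Reg C k i' b) (hJ : Rj C j k b)
    (hp : C.μ ≤ p) {Θ : Ω → θ} {W : Ω → ω'} (hL : Lok P C K k i' b p Θ W) (hok : ∀ ω, 0 < P.w ω → C.Ok K ω) (hKc : 2 * K ≤ 2 ^ c0)
    {g M : ℕ} (hm : 1 ≤ m) (hmg : m ≤ g)
    (hρ : 15 * 2 ^ (m + 8 * (g + c0 + 1) + 7) * (256 * K ^ 6 * q2 C.μ) ≤ 1)
    (hM : ((2 ^ c0 + 4062 : ℕ) : ℝ) * K ^ 7 ≤ M)
    (ha : C.a k = C.a j) (hf : C.rf k = C.rf j + m) {ι₁ ι₂ : ℝ}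
    (h1 : mi P (fun ω => fl1 (b + p) (C.l ω).v) (C.cell i' b)
      (fun ω => (Dp C k b ω, Θ ω)) ≤ ι₁)
    (h2 : mi P Θ W (Dp C k b) ≤ ι₂) :
    m * Real.log 2 - errN P C k b c0 m g M ι₁ ι₂ ≤
    hc P (C.A k b i') (fun ω => (C.A j b i' ω, C.cell k b ω, Θ ω)) := by
  obtain ⟨ω0, hω0⟩ : ∃ ω, 0 < P.w ω := by
    by_contra hcon
    push Not at hcon
    have h3 : ∑ ω, P.w ω ≤ 0 := Finset.sum_nonpos fun ω _ => hcon ω
    rw [P.sum_one] at h3
    norm_num at h3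
  have hmu := num_mug (K_one (hok ω0 hω0)) hρ
  have h8 := hJ.f8; have h9 := hR.b8; have hRk := hR.Rk; have hRj := hJ.R
  have main := satQg P hL hR hp hok hKc hm hmg hρ h1 h2
  have core := step_coreg P hR hJ hok (fun x y px py e1 e2 => (hL.θ x y px py e1 e2).s) (c0 := c0) (by omega) M hM ((2 : ℝ) ^ m)
  set Pi : Ω → Fin 3 → ℤ := fun ω => celi 1 (piN C k i' b c0 ω)
  set Y : Ω → (Fin 3 → ℤ) × (((τ × Pth.Dg) × ℤ) × θ) :=
    fun ω => (celi (2 ^ m) (piN C k i' b c0 ω), (Dp C k b ω, Θ ω)) with hY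
  set q1 : Ω → ℤ := fun ω => fl1 (C.a j + b) ((C.l ω).X (C.s i' ω)) with hq1
  set q2' : Ω → ℤ := fun ω => fl1 (C.a j + 2 * b) (C.Zs b (C.s i' ω) ω) with hq2
  have a1 := hc_le_add' P Pi (Ql C j k i' b c0) Y
  have a2 := hc_le_add P (Ql C j k i' b c0) q1 Y
  have a3 := hc_le_add P (Ql C j k i' b c0) q2' (fun ω => (q1 ω, Y ω))
  have a4 : hc P (Ql C j k i' b c0) (fun ω => (q2' ω, (q1 ω, Y ω))) = 0 := by
    refine hc_zero P ?_
    intro x y _ _ e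
    simp only [Prod.mk.injEq] at e
    obtain ⟨c2, c1, cY⟩ := e
    have q2 := congrFun (Prod.mk.inj cY).1 2
    rw [celim_2 (by omega), celim_2 (by omega)] at q2
    rw [show C.a k + b + C.R k b - c0 - m = C.a j + b + C.R j b - c0 by omega] at q2
    exact Prod.ext c1 (Prod.ext c2 q2)
  have a5 : hc P q1 Y ≤ m * Real.log 2 := by
    have h := hc_fl1_digits_le P (s := C.a k + b - m) (s' := C.a j + b) (by omega)
      (fun ω => (C.l ω).X (C.s i' ω)) Y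
    rw [show C.a j + b - (C.a k + b - m) = m by omega] at h
    refine le_trans (hc_mono_right P _ ?_) h
    intro x y _ _ e
    refine Prod.ext ?_ e
    have q0 := congrFun (Prod.mk.inj e).1 0
    rw [celim_0 (by omega), celim_0 (by omega)] at q0
    exact q0
  have a6 : hc P q2' (fun ω => (q1 ω, Y ω)) ≤ m * Real.log 2 := by
    have h := hc_fl1_digits_le P (s := C.a k + 2 * b - m) (s' := C.a j + 2 * b) (by omega)
      (fun ω => C.Zs b (C.s i' ω) ω) (fun ω => (q1 ω, Y ω))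
    rw [show C.a j + 2 * b - (C.a k + 2 * b - m) = m by omega] at h
    refine le_trans (hc_mono_right P _ ?_) h
    intro x y _ _ e
    refine Prod.ext ?_ e
    have q0 := congrFun (Prod.mk.inj (Prod.mk.inj e).2).1 1
    rw [celim_1 (by omega), celim_1 (by omega)] at q0
    exact q0
  unfold errN
  linarith

end

/-- the numerology of `pSatPhiG` -/
lemma num_phig {K : ℝ} {c0 m g μ : ℕ} (hK : 1 ≤ K) (hKc : 2 * K ≤ 2 ^ c0) (hmg : m ≤ g)
    (hμ : 70 * (g + c0 + 1) ≤ μ) :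
    15 * 2 ^ (m + 8 * (g + c0 + 1) + 7) * (256 * K ^ 6 * q2 μ) ≤ 1 := by
  have hK0 : 0 ≤ K := by linarith
  have h1 : K ≤ 2 ^ c0 := by linarith
  have q := q2_pos μ
  have w := q2_mul_pow μ
  have a1 : K ^ 6 ≤ 2 ^ (6 * c0) := by
    calc K ^ 6 ≤ (2 ^ c0) ^ 6 := pow_le_pow_left₀ hK0 h1 6
      _ = _ := by rw [← pow_mul]; congr 1; ring
  have a2 : (15 : ℝ) * 2 ^ (m + 8 * (g + c0 + 1) + 7) * (256 * 2 ^ (6 * c0)) ≤ 2 ^ μ := by
    calc (15 : ℝ) * 2 ^ (m + 8 * (g + c0 + 1) + 7) * (256 * 2 ^ (6 * c0)) ≤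
        2 ^ 4 * 2 ^ (m + 8 * (g + c0 + 1) + 7) * (2 ^ 8 * 2 ^ (6 * c0)) := by
          have : (0 : ℝ) < 2 ^ (m + 8 * (g + c0 + 1) + 7) * (2 ^ 8 * 2 ^ (6 * c0)) := by positivity
          nlinarith
      _ = 2 ^ (4 + (m + 8 * (g + c0 + 1) + 7) + (8 + 6 * c0)) := by
          rw [← pow_add, ← pow_add, ← pow_add]
      _ ≤ 2 ^ μ := pow_le_pow_right₀ (by norm_num) (by omega)
  calc 15 * 2 ^ (m + 8 * (g + c0 + 1) + 7) * (256 * K ^ 6 * q2 μ) =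
      (15 * 2 ^ (m + 8 * (g + c0 + 1) + 7) * (256 * K ^ 6)) * q2 μ := by ring
    _ ≤ (15 * 2 ^ (m + 8 * (g + c0 + 1) + 7) * (256 * 2 ^ (6 * c0))) * q2 μ := by gcongr
    _ ≤ 2 ^ μ * q2 μ := mul_le_mul_of_nonneg_right a2 q.le
    _ = 1 := w

/-- **the N-step, deep phi regime, arbitrary letters, in the form of `PSatPhi`** -/
theorem pSatPhiG : ∃ c : ℕ, ∀ {Ω τ θ ω' : Type} [Fintype Ω] (P : Law Ω) (C : Pth Ω τ) (K : ℝ)
    (c0 m g p b j i : ℕ) (Θ : Ω → θ) (W : Ω → ω') (ι₁ ι₂ : ℝ), (∀ ω, 0 < P.w ω → C.Ok K ω) →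
    Reg C (j + 1) i b → Reg C j i b → Adv C m b j → C.μ ≤ p → Lok P C K (j + 1) i b p Θ W →
    2 * K ≤ 2 ^ c0 → 1 ≤ m → m ≤ g → c * (g + c0 + 1) ≤ C.μ →
    mi P (fun ω => fl1 (b + p) (C.l ω).v) (C.cell i b) (fun ω => (Dp C (j + 1) b ω, Θ ω)) ≤ ι₁ →
    mi P Θ W (Dp C (j + 1) b) ≤ ι₂ →
    wt C b j * Real.log 2 - (c * (c0 + 1) + c * m * (cT P C b (j + 1) g + cF P C b (j + 1) g +
      cY P C b (j + 1) g) + (2 : ℝ) ^ (c * (g + c0 + 1)) * (Real.sqrt ι₁ + Real.sqrt ι₂)) ≤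
      hc P (C.A (j + 1) b i) (fun ω => (C.A j b i ω, (C.cell (j + 1) b ω, Θ ω))) := by
  refine ⟨70, ?_⟩
  intro Ω τ θ ω' _ P C K c0 m g p b j i Θ W ι₁ ι₂ hok hR1 hR0 hAdv hp hL hKc hm hmg hμ h1 h2
  obtain ⟨ω0, hω0⟩ : ∃ ω, 0 < P.w ω := by
    by_contra hcon
    push Not at hcon
    have h3 : ∑ ω, P.w ω ≤ 0 := Finset.sum_nonpos fun ω _ => hcon ω
    rw [P.sum_one] at h3
    norm_num at h3
  have hK := K_one (hok ω0 hω0)
  obtain ⟨-, n2, n3⟩ := num_phi hK hKc hmg hμ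
  have n1 := num_phig hK hKc hmg hμ
  have hR1' := hR1.Rk
  have hR0' := hR0.Rk
  have cT0 : 0 ≤ cT P C b (j + 1) g := Vale.Agent.P127.U.Mic.colp_nonneg P _ _
  have cF0 : 0 ≤ cF P C b (j + 1) g := Vale.Agent.P127.U.Mic.colp_nonneg P _ _
  have cY0 : 0 ≤ cY P C b (j + 1) g := Vale.Agent.P127.U.Mic.colp_nonneg P _ _
  have hm0 : (0 : ℝ) ≤ m := Nat.cast_nonneg _
  have s1 := Real.sqrt_nonneg ι₁
  have s2 := Real.sqrt_nonneg ι₂
  have pw : (2 : ℝ) ^ (31 * (g + c0 + 1)) ≤ 2 ^ (70 * (g + c0 + 1)) :=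
    pow_le_pow_right₀ (by norm_num) (by omega)
  have herr : errN P C (j + 1) b c0 m g (2 ^ (8 * c0 + 12)) ι₁ ι₂ ≤
      ((70 : ℕ) : ℝ) * (c0 + 1) + ((70 : ℕ) : ℝ) * m * (cT P C b (j + 1) g + cF P C b (j + 1) g +
      cY P C b (j + 1) g) + (2 : ℝ) ^ (70 * (g + c0 + 1)) * (Real.sqrt ι₁ + Real.sqrt ι₂) := by
    have e1 : 19 * (m : ℝ) * (cT P C b (j + 1) g + cF P C b (j + 1) g + cY P C b (j + 1) g) ≤
        70 * m * (cT P C b (j + 1) g + cF P C b (j + 1) g + cY P C b (j + 1) g) := by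
      have : 0 ≤ (m : ℝ) * (cT P C b (j + 1) g + cF P C b (j + 1) g + cY P C b (j + 1) g) := by
        positivity
      nlinarith
    have e2 : (2 : ℝ) ^ (31 * (g + c0 + 1)) * (Real.sqrt ι₁ + Real.sqrt ι₂) ≤
        2 ^ (70 * (g + c0 + 1)) * (Real.sqrt ι₁ + Real.sqrt ι₂) :=
      mul_le_mul_of_nonneg_right pw (by positivity)
    unfold errN
    unfold cT cF cY at e1
    unfold cT cF cY
    push_cast at n3 ⊢
    linarith
  rcases hAdv with ⟨ha, hf⟩ | ⟨ha, hf⟩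
  · have hJ : Rj C j (j + 1) b := Rj.of_Reg hR0 (by omega)
    have main := satAg_a P hR1 hJ hp hL hok hKc hm hmg n1 n2 ha (by omega) h1 h2
    refine le_trans ?_ main
    have hw : wt C b j = 3 * m := by
      unfold wt
      rw [ha, hf]
      push_cast
      ring
    rw [hw]
    linarith
  · have hJ : Rj C j (j + 1) b := Rj.of_Reg hR0 (by omega)
    have main := satAg_r P hR1 hJ hp hL hok hKc hm hmg n1 n2 ha (by omega) h1 h2
    refine le_trans ?_ main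
    have hw : wt C b j = m := by
      unfold wt
      rw [ha, hf]
      push_cast
      ring
    rw [hw]
    linarith

end Vale.Agent.P106.U.H683
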