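import Vale.Agent.P106.U.H683.L2W
import Vale.Agent.P106.U.H425.RowL2

/-!
# P106 / U / H683 : helper425's input `HW2` of `RowL 2` (helper683)

* **`hw2`** : `H425.HW2`, from `pin`, `stepW` (L2W.lean), 624's `row_j`, 336's `sw_suf`.
-/

set_option autoImplicit false

namespace Vale.Agent.P106.U.H683.L2

open Finset Vale.Agent.P127 Vale.Agent.P127.Stk
open Vale.Agent.P106.U.MIC
open Vale.Agent.P106.U.S5 (Cst Thr Gv)
open Vale.Agent.P106.U.H336 (SwL)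
open Vale.Agent.P106.U.H652 (Ev3 ev_nat ev_con)
open Vale.Agent.P106.U.H683.PhV

theorem cL_nonneg (K : ℝ) : 0 ≤ FzA.cL K := by
  unfold FzA.cL
  have : 0 ≤ Real.log ((2 * ⌈19 * K⌉₊ + 3 : ℕ) : ℝ) := Real.log_natCast_nonneg _
  linarith

theorem cF9_nonneg (K : ℝ) : 0 ≤ cF9 K := by
  unfold cF9
  have : 0 ≤ Real.log ((2 * ⌈118 * (9 * K) ^ 5⌉₊ + 3 : ℕ) : ℝ) := Real.log_natCast_nonneg _
  linarith

/-- numbers of `HW2` -/
theorem ev_hw2 (x : ℕ) (ρ : Thr) (L2 : ℕ) :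
    Ev3 fun m B _ => NuW x ρ L2 m B ∧ 1 ≤ B ∧ 1 ≤ m ∧
      Real.log 18865 + FzA.cL (4 * ρ.K) + cF9 (4 * ρ.K) ≤ Real.log 2 * m := by
  have h1 : Ev3 fun m _ _ => 1 ≤ m := Ev3.of_m (ev_nat 1)
  have h2 : Ev3 fun _ B _ => (100 * ρ.K) ^ 20 ≤ (B : ℝ) :=
    Ev3.of_B' fun _ => (ev_con ((100 * ρ.K) ^ 20) (κ := 1) one_pos).mono fun B h => by simpa using h
  have h3 : Ev3 fun m B _ => 8 * μS x m ≤ B := Ev3.of_B' fun m => ev_nat (8 * μS x m)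
  have h4 : Ev3 fun _ B _ => 1 + L2 + 2 * MuS x ≤ B := Ev3.of_B' fun _ => ev_nat _
  have h5 : Ev3 fun m _ _ => Real.log 18865 + FzA.cL (4 * ρ.K) + cF9 (4 * ρ.K) ≤ Real.log 2 * m :=
    Ev3.of_m (ev_con _ (Real.log_pos (by norm_num)))
  exact ((h1.and h2).and (h3.and (h4.and h5))).mono fun m B h H =>
    ⟨⟨H.1.2, H.2.1, by have := H.2.2.1; omega⟩, by have := H.2.2.1; omega, H.1.1, H.2.2.2⟩

/-- **the windows of kind 2** -/
theorem hw2 : H425.HW2 := by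
  obtain ⟨CJ, hCJ, hR⟩ := H624.row_j
  refine ⟨fun x => 2 * CJ x + 15 * (cμ * xS x) + 1, fun x => by have := hCJ x; positivity, ?_⟩
  refine hR.mono fun b η x δh e3 σ ε ρ hb hη hx hδh he3 hσb hσ hε hρ hJ => ?_
  have hK4 : 0 ≤ 4 * ρ.K := by have := hρ.K1; linarith
  have hcM : 0 ≤ FzA.cM (4 * ρ.K) := by
    have h1 := cL_nonneg (4 * ρ.K)
    have h2 : 0 ≤ Real.log (2 * H300.MK (8 * (4 * ρ.K)) + 3) := Real.log_nonneg (by
      have : (0 : ℝ) ≤ (H300.MK (8 * (4 * ρ.K)) : ℕ) := Nat.cast_nonneg _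
      linarith)
    unfold FzA.cM
    linarith
  have hcW : 0 ≤ cW9 (4 * ρ.K) := by
    have h1 := cL_nonneg (4 * ρ.K)
    have h2 := cF9_nonneg (4 * ρ.K)
    have h3 : 0 ≤ cT9 (4 * ρ.K) := Real.log_natCast_nonneg _
    unfold cW9
    linarith
  refine ⟨cφ * 61 + cW9 (4 * ρ.K), cF9 (4 * ρ.K) + FzA.cM (4 * ρ.K), by positivity,
    add_nonneg (cF9_nonneg _) hcM, fun Lk hLk L1 L2 hL1 hL12 κ hκ => ?_⟩
  have hκ2 : 0 < κ / 2 := by positivity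
  refine (((hJ (κ / 2) hκ2).and (H336.sw_suf η x σ ε ρ hκ2 0)).and
    (Suf.of_ev3 fun g _ => (ev_hw2 x ρ L2).out)).mono fun g m B h hg H s => ?_
  obtain ⟨⟨H1, H2⟩, N, hB, hm, hc⟩ := H
  obtain ⟨Sa, jm, hjm, hjmC, ca, _, _, _, hJS⟩ := H1 s
  have cb := H2 s
  refine ⟨Sa ∪ SwL s.R B s.Vs s.Xs 0, ?_, fun Sw hSw => ?_⟩
  · have e1 : ((Sa ∪ SwL s.R B s.Vs s.Xs 0).card : ℝ) ≤ Sa.card + (SwL s.R B s.Vs s.Xs 0).card := by
      exact_mod_cast card_union_le _ _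
    have e2 := mul_le_mul_of_nonneg_left e1 (Nat.cast_nonneg (α := ℝ) m)
    have e3 : (m : ℝ) * (Sa.card + (SwL s.R B s.Vs s.Xs 0).card) = m * Sa.card + m * (SwL s.R B s.Vs s.Xs 0).card := by ring
    linarith
  · have hS : SwL s.R B s.Vs s.Xs 0 ⊆ Sw := subset_union_right.trans hSw
    have hj : ∀ i ≤ s.R.n, S3.lv s.R i ∈ s.Vs → S3.lv s.R i ∉ Sw → H624.JSt s jm i := fun i hi hV hn =>
      hJS i hi hV fun hcon => hn (hSw (mem_union_left _ hcon))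
    have hmm : s.mm = Real.log 2 * m := by
      show (s.R.m : ℝ) * Real.log 2 = _
      rw [s.run.hm, mul_comm]
    have hcJ9 : 0 ≤ cJ9 (4 * ρ.K) (μS x m) := by
      unfold cJ9
      have h1 := cL_nonneg (4 * ρ.K)
      have h2 := cF9_nonneg (4 * ρ.K)
      have h3 : 0 ≤ Real.log 18865 := Real.log_nonneg (by norm_num)
      have h4 : 0 ≤ Real.log 2 := Real.log_nonneg (by norm_num)
      positivity
    refine ⟨_, _, cF9 (4 * ρ.K), FzA.cM (4 * ρ.K), cJ9 (4 * ρ.K) (μS x m), jm, jm, cF9_nonneg _, hcM, hcJ9, hjm, hjm, le_rfl,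
      ?_, fun t k _ hw => ⟨Aw (Dd s) (s.f t) (bq s) (yx s (KrS x ρ.J) k), ThV (Dd s) (s.f t) (bq s) (yx s (KrS x ρ.J) k),
        pin s hρ N hB hS le_rfl hLk hj hw, fun j hj1 hX => stepW s hρ N hB hm hS le_rfl hLk hw hj1 hX⟩⟩
    unfold cJ9 at hcJ9 ⊢
    have e1 : ((μS x m : ℕ) : ℝ) = cμ * xS x * m := by
      unfold μS
      push_cast
      ring
    rw [e1]
    have e2 : s.mm * (2 * CJ x + 15 * (cμ * xS x) + 1) = 2 * (s.mm * CJ x) + 15 * (cμ * xS x * m) * Real.log 2 +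
        Real.log 2 * m := by
      rw [hmm]
      ring
    rw [e2]
    linarith

end Vale.Agent.P106.U.H683.L2
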