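import Vale.Agent.P106.U.H683.WinPR
import Vale.Agent.P106.U.H683.L2D
import Vale.Agent.P106.U.H336.SwS
import Vale.Agent.P106.U.H624.JunS

/-!
# P106 / U / H683 : the windows of `RowL 2` over the situation of a scale (helper683)

* `NuW` : numbers;  `cq` : the context.
* `Lw s s0 k` : the facts of the late index of a window (`lx_spec`);  `pidx` : the record indices of a pure window are young and
  deep phi;  `wn` : the window in the form `WPR.Wn`.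
* `idp`, `atp` : `f j + 1 ∈ IdP`, late index `∈ At'`.
* **`pin`** : 495's `PIn`;  **`stepW`** : the inequality of a step.
-/

set_option autoImplicit false

namespace Vale.Agent.P106.U.H683.L2

open Finset Vale.Agent.P127 Vale.Agent.P127.Stk
open Vale.Agent.P106.U.MIC
open Vale.Agent.P106.U.S5 (Cst Thr Gv)
open Vale.Agent.P106.U.S3 (lv IdP At' At)
open Vale.Agent.P106.U.H785.Mtr (Mtd)
open Vale.Agent.P106.U.H833 (lx lx_spec I1N I2N aN kN fN RN lev_a lev_k lev_f lev_R aN_mono)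
open Vale.Agent.P106.U.H118 (CS mem_CS full)
open Vale.Agent.P106.U.H931 (XN)
open Vale.Agent.P106.U.H495 (WAt PIn)
open Vale.Agent.P106.U.H336 (SwL Rg steps kap KR)
open Vale.Agent.P106.U.H101 (lc low)
open Vale.Agent.P106.U.H823
open Vale.Agent.P106.U.H683.WPR
open Vale.Agent.P106.U.H683.PhV

section

variable {η : ℝ} {x : ℕ} {σ : Cst} {ε : ℝ} {ρ : Thr} {g : Gv} {m B h : ℕ}

/-- **numbers** -/
structure NuW (x : ℕ) (ρ : Thr) (L2 m B : ℕ) : Prop where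
  hB : (100 * ρ.K) ^ 20 ≤ (B : ℝ)
  μ8 : 8 * μS x m ≤ B
  LB : L2 + 2 * MuS x ≤ 2 * B

/-- 8 margins in blocks -/
theorem mu8 (x m : ℕ) : 8 * μS x m = m * MuS x := by
  unfold μS MuS
  ring

theorem cq (s : St η x σ ε ρ g m B h) (hρ : ρ.Ok) {L2 : ℕ} (N : NuW x ρ L2 m B) :
    Cq s.R s.pn ρ.K ρ.c' s.g' s.gU B s.bS s.bV (μS x m) s.F s.Vs s.Xs := by
  have r := s.run
  have h1 := N.μ8
  have h2 := r.cap.low
  have h3 : s.R.b1 ≤ s.R.m * s.R.b1 := Nat.le_mul_of_pos_left _ r.ok.pth.m1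
  have h4 : B ≤ m * B := by
    rw [← r.hm]
    exact Nat.le_mul_of_pos_left B r.ok.pth.m1
  refine ⟨r.ok, s.f2, hρ.K1, N.hB, ?_, by omega, ?_, by omega⟩
  · rw [r.hm, r.hr0]
    exact r.rm
  · rw [r.hμ]
    omega

/-- the late index of a window -/
structure Lw (s : St η x σ ε ρ g m B h) (L1 L2 Kr s0 k : ℕ) : Prop where
  sk : s0 < k
  kL : k ≤ s0 + L1
  kx : k < lx s.N s.a Kr k
  xN : lx s.N s.a Kr k < s.N
  xL : lx s.N s.a Kr k < s0 + L2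
  ax : s.a (lx s.N s.a Kr k) = s.a k + Kr
  ax1 : s.a (lx s.N s.a Kr k + 1) = s.a k + Kr + 1

theorem lw (s : St η x σ ε ρ g m B h) {P : ℕ → Prop} {L1 L2 Lk Kr s0 k : ℕ} (hKr : 0 < Kr)
    (hw : WAt s.N s.a P L1 L2 Lk Kr s0 k) : Lw s L1 L2 Kr s0 k := by
  obtain ⟨h1, h2, ⟨i1, h3, h4, h5, h6⟩, _⟩ := hw
  have D : H118.Sdat s.N s.gd s.a s.r := s.word.sd
  obtain ⟨q1, q2, q3, q4⟩ := lx_spec D h4 h3 hKr h6
  exact ⟨h1, h2, q1, by omega, by omega, q3, q4⟩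

section geo

variable (s : St η x σ ε ρ g m B h)

theorem hP : s.R.Path s.pn := s.run.ok.pth

theorem f_le (j : ℕ) : s.f j ≤ s.R.n := Cmp.idx_le _

theorem N_eq : s.i0 + s.N = Cmp.Nc s.R s.R.b1 := by
  show s.i0 + (Cmp.Nc s.R s.R.b1 - s.i0) = _
  have := s.hi0
  omega

/-- the compressed path is strictly monotone -/
theorem f_lt {j k : ℕ} (hjk : j < k) (hk : k ≤ s.N) : s.f j < s.f k :=
  Cmp.idx_strict (hP s) (show s.i0 + j < s.i0 + k by omega) (by have := N_eq s; omega)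

/-- levels of the next record index -/
theorem f_succ {j : ℕ} (hj : j < s.N) : aN s.R (s.f (j + 1)) = aN s.R (s.f j + 1) ∧
    RN s.R s.R.b1 (s.f (j + 1)) = RN s.R s.R.b1 (s.f j + 1) := by
  have h := Cmp.same (x := s.R.b1) (hP s) (j := s.i0 + j) (by have := N_eq s; omega)
  exact h

theorem f_step {j : ℕ} (hj : j < s.N) :
    (s.R.IsA (s.f j) ∧ s.a (j + 1) = s.a j + 1 ∧ s.r (j + 1) = s.r j) ∨
      (¬ s.R.IsA (s.f j) ∧ s.a (j + 1) = s.a j ∧ s.r (j + 1) = s.r j + 1) :=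
  Cmp.step2 (x := s.R.b1) (hP s) (j := s.i0 + j) (by have := N_eq s; omega)

/-- the number of steps is the sum of the advances -/
theorem f_sum {i j : ℕ} (hij : i ≤ j) (hj : j ≤ s.N) : s.a j + s.r j = s.a i + s.r i + (j - i) := by
  have h1 := Cmp.sum_lev (x := s.R.b1) (hP s) (j := s.i0 + i) (by have := N_eq s; omega)
  have h2 := Cmp.sum_lev (x := s.R.b1) (hP s) (j := s.i0 + j) (by have := N_eq s; omega)
  have e1 : s.a i = aN s.R (Cmp.idx s.R s.R.b1 (s.i0 + i)) := rfl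
  have e2 : s.a j = aN s.R (Cmp.idx s.R s.R.b1 (s.i0 + j)) := rfl
  have e3 : s.r i = RN s.R s.R.b1 (Cmp.idx s.R s.R.b1 (s.i0 + i)) := rfl
  have e4 : s.r j = RN s.R s.R.b1 (Cmp.idx s.R s.R.b1 (s.i0 + j)) := rfl
  omega

theorem lvf {u : ℕ} (hu : u ≤ s.R.n) : s.R.C.a u = s.R.m * aN s.R u ∧ s.R.C.rf u = s.R.r0 + s.R.m * fN s.R u ∧
    s.R.C.rk u = s.R.r0 + s.R.m * kN s.R u :=
  ⟨lev_a (hP s) (by omega), lev_f (hP s) (by omega), lev_k (hP s) (by omega)⟩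

/-- **the record indices of a pure window** -/
theorem pidx {L1 L2 Lk Kr s0 k L : ℕ} {Sw : Finset ℕ} (hB : 1 ≤ B) (hS : SwL s.R B s.Vs s.Xs L ⊆ Sw) (hKr : 0 < Kr)
    (hLk : Kr ≤ Lk) (hw : WAt s.N s.a (Pu s Sw) L1 L2 Lk Kr s0 k) {u : ℕ} (hu : s.f s0 ≤ u) (hy : u ≤ yx s Kr k) :
    1 ≤ u ∧ u ≤ s.R.n ∧ lv s.R u ∈ s.Vs ∧ lv s.R u ∉ s.Xs ∧
      s.R.C.rf u + 2 * (s.R.m * B) ≤ s.R.m * s.R.b1 + s.F.rk0 u ∧ s.a s0 ≤ lv s.R u ∧ lv s.R u ≤ s.a k + Kr := by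
  have hL := lw s hKr hw
  have hyn : yx s Kr k ≤ s.R.n := f_le s _
  have a0 : aN s.R (s.f s0) ≤ aN s.R u := aN_mono (hP s) hu (by omega)
  have a1 : aN s.R u ≤ aN s.R (yx s Kr k) := aN_mono (hP s) hy (by omega)
  have a2 : aN s.R (yx s Kr k) = s.a k + Kr := hL.ax
  have a3 : aN s.R (yx s Kr k) ≤ aN s.R s.R.n := aN_mono (hP s) hyn (by omega)
  have a4 : aN s.R (s.f s0) = s.a s0 := rfl
  have hpure := hw.2.2.2
  have h := (H336.rg s hB).pure_idx (hP s) (L := L) (z0 := s.a s0) (z1 := s.a k + Kr) (by omega) (by omega)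
    (fun z z0 z1 hz => (hpure z z0 (by omega)).1 (hS hz)) (k := u) (by omega) (by omega) (by omega)
  have hk2 : H336.kd s.R s.Vs (s.a s0) = 2 := by
    have h2 := (hpure (s.a s0) le_rfl (by omega)).2
    unfold St.kd at h2
    unfold H336.kd
    have e : (∃ k, 1 ≤ k ∧ k ≤ s.R.n ∧ S3.lv s.R k = s.a s0 ∧ s.R.m * s.R.b1 + s.R.C.rk k < s.R.C.rf k) ↔
      kap s.R (s.a s0) := Iff.rfl
    by_cases hV : s.a s0 ∈ s.Vs
    · rw [if_pos hV] at h2 ⊢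
      by_cases hk : kap s.R (s.a s0)
      · rw [if_pos (e.2 hk)] at h2
        exact absurd h2 (by decide)
      · rw [if_neg hk]
    · rw [if_neg hV] at h2
      exact absurd h2 (by decide)
  obtain ⟨g1, g2, _, _, _, g6, _⟩ := h
  obtain ⟨g7, g8, g9⟩ := g6 hk2
  exact ⟨g1, by omega, g7, g2, g9, a0, by
    show aN s.R u ≤ _
    omega⟩

/-- the thickness in the deep phi regime -/
theorem RN_phi {u : ℕ} (hu : u ≤ s.R.n) (h : s.R.C.rf u ≤ s.R.m * s.R.b1 + s.R.C.rk u) : RN s.R s.R.b1 u = fN s.R u := by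
  obtain ⟨_, h2, h3⟩ := lvf s hu
  have h4 : s.R.m * fN s.R u ≤ s.R.m * (kN s.R u + s.R.b1) := by
    rw [Nat.mul_add]
    omega
  have h5 := Nat.le_of_mul_le_mul_left h4 (hP s).m1
  unfold RN
  omega

theorem phi_of {u : ℕ} (h : s.R.C.rf u + 2 * (s.R.m * B) ≤ s.R.m * s.R.b1 + s.F.rk0 u) :
    s.R.C.rf u ≤ s.R.m * s.R.b1 + s.R.C.rk u := by
  have := s.F.l0 u
  omega

/-- **the window** -/
theorem wn {L1 L2 Lk Kr s0 k L : ℕ} {Sw : Finset ℕ} (N : NuW x ρ L2 m B) (hB : 1 ≤ B)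
    (hS : SwL s.R B s.Vs s.Xs L ⊆ Sw) (hKr : KrS x ρ.J ≤ Kr) (hLk : Kr ≤ Lk)
    (hw : WAt s.N s.a (Pu s Sw) L1 L2 Lk Kr s0 k) :
    Wn s.R B (μS x m) s.F s.Vs (s.f s0) (s.f k) (yx s Kr k) := by
  have hK1 : 1 + MuS x + ρ.J * MuS x ≤ Kr := by
    refine le_trans (le_of_eq ?_) hKr
    unfold KrS
    ring
  have hL := lw s (by omega) hw
  have hs := s.hf
  have h1 : s.f s0 ≤ s.f k := hs hL.sk.le
  have h2 : s.f k < yx s Kr k := f_lt s hL.kx hL.xN.le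
  have hyn : yx s Kr k ≤ s.R.n := f_le s _
  have pi := fun (u : ℕ) hu hy => pidx s hB hS (by omega) hLk hw (u := u) hu hy
  have hm := s.run.hm
  have hm1 := (hP s).m1
  have p0 := pi (s.f s0) le_rfl (by omega)
  have pk := pi (s.f k) h1 h2.le
  have py := pi (yx s Kr k) (by omega) le_rfl
  have r0 := RN_phi s p0.2.1 (phi_of s p0.2.2.2.2.1)
  have rk := RN_phi s pk.2.1 (phi_of s pk.2.2.2.2.1)
  have ry := RN_phi s py.2.1 (phi_of s py.2.2.2.2.1)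
  obtain ⟨l1, l2, _⟩ := lvf s p0.2.1
  obtain ⟨k1, k2, _⟩ := lvf s pk.2.1
  obtain ⟨y1, y2, _⟩ := lvf s py.2.1
  have hax : aN s.R (yx s Kr k) = s.a k + Kr := hL.ax
  have hak : aN s.R (s.f k) = s.a k := rfl
  have ha0 : aN s.R (s.f s0) = s.a s0 := rfl
  have e8 : 8 * μS x m = s.R.m * MuS x := by rw [mu8, hm]
  have hsum := f_sum s (i := s0) (j := lx s.N s.a Kr k) (by have := hL.sk; have := hL.kx; omega) hL.xN.le
  have hr0 : s.r s0 = fN s.R (s.f s0) := r0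
  have hrx : s.r (lx s.N s.a Kr k) = fN s.R (yx s Kr k) := ry
  have hadv : RN s.R s.R.b1 (s.f k) + MuS x ≤ RN s.R s.R.b1 (yx s Kr k) := by
    refine H833.advT (hP s) s.hf (N := s.N) (f_le s _) s.word.sd ?_ (MuS x) k (lx s.N s.a Kr k) hL.kx.le hL.xN.le ?_
    · have := s.run.cap.top
      refine le_trans (Nat.mul_le_mul_left _ (Nat.le_add_right _ _)) this
    · show s.a k + s.pn.J * MuS x ≤ s.a (lx s.N s.a Kr k)
      rw [hL.ax, s.run.hJ]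
      omega
  refine ⟨h1, h2, hyn, fun u hu hy => (pi u hu hy).2.2.1, fun u hu hy => (pi u hu hy).2.2.2.2.1, ?_, ?_, ?_⟩
  · rw [k1, y1, hax, hak, e8, ← Nat.mul_add]
    exact Nat.mul_le_mul_left _ (by omega)
  · rw [k2, y2, e8]
    have : s.R.m * fN s.R (s.f k) + s.R.m * MuS x ≤ s.R.m * fN s.R (yx s Kr k) := by
      rw [← Nat.mul_add]
      exact Nat.mul_le_mul_left _ (by omega)
    omega
  · have e9 : 9 * μS x m ≤ 2 * (s.R.m * MuS x) := by omega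
    have h3 : fN s.R (yx s Kr k) + aN s.R (yx s Kr k) + 2 * MuS x ≤ fN s.R (s.f s0) + aN s.R (s.f s0) + 2 * B := by
      have h4 := N.LB
      have h5 := hL.xL
      have h6 : s.a (lx s.N s.a Kr k) = aN s.R (yx s Kr k) := rfl
      omega
    have h4 := Nat.mul_le_mul_left s.R.m h3
    have e10 : s.R.m * (fN s.R (yx s Kr k) + aN s.R (yx s Kr k) + 2 * MuS x) =
      s.R.m * fN s.R (yx s Kr k) + s.R.m * aN s.R (yx s Kr k) + 2 * (s.R.m * MuS x) := by ring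
    have e11 : s.R.m * (fN s.R (s.f s0) + aN s.R (s.f s0) + 2 * B) =
      s.R.m * fN s.R (s.f s0) + s.R.m * aN s.R (s.f s0) + 2 * (s.R.m * B) := by ring
    rw [e10, e11] at h4
    rw [y1, y2, l1, l2]
    omega

/-- young record indices of a pure window are of the run -/
theorem f_succ_le {j : ℕ} (hj : j < s.N) : s.f j + 1 ≤ s.f (j + 1) := f_lt s (Nat.lt_succ_self j) hj

/-- the same variable at the next record index -/
theorem pAA {Kr s0 k j : ℕ} (W : Wn s.R B (μS x m) s.F s.Vs (s.f s0) (s.f k) (yx s Kr k)) (hkN : k ≤ s.N)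
    (h1 : s0 ≤ j) (h2 : j < k) : Aw (Dd s) (s.f s0) (bq s) (yx s Kr k) (s.f j + 1) =
      Aw (Dd s) (s.f s0) (bq s) (yx s Kr k) (s.f (j + 1)) := by
  have hs := s.hf
  have e0 := hs h1
  have e1 : s.f j + 1 ≤ s.f (j + 1) := f_succ_le s (by omega)
  have e2 : s.f (j + 1) ≤ s.f k := hs (Nat.succ_le_of_lt h2)
  have e3 := W.u1y
  have yn := W.yn
  obtain ⟨q1, q2⟩ := f_succ s (j := j) (by omega)
  have l1 := lvf s (u := s.f j + 1) (by omega)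
  have l2 := lvf s (u := s.f (j + 1)) (f_le s _)
  have r1 := RN_phi s (u := s.f j + 1) (by omega) (phi_of s (W.Ph _ (by omega) (by omega)))
  have r2 := RN_phi s (u := s.f (j + 1)) (f_le s _) (phi_of s (W.Ph _ (by omega) (by omega)))
  have ea : s.R.C.a (s.f j + 1) = s.R.C.a (s.f (j + 1)) := by rw [l1.1, l2.1, q1]
  have ef : s.R.C.rf (s.f j + 1) = s.R.C.rf (s.f (j + 1)) := by rw [l1.2.1, l2.2.1, ← r1, ← r2, q2]
  exact w_eq (μ := μS x m) (F := s.F) (o := s.o) (o' := s.o') (R := s.R) (by omega) (by omega) ea ef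

/-- the two junctions -/
theorem pJ {L1 L2 Lk Kr s0 k L : ℕ} {Sw : Finset ℕ} {jm : ℝ} (hB : 1 ≤ B)
    (hS : SwL s.R B s.Vs s.Xs L ⊆ Sw) (hK0 : 0 < Kr) (hLk : Kr ≤ Lk)
    (hj : ∀ i ≤ s.R.n, lv s.R i ∈ s.Vs → lv s.R i ∉ Sw → H624.JSt s jm i)
    (W : Wn s.R B (μS x m) s.F s.Vs (s.f s0) (s.f k) (yx s Kr k))
    (hw : WAt s.N s.a (Pu s Sw) L1 L2 Lk Kr s0 k) :
    hc s.R.Q ((lc s.R.C (μS x m) s.o).cell (s.f s0) (s.R.m * s.R.b1))
        ((S3.mt0 s.R s.F (μS x m) s.o s.o').mtr (s.f s0) (s.R.m * s.R.b1)) ≤ jm ∧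
      hc s.R.Q ((S3.mt0 s.R s.F (μS x m) s.o s.o').mtr (s.f k) (s.R.m * s.R.b1))
        ((lc s.R.C (μS x m) s.o).cell (s.f k) (s.R.m * s.R.b1)) ≤ jm := by
  have e1 := W.u1y
  have e2 := W.u01
  have nS : ∀ u, s.f s0 ≤ u → u ≤ yx s Kr k → lv s.R u ∉ Sw := fun u hu hy => by
    obtain ⟨_, _, _, _, _, p1, p2⟩ := pidx s hB hS hK0 hLk hw (u := u) hu hy
    exact (hw.2.2.2 _ p1 (by omega)).1
  have jt := hj (s.f s0) (f_le s _) (W.V _ le_rfl (by omega)) (nS _ le_rfl (by omega))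
  have jk := hj (s.f k) (f_le s _) (W.V _ e2 e1.le) (nS _ e2 e1.le)
  exact ⟨jt.cm0 (W.Ph _ le_rfl (by omega)), jk.mc0 (W.Ph _ e2 e1.le)⟩

/-- **the inputs of 495's `rowP`** for a pure window -/
theorem pin {L1 L2 Lk Kr s0 k L : ℕ} {Sw : Finset ℕ} {jm : ℝ} (hρ : ρ.Ok) (N : NuW x ρ L2 m B) (hB : 1 ≤ B)
    (hS : SwL s.R B s.Vs s.Xs L ⊆ Sw) (hKr : KrS x ρ.J ≤ Kr) (hLk : Kr ≤ Lk)
    (hj : ∀ i ≤ s.R.n, lv s.R i ∈ s.Vs → lv s.R i ∉ Sw → H624.JSt s jm i)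
    (hw : WAt s.N s.a (Pu s Sw) L1 L2 Lk Kr s0 k) :
    PIn s.Rl s.f (bq s) (fun u => (Dd s).mtr u (bq s)) s0 k (yx s Kr k)
      (Aw (Dd s) (s.f s0) (bq s) (yx s Kr k)) (ThV (Dd s) (s.f s0) (bq s) (yx s Kr k))
      (cF9 (4 * ρ.K)) (FzA.cM (4 * ρ.K)) (cJ9 (4 * ρ.K) (μS x m)) jm jm 0 := by
  have hK0 : 0 < Kr := lt_of_lt_of_le (Nat.succ_pos _) hKr
  have W := wn s N hB hS hKr hLk hw
  have hL := lw s hK0 hw
  have H := cq s hρ N
  have hs := s.hf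
  have hkN : k ≤ s.N := hL.kx.le.trans hL.xN.le
  obtain ⟨j1, j2⟩ := pJ s hB hS hK0 hLk hj W hw
  have e3 := W.u1y
  have hN' : ∀ u, s.f s0 ≤ u → u ≤ s.f k → hc s.R.Q ((S3.mt0 s.R s.F (μS x m) s.o s.o').mtr (s.f s0) (s.R.m * s.R.b1))
    ((S3.mt0 s.R s.F (μS x m) s.o s.o').mtr u (s.R.m * s.R.b1)) ≤ FzA.cM (4 * ρ.K) := fun u h1 h2 => w_hN H W h1 h2
  have hA' : ∀ u, s.f s0 ≤ u → u + 1 ≤ yx s Kr k →
    hc s.R.Q (Aw (S3.mt0 s.R s.F (μS x m) s.o s.o') (s.f s0) (s.R.m * s.R.b1) (yx s Kr k) u)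
      (fun ω => (Aw (S3.mt0 s.R s.F (μS x m) s.o s.o') (s.f s0) (s.R.m * s.R.b1) (yx s Kr k) (u + 1) ω,
        ThV (S3.mt0 s.R s.F (μS x m) s.o s.o') (s.f s0) (s.R.m * s.R.b1) (yx s Kr k) ω)) ≤ cF9 (4 * ρ.K) :=
    fun u h1 h2 => w_hA H W h1 h2
  have hJ' : hc s.R.Q (Aw (S3.mt0 s.R s.F (μS x m) s.o s.o') (s.f s0) (s.R.m * s.R.b1) (yx s Kr k) (s.f k))
      (fun ω => (ThV (S3.mt0 s.R s.F (μS x m) s.o s.o') (s.f s0) (s.R.m * s.R.b1) (yx s Kr k) ω,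
        (S3.mt0 s.R s.F (μS x m) s.o s.o').mtr (s.f k) (s.R.m * s.R.b1) ω)) ≤ cJ9 (4 * ρ.K) (μS x m) := w_hJ H W
  refine ⟨w_hΘ (R := s.R) (F := s.F) (μ := μS x m) (o := s.o) (o' := s.o') (u0 := s.f s0) (y := yx s Kr k), ?_, j2,
    fun j h1 h2 => ?_, fun j h1 h2 => ?_, fun j h1 h2 => ?_, hJ'⟩
  · rw [add_zero]
    exact j1
  · have e0 := hs h1
    exact hN' (s.f j + 1) (by omega) (le_trans (f_succ_le s (by omega)) (hs (Nat.succ_le_of_lt h2)))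
  · rw [pAA s W hkN h1 h2]
    exact ⟨fun _ _ _ _ e => e, fun _ _ _ _ e => e⟩
  · have e0 := hs h1
    have e1 : s.f j < s.f k := f_lt s h2 hkN
    exact hA' (s.f j) e0 (by omega)

/-- numbers of the N-step -/
theorem hmu (hm : 1 ≤ m) : cφ * (MIC.gS x m + 60 + 1) ≤ μS x m := by
  have h1 : cφ ≤ cN := le_max_right _ _
  have h2 : 12 ≤ xS x := by unfold xS; omega
  unfold MIC.gS μS cμ
  have h3 : 61 ≤ 61 * (xS x * m) := by
    have : 1 ≤ xS x * m := Nat.mul_pos (by omega) hm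
    omega
  calc cφ * (8 * xS x * m + 60 + 1) ≤ cN * (8 * xS x * m + 60 + 1) := Nat.mul_le_mul_right _ h1
    _ ≤ cN * (8000 * (xS x * m)) := Nat.mul_le_mul_left _ (by
        have : 8 * xS x * m = 8 * (xS x * m) := by ring
        omega)
    _ = 8000 * cN * xS x * m := by ring

/-- **the inequality of a step** -/
theorem stepW {L1 L2 Lk Kr s0 k L j : ℕ} {Sw : Finset ℕ} (hρ : ρ.Ok) (N : NuW x ρ L2 m B) (hB : 1 ≤ B) (hm : 1 ≤ m)
    (hS : SwL s.R B s.Vs s.Xs L ⊆ Sw) (hKr : KrS x ρ.J ≤ Kr) (hLk : Kr ≤ Lk)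
    (hw : WAt s.N s.a (Pu s Sw) L1 L2 Lk Kr s0 k) (hj : j ∈ CS x s.N s.gd s.a s.r s0 k) (hX : j ∉ Xe s) :
    full s.mm s.a s.r j - (cφ * 61 + cW9 (4 * ρ.K) + cφ * s.R.m * colL s Sw L1 L2 Lk Kr j +
      2 ^ (cφ * (MIC.gS x m + 61)) * (Real.sqrt (I1V s Sw L1 L2 Lk Kr j k) + Real.sqrt (I2V s Sw L1 L2 Lk Kr j k))) ≤
    hc s.R.Q (Aw (Dd s) (s.f s0) (bq s) (yx s Kr k) (s.f j + 1)) (fun ω => (Aw (Dd s) (s.f s0) (bq s) (yx s Kr k) (s.f j) ω,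
      ((Dd s).mtr (s.f j + 1) (bq s) ω, ThV (Dd s) (s.f s0) (bq s) (yx s Kr k) ω))) := by
  classical
  have hK0 : 0 < Kr := by
    refine lt_of_lt_of_le ?_ hKr
    unfold KrS
    omega
  have W := wn s N hB hS hKr hLk hw
  have hL := lw s hK0 hw
  have H := cq s hρ N
  have hs := s.hf
  have hkN : k ≤ s.N := hL.kx.le.trans hL.xN.le
  obtain ⟨⟨h1, h2⟩, h3⟩ := mem_CS.1 hj
  have D : H118.Sdat s.N s.gd s.a s.r := s.word.sd
  have hwj : WAt s.N s.a (Pu s Sw) L1 L2 Lk Kr j k := by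
    obtain ⟨w1, w2, ⟨i1, w3, w4, w5, w6⟩, w7⟩ := hw
    exact ⟨h2, by omega, ⟨i1, w3, w4, by omega, w6⟩, fun z z1 z2 => w7 z (le_trans (D.am h1 (by omega)) z1) z2⟩
  have eI1 : I1V s Sw L1 L2 Lk Kr j k =
      I1N s.R.Q ((Dd s).fz (s.f j + 1) (s.f j + 1)) (bq s) (2 * μS x m) (s.f j) (yx s Kr k) := by
    unfold I1V
    rw [if_pos hwj]
  have eI2 : I2V s Sw L1 L2 Lk Kr j k =
      I2N s.R.Q ((Dd s).fz (s.f j + 1) (s.f j + 1)) (bq s) s.bV (s.f j) (yx s Kr k) := by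
    unfold I2V
    rw [if_pos hwj]
  have eC : colL s Sw L1 L2 Lk Kr j = H786.SC.cc2 s.R s.F (μS x m) s.o s.o' (MIC.gS x m) (bq s) (s.f j + 1) := by
    unfold colL
    rw [if_pos ⟨mem_CS.2 ⟨⟨Nat.zero_le _, by omega⟩, h3⟩, hX, k, hwj⟩]
  rw [eI1, eI2, eC]
  have e0 := hs h1
  have e1 : s.f j + 1 ≤ s.f (j + 1) := f_succ_le s (by omega)
  have e2 : s.f (j + 1) ≤ s.f k := hs (Nat.succ_le_of_lt h2)
  have e3 := W.u1y
  have yn := W.yn
  obtain ⟨q1, q2⟩ := f_succ s (j := j) (by omega)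
  have l0 := lvf s (u := s.f j) (f_le s _)
  have l1 := lvf s (u := s.f j + 1) (by omega)
  have r0 := RN_phi s (u := s.f j) (f_le s _) (phi_of s (W.Ph _ e0 (by omega)))
  have r1 := RN_phi s (u := s.f j + 1) (by omega) (phi_of s (W.Ph _ (by omega) (by omega)))
  have a0 : s.a j = aN s.R (s.f j) := rfl
  have a1 : s.a (j + 1) = aN s.R (s.f (j + 1)) := rfl
  have b0 : s.r j = RN s.R s.R.b1 (s.f j) := rfl
  have b1 : s.r (j + 1) = RN s.R s.R.b1 (s.f (j + 1)) := rfl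
  rw [r0] at b0
  rw [q2, r1] at b1
  rw [q1] at a1
  have adv : (s.R.C.a (s.f j + 1) = s.R.C.a (s.f j) + s.R.m ∧ s.R.C.rf (s.f j + 1) = s.R.C.rf (s.f j)) ∨
      (s.R.C.a (s.f j + 1) = s.R.C.a (s.f j) ∧ s.R.C.rf (s.f j + 1) = s.R.C.rf (s.f j) + s.R.m) := by
    rw [l0.1, l0.2.1, l1.1, l1.2.1, ← a0, ← b0, ← a1, ← b1]
    rcases f_step s (j := j) (by omega) with ⟨_, g1, g2⟩ | ⟨_, g1, g2⟩
    · left
      rw [g1, g2]
      exact ⟨by ring, rfl⟩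
    · right
      rw [g1, g2]
      exact ⟨rfl, by ring⟩
  have eF : full s.mm s.a s.r j = (3 * ((s.R.C.a (s.f j + 1) : ℝ) - s.R.C.a (s.f j)) +
      ((s.R.C.rf (s.f j + 1) : ℝ) - s.R.C.rf (s.f j))) * Real.log 2 := by
    rw [l0.1, l0.2.1, l1.1, l1.2.1, ← a0, ← b0, ← a1, ← b1]
    unfold full St.mm
    push_cast
    ring
  have hlo : s.R.m * s.R.b1 + s.R.m * B ≤ s.bV := by
    have h1 := s.f2.loS
    have h2 := s.f2.loV
    rw [Nat.mul_add] at h1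
    omega
  have h8 : 8 * μS x m ≤ s.R.m * B := N.μ8.trans H.mB
  have key := w_step (o := s.o) (o' := s.o') H W cφ_spec (c0 := 60) (g := MIC.gS x m) (pv := 2 * μS x m) (b' := s.bV)
    (u := s.f j) e0 (by omega) adv (by omega) (by omega) (by omega) (by
      have := hρ.K2
      norm_num at this ⊢
      linarith) (by
      rw [s.run.hm]
      unfold MIC.gS xS
      have : m ≤ 8 * (x + 12) * m := Nat.le_mul_of_pos_left m (by omega)
      exact this) (hmu hm)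
  rw [eF]
  refine le_trans (le_of_eq ?_) key
  have e61 : ((cφ * (60 + 1) : ℕ) : ℝ) = cφ * 61 := by push_cast; ring
  show _ = _ - ((cφ : ℝ) * (60 + 1) + cφ * s.R.m * H786.SC.cc2 s.R s.F (μS x m) s.o s.o' (MIC.gS x m) (bq s) (s.f j + 1) +
    2 ^ (cφ * (MIC.gS x m + 60 + 1)) * (_ + _) + _)
  have e62 : MIC.gS x m + 60 + 1 = MIC.gS x m + 61 := rfl
  rw [e62]
  unfold Dd bq
  ring

end geo

end

end Vale.Agent.P106.U.H683.L2
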