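import Vale.Agent.P106.TV.MStepGL
import Vale.Agent.P127.U.Mic.Sat

/-!
# P106 / U / H683 : nondegeneracy of the copies in the form of `TV.avG` (helper683)

* `nonP` : `κ₂ = Fin 2`, `κ₃ = Fin 3` : the weight fails only if two of the times, of the slopes, of the
  directions are close.
-/

set_option autoImplicit false

namespace Vale.Agent.P106.U.H683

open Finset Vale.Agent.P127 Vale.Agent.P127.Stk Vale.Agent.P127.U.Pin Vale.Agent.P127.U.Mic
open Vale.Agent.P106.TV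

variable {Ω : Type} [Fintype Ω] {T : Type*} (P : Law Ω)
  {κ₂ κ₃ : Type} [Fintype κ₂] [DecidableEq κ₂] [Fintype κ₃] [DecidableEq κ₃]

/-- average over `ω` and the copies given `D` -/
noncomputable def avc (D : Ω → T) (κ₂ κ₃ : Type) [Fintype κ₂] [DecidableEq κ₂] [Fintype κ₃]
    [DecidableEq κ₃] (f : Ω → (κ₂ → Ω) → (κ₃ → Ω) → ℝ) : ℝ :=
  P.ex (fun ω => (cop (P.cond D (D ω)) κ₂).ex fun z => (cop (P.cond D (D ω)) κ₃).ex fun y => f ω z y)

theorem avc_mono (D : Ω → T) {f g : Ω → (κ₂ → Ω) → (κ₃ → Ω) → ℝ}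
    (h : ∀ ω z y, 0 < P.w ω → (∀ i, 0 < P.w (z i) ∧ D (z i) = D ω) →
      (∀ j, 0 < P.w (y j) ∧ D (y j) = D ω) → f ω z y ≤ g ω z y) :
    avc P D κ₂ κ₃ f ≤ avc P D κ₂ κ₃ g := by
  refine P.ex_mono fun ω p => ?_
  have hz := P.pr_pos D p
  refine Law.ex_mono _ fun z pz => Law.ex_mono _ fun y py => ?_
  refine h ω z y p (fun i => ?_) (fun j => ?_)
  · have := cond_supp P D hz (cop_supp pz i)
    exact ⟨this.2, this.1⟩
  · have := cond_supp P D hz (cop_supp py j)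
    exact ⟨this.2, this.1⟩

theorem avc_add (D : Ω → T) (f g : Ω → (κ₂ → Ω) → (κ₃ → Ω) → ℝ) :
    avc P D κ₂ κ₃ (fun a b c => f a b c + g a b c) = avc P D κ₂ κ₃ f + avc P D κ₂ κ₃ g := by
  unfold avc
  simp only [Law.ex_add]

theorem avc_sub (D : Ω → T) (f g : Ω → (κ₂ → Ω) → (κ₃ → Ω) → ℝ) :
    avc P D κ₂ κ₃ (fun a b c => f a b c - g a b c) = avc P D κ₂ κ₃ f - avc P D κ₂ κ₃ g := by
  unfold avc
  simp only [Law.ex_sub]

theorem avc_const (D : Ω → T) (c : ℝ) : avc P D κ₂ κ₃ (fun _ _ _ => c) = c := by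
  unfold avc
  simp only [Law.ex_const]

theorem avc_z (D : Ω → T) (i : κ₂) (f : Ω → Ω → ℝ) :
    avc P D κ₂ κ₃ (fun a z _ => f a (z i)) = av2 P D f := by
  unfold avc av2
  simp only [Law.ex_const]
  refine P.ex_congr fun ω _ => ?_
  exact cop_ex1 _ i (fun ω' => f ω ω')

theorem avc_zz (D : Ω → T) {i j : κ₂} (hij : i ≠ j) (f : Ω → Ω → ℝ) :
    avc P D κ₂ κ₃ (fun _ z _ => f (z i) (z j)) = av2 P D f := by
  rw [← av_shift P D f]
  unfold avc
  simp only [Law.ex_const]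
  refine P.ex_congr fun ω _ => ?_
  exact cop_ex2 _ hij f

theorem avc_y (D : Ω → T) (i : κ₃) (f : Ω → Ω → ℝ) :
    avc P D κ₂ κ₃ (fun a _ y => f a (y i)) = av2 P D f := by
  unfold avc av2
  simp only [Law.ex_const]
  refine P.ex_congr fun ω _ => ?_
  exact cop_ex1 _ i (fun ω' => f ω ω')

theorem avc_yy (D : Ω → T) {i j : κ₃} (hij : i ≠ j) (f : Ω → Ω → ℝ) :
    avc P D κ₂ κ₃ (fun _ _ y => f (y i) (y j)) = av2 P D f := by
  rw [← av_shift P D f]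
  unfold avc
  simp only [Law.ex_const]
  refine P.ex_congr fun ω _ => ?_
  exact cop_ex2 _ hij f

theorem lind_nonneg (p : Prop) : 0 ≤ Law.ind p := ind_nonneg p

/-- **nondegeneracy** for two copies of the path letter and three copies of the direction -/
theorem nonP (D : Ω → T) (t v e : Ω → ℤ) (k : ℕ) (f : Ω → (Fin 2 → Ω) → (Fin 3 → Ω) → ℝ)
    (hf0 : ∀ ω z y, 0 ≤ f ω z y)
    (hf : ∀ ω z y, 0 < P.w ω → (∀ i, 0 < P.w (z i) ∧ D (z i) = D ω) →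
      (∀ j, 0 < P.w (y j) ∧ D (y j) = D ω) →
      ¬ |t ω - t (z 0)| ≤ k → ¬ |t ω - t (z 1)| ≤ k → ¬ |v (z 0) - v (z 1)| ≤ k →
      ¬ |e (y 0) - e (y 1)| ≤ k → ¬ |e (y 0) - e (y 2)| ≤ k → ¬ |e (y 1) - e (y 2)| ≤ k →
      1 ≤ f ω z y) :
    1 - (2 * k + 1) * (2 * colp P t D + colp P v D + 3 * colp P e D) ≤
      avc P D (Fin 2) (Fin 3) f := by
  let b0 : Ω → (Fin 2 → Ω) → (Fin 3 → Ω) → ℝ := fun a z _ => Law.ind (|t a - t (z 0)| ≤ k)
  let b1 : Ω → (Fin 2 → Ω) → (Fin 3 → Ω) → ℝ := fun a z _ => Law.ind (|t a - t (z 1)| ≤ k)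
  let c0 : Ω → (Fin 2 → Ω) → (Fin 3 → Ω) → ℝ := fun _ z _ => Law.ind (|v (z 0) - v (z 1)| ≤ k)
  let d0 : Ω → (Fin 2 → Ω) → (Fin 3 → Ω) → ℝ := fun _ _ y => Law.ind (|e (y 0) - e (y 1)| ≤ k)
  let d1 : Ω → (Fin 2 → Ω) → (Fin 3 → Ω) → ℝ := fun _ _ y => Law.ind (|e (y 0) - e (y 2)| ≤ k)
  let d2 : Ω → (Fin 2 → Ω) → (Fin 3 → Ω) → ℝ := fun _ _ y => Law.ind (|e (y 1) - e (y 2)| ≤ k)
  have h1 : avc P D (Fin 2) (Fin 3) (fun a z y => 1 - (b0 a z y + b1 a z y + c0 a z y + d0 a z y +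
      d1 a z y + d2 a z y)) ≤ avc P D (Fin 2) (Fin 3) f := by
    refine avc_mono P D fun ω z y p pz py => ?_
    have n1 := lind_nonneg (|t ω - t (z 0)| ≤ k)
    have n2 := lind_nonneg (|t ω - t (z 1)| ≤ k)
    have n3 := lind_nonneg (|v (z 0) - v (z 1)| ≤ k)
    have n4 := lind_nonneg (|e (y 0) - e (y 1)| ≤ k)
    have n5 := lind_nonneg (|e (y 0) - e (y 2)| ≤ k)
    have n6 := lind_nonneg (|e (y 1) - e (y 2)| ≤ k)
    have hx := hf0 ω z y
    simp only [b0, b1, c0, d0, d1, d2]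
    by_cases g1 : |t ω - t (z 0)| ≤ k
    · rw [Law.ind_of g1]; linarith
    by_cases g2 : |t ω - t (z 1)| ≤ k
    · rw [Law.ind_of g2]; linarith
    by_cases g3 : |v (z 0) - v (z 1)| ≤ k
    · rw [Law.ind_of g3]; linarith
    by_cases g4 : |e (y 0) - e (y 1)| ≤ k
    · rw [Law.ind_of g4]; linarith
    by_cases g5 : |e (y 0) - e (y 2)| ≤ k
    · rw [Law.ind_of g5]; linarith
    by_cases g6 : |e (y 1) - e (y 2)| ≤ k
    · rw [Law.ind_of g6]; linarith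
    have := hf ω z y p pz py g1 g2 g3 g4 g5 g6
    linarith
  rw [avc_sub P D (fun _ _ _ => 1), avc_const] at h1
  have e1 : avc P D (Fin 2) (Fin 3) (fun a z y => b0 a z y + b1 a z y + c0 a z y + d0 a z y +
      d1 a z y + d2 a z y) =
      avc P D (Fin 2) (Fin 3) b0 + avc P D (Fin 2) (Fin 3) b1 + avc P D (Fin 2) (Fin 3) c0 +
      avc P D (Fin 2) (Fin 3) d0 + avc P D (Fin 2) (Fin 3) d1 + avc P D (Fin 2) (Fin 3) d2 := by
    rw [← avc_add, ← avc_add, ← avc_add, ← avc_add, ← avc_add]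
  rw [e1] at h1
  have f1 : avc P D (Fin 2) (Fin 3) b0 ≤ (2 * k + 1) * colp P t D := by
    rw [avc_z P D 0 (fun a b => Law.ind (|t a - t b| ≤ k))]
    exact av2_near P D t k
  have f2 : avc P D (Fin 2) (Fin 3) b1 ≤ (2 * k + 1) * colp P t D := by
    rw [avc_z P D 1 (fun a b => Law.ind (|t a - t b| ≤ k))]
    exact av2_near P D t k
  have f3 : avc P D (Fin 2) (Fin 3) c0 ≤ (2 * k + 1) * colp P v D := by
    rw [avc_zz P D (i := 0) (j := 1) (by decide) (fun a b => Law.ind (|v a - v b| ≤ k))]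
    exact av2_near P D v k
  have f4 : avc P D (Fin 2) (Fin 3) d0 ≤ (2 * k + 1) * colp P e D := by
    rw [avc_yy P D (i := 0) (j := 1) (by decide) (fun a b => Law.ind (|e a - e b| ≤ k))]
    exact av2_near P D e k
  have f5 : avc P D (Fin 2) (Fin 3) d1 ≤ (2 * k + 1) * colp P e D := by
    rw [avc_yy P D (i := 0) (j := 2) (by decide) (fun a b => Law.ind (|e a - e b| ≤ k))]
    exact av2_near P D e k
  have f6 : avc P D (Fin 2) (Fin 3) d2 ≤ (2 * k + 1) * colp P e D := by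
    rw [avc_yy P D (i := 1) (j := 2) (by decide) (fun a b => Law.ind (|e a - e b| ≤ k))]
    exact av2_near P D e k
  linarith

end Vale.Agent.P106.U.H683
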