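import Vale.Agent.P106.U.H683.PhiQ
import Vale.Agent.P106.U.H364.Nhc

/-!
# P106 / U / H683 : from the cube form to the stepwise form, deep phi regime (helper683)

* `Ql` : the position at the late time, at the levels of the earlier step `j`, in the frame of the step `k`.
* `A_le` : the nominal position `A j b i'` has a bounded number of values given `(Ql, Dp, Th)`.
-/

set_option autoImplicit false

namespace Vale.Agent.P106.U.H683

open Finset Vale.Agent.P127 Vale.Agent.P127.Stk Vale.Agent.P106.U.Cell Vale.Agent.P106.TV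
open Vale.Agent.P127.U.Pin Vale.Agent.P127.U.Mic
open Vale.Agent.P127.U.CellD (q2 rd rd_le lt_rd rd_err rd_mono rd_sub q2_pos q2_le q2_add q2_mul_pow
  div_pow_eq fl1_fl1)

variable {Ω τ : Type} {C : Pth Ω τ} {K : ℝ} {j k i' b c0 : ℕ} {x y : Ω}

/-- change of the level -/
lemma Bd.up {c e n s : ℕ} {z : ℝ} (h : Bd K c e (n - s) z) (hs : s ≤ n) : Bd K (c * 2 ^ s) e n z := by
  unfold Bd at *
  have e1 : q2 (n - s) = 2 ^ s * q2 n := by
    have h1 : n = (n - s) + s := by omega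
    have h2 : q2 n = q2 (n - s) * q2 s := by
      conv_lhs => rw [h1]
      rw [q2_add]
    rw [h2]
    calc q2 (n - s) = q2 (n - s) * (2 ^ s * q2 s) := by rw [q2_mul_pow, mul_one]
      _ = _ := by ring
  rw [e1] at h
  refine h.trans (le_of_eq ?_)
  push_cast
  ring

/-- the earlier step is in the deep phi regime too -/
structure Rj (C : Pth Ω τ) (j k b : ℕ) : Prop where
  jk : j ≤ k
  f8 : 8 * C.μ ≤ C.rf j
  hj : C.rf j + 4 * C.μ ≤ b + C.rk j
  am : C.a k ≤ C.a j + C.μ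

lemma Rj.bsj (h : Rj C j k b) : C.bs j b = C.rf j - C.rk j := by
  have := h.hj
  unfold Pth.bs
  omega

lemma Rj.R (h : Rj C j k b) : C.R j b = C.rf j := by
  have := C.hkf j
  unfold Pth.R
  rw [h.bsj]
  omega

/-- the position at the late time, levels of `j`, frame of `k` -/
noncomputable def Ql (C : Pth Ω τ) (j k i' b c0 : ℕ) (ω : Ω) : ℤ × ℤ × ℤ :=
  (fl1 (C.a j + b) ((C.l ω).X (C.s i' ω)), fl1 (C.a j + 2 * b) (C.Zs b (C.s i' ω) ω),
    fl1 (C.a j + b + C.R j b - c0) ((Fk C k i' b ω).g (C.l ω) (C.s i' ω)))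

section close

variable (hR : Reg C k i' b) (hJ : Rj C j k b) (hx : C.Ok K x) (hD : Dp C k b x = Dp C k b y)
  (hT : Th C i' b x = Th C i' b y) (hQ : Ql C j k i' b c0 x = Ql C j k i' b c0 y)

include hT hQ

lemma dX_Q : Bd K 1 0 (C.a j + b) ((C.l y).X (C.s i' x) - (C.l x).X (C.s i' x)) := by
  have h := near_fl1 (Prod.mk.inj hQ).1
  rw [← Th_s hT] at h
  exact (Bd.mk0 h).symm

lemma dZ_Q : Bd K 1 0 (C.a j + 2 * b) (C.Zs b (C.s i' x) y - C.Zs b (C.s i' x) x) := by
  have h := near_fl1 (Prod.mk.inj (Prod.mk.inj hQ).2).1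
  rw [← Th_s hT] at h
  exact (Bd.mk0 h).symm

include hD in
lemma dg_Q : Bd K 1 0 (C.a j + b + C.R j b - c0)
    ((Fk C k i' b x).g (C.l y) (C.s i' x) - (Fk C k i' b x).g (C.l x) (C.s i' x)) := by
  have h := near_fl1 (Prod.mk.inj (Prod.mk.inj hQ).2).2
  rw [← Th_s hT, ← Fk_eq hD hT] at h
  exact (Bd.mk0 h).symm

include hR hJ hx hD in
lemma dN_Q (hc0 : c0 ≤ C.rf j) :
    Bd K 44 2 (C.a j + b) ((C.l y).N (C.s i' x) - (C.l x).N (C.s i' x)) := by
  have hK := K_one hx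
  have h8 := hR.b8; have hf := hR.f8; have hf2 := hJ.f8; have hRj := hJ.R; have hRk := hR.Rk
  have ha := C.ha hJ.jk
  have hn := nr_late hR hx hD
  have e0 := Fu.g_sub (Fk C k i' b x) (C.l x) (C.l y) (C.s i' x)
  have t0 := (dg_Q (K := K) hD hT hQ).mono (c' := 1) (e' := 1) (n' := C.a j + b) hK le_rfl (by omega)
    (by omega)
  have hcV : Bd K 3 1 (2 * C.μ) ((Fk C k i' b x).cV (C.l x) (C.s i' x)) := by
    have h := Fu.cV_sh (Fn C k b (C.R k b) x) (C.l x) (C.s k x) (C.s i' x - C.s k x)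
    rw [add_sub_cancel] at h
    unfold Fk
    rw [h]
    exact (cVn_bd hx (by omega)).mono hK (by omega) le_rfl le_rfl
  have t1 := (hcV.mul (dX_Q (K := K) hT hQ)).mono (c' := 3) (e' := 1) (n' := C.a j + b) hK
    (by omega) (by omega) (by omega)
  have hal : Bd K 1 1 0 ((Fk C k i' b x).al * q2 (C.a k)) := Bd.of_le (by
    rw [abs_mul, abs_of_pos (q2_pos _)]
    exact hx.a1 k)
  have hka : Bd K 2 1 0 (Fk C k i' b x).ka := by
    have h1 : Bd K 1 1 0 (C.F k x).ka := Bd.of_le (hx.k1 k)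
    have h2 : Bd K 1 0 (C.a k + 0) (C.s i' x - C.s k x) := Bd.mk0 (s_near hR.ki x)
    have h3 := hal.mulA h2
    refine (h1.sub (h3.mono (c' := 1) (e' := 1) (n' := 0) hK (by omega) (by omega)
      (by omega))).congr ?_
    show _ = (C.F k x).ka - (C.s i' x - C.s k x) * (C.F k x).al
    show (C.F k x).ka - (C.F k x).al * (C.s i' x - C.s k x) = _
    ring
  have t2 := (hka.mul hn.z).mono (c' := 8) (e' := 1) (n' := C.a j + b) hK (by omega) (by omega)
    (by omega)
  have x1 := (hn.X.mul hn.X).mono (c' := 16) (e' := 0) (n' := C.a k + (C.a k + 2 * b - 2 * C.μ)) hK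
    (by omega) (by omega) (by omega)
  have x2 := (hn.N.mul hn.N).mono (c' := 16) (e' := 0) (n' := C.a k + (C.a k + 2 * b - 2 * C.μ)) hK
    (by omega) (by omega) (by omega)
  have t3 := ((hal.mulA (x1.add x2)).mono (c' := 32) (e' := 1) (n' := C.a j + b) hK (by omega)
    (by omega) (by omega)).half
  have t5 := ((t0.add t1).add t2).add t3
  have hcN : 0 < (Fk C k i' b x).cN (C.l x) (C.s i' x) := by
    rw [Fk_cN]
    exact cN_pos hx
  have hinv : Bd K 1 1 0 (1 / (Fk C k i' b x).cN (C.l x) (C.s i' x)) := Bd.of_le (by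
    have h1 := hx.n1 k
    rw [abs_of_pos (by positivity), div_le_iff₀ hcN, Fk_cN]
    exact h1)
  refine ((hinv.mul t5).mono hK (by omega) (by omega) (by omega)).congr ?_
  rw [div_mul_eq_mul_div, one_mul, div_eq_iff hcN.ne']
  linear_combination e0

include hR hJ hx hD in
lemma dz_Q (hc0 : c0 ≤ C.rf j) :
    Bd K 46 2 (C.a j + 2 * b - C.μ) ((C.l x).dz (C.l y) (C.s i' x)) := by
  have hK := K_one hx
  have h8 := hR.b8
  rw [dz_Zs _ (cell_rv (Dp_cell hD) le_rfl) (cell_rw (Dp_cell hD))]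
  have t1 := (dZ_Q (K := K) hT hQ).mono (c' := 1) (e' := 2) (n' := C.a j + 2 * b - C.μ) hK le_rfl
    (by omega) (by omega)
  have t2 := ((v_err (K := K) (C := C) (b := b) x).mul (dX_Q (K := K) hT hQ)).mono (c' := 1)
    (e' := 2) (n' := C.a j + 2 * b - C.μ) hK (by omega) (by omega) (by omega)
  have t3 := ((w_err (K := K) (C := C) (b := b) x).mul (dN_Q hR hJ hx hD hT hQ hc0)).mono (c' := 44)
    (e' := 2) (n' := C.a j + 2 * b - C.μ) hK (by omega) (by omega) (by omega)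
  exact (t1.sub t2).sub t3

end close

/-! ### the frames of `j` and `k` -/

/-- nominal functional of the step `j`, written at the time of the step `k` -/
noncomputable def Fjk (C : Pth Ω τ) (j k b : ℕ) (ω : Ω) : Fu :=
  (C.Fr j b (C.R j b) ω).sh (C.s k ω - C.s j ω)

/-- ratio -/
noncomputable def rjk (C : Pth Ω τ) (j k b : ℕ) (ω : Ω) : ℝ :=
  (Fjk C j k b ω).cN (C.l ω) (C.s k ω) / (Fn C k b (C.R k b) ω).cN (C.l ω) (C.s k ω)

/-- difference of the functionals of `j` and `k` -/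
noncomputable def Gjk (C : Pth Ω τ) (j k b : ℕ) (ω : Ω) : Fu :=
  cmb (Fjk C j k b ω) (Fn C k b (C.R k b) ω) (rjk C j k b ω)

lemma sz_Gjk (hJ : Rj C j k b) (hok : C.Ok K x) :
    Sz K (C.rk j) (C.a k) (Gjk C j k b x) (C.l x) (C.s k x) := by
  have hag := hok.ag j k hJ.jk
  exact sz_of (K_one hok) ⟨hag.cN, hag.ka, hag.al⟩ (hok.n1 k) (hok.k1 k) (hok.a1 k) rfl

lemma rjk_bd (hok : C.Ok K x) : Bd K 1 2 0 (rjk C j k b x) := by
  have hK := K_one hok
  have e1 : (Fjk C j k b x).cN (C.l x) (C.s k x) = (C.F j x).cN (C.l x) (C.s j x) := by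
    have h := Fu.cN_sh (C.Fr j b (C.R j b) x) (C.l x) (C.s j x) (C.s k x - C.s j x)
    rw [add_sub_cancel] at h
    exact h
  have h1 : Bd K 1 1 0 ((Fjk C j k b x).cN (C.l x) (C.s k x)) := by
    rw [e1]
    exact Bd.of_le (cN_abs hok)
  have h2 : 0 < (Fn C k b (C.R k b) x).cN (C.l x) (C.s k x) := cN_pos (i := k) hok
  have h3 : Bd K 1 1 0 (1 / (Fn C k b (C.R k b) x).cN (C.l x) (C.s k x)) := Bd.of_le (by
    rw [abs_of_pos (by positivity), div_le_iff₀ h2]
    exact hok.n1 k)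
  refine (h1.mul h3).congr ?_
  unfold rjk
  rw [mul_one_div]

lemma Gjk_cV (hR : Reg C k i' b) (hJ : Rj C j k b) (hok : C.Ok K x) :
    Bd K 4 3 (C.rf j) ((Gjk C j k b x).cV (C.l x) (C.s k x)) := by
  have hK := K_one hok
  have hfj := C.hf hJ.jk
  have c1 : (Fjk C j k b x).cV (C.l x) (C.s k x) =
      C.p x * (C.F j x).cN (C.l x) (C.s j x) - rs C j b (C.R j b) x := by
    have h := Fu.cV_sh (C.Fr j b (C.R j b) x) (C.l x) (C.s j x) (C.s k x - C.s j x)
    rw [add_sub_cancel] at h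
    exact h.trans (cV_Fr x)
  have c2 : (Fn C k b (C.R k b) x).cV (C.l x) (C.s k x) =
      C.p x * (C.F k x).cN (C.l x) (C.s k x) - res C k b (C.R k b) x := cV_Fn x
  have e1 : (Fjk C j k b x).cN (C.l x) (C.s k x) = (C.F j x).cN (C.l x) (C.s j x) := by
    have h := Fu.cN_sh (C.Fr j b (C.R j b) x) (C.l x) (C.s j x) (C.s k x - C.s j x)
    rw [add_sub_cancel] at h
    exact h
  have e2 : rjk C j k b x * (C.F k x).cN (C.l x) (C.s k x) = (C.F j x).cN (C.l x) (C.s j x) := by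
    have h2 : 0 < (C.F k x).cN (C.l x) (C.s k x) := cN_pos hok
    unfold rjk
    rw [e1]
    show _ / (C.F k x).cN (C.l x) (C.s k x) * _ = _
    rw [div_mul_cancel₀ _ h2.ne']
  have h1 := (rs_bd (b := b) hok (le_of_eq hJ.R)).mono (c' := 2) (e' := 3) (n' := C.rf j) hK le_rfl
    (by omega) (by rw [hJ.R])
  have h2 := ((rjk_bd (j := j) (k := k) (b := b) hok).mul (res_bd C K k b (C.R k b) x)).mono
    (c' := 2) (e' := 3) (n' := C.rf j) hK (by omega) (by omega) (by rw [hR.Rk]; omega)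
  refine ((h2.sub h1).congr ?_)
  unfold Gjk
  rw [cmb_cV, c1, c2]
  linear_combination (C.p x) * e2

/-- the slope of the step `j` at another point of the cell of `k` -/
lemma sl_close (hR : Reg C k i' b) (hJ : Rj C j k b) (hx : C.Ok K x) (hy : C.Ok K y)
    (hD : Dp C k b x = Dp C k b y) : Bd K 24 3 (C.rf j) (C.sl j b y - C.sl j b x) := by
  have hK := K_one hx
  have hb8 := hR.b8; have hf := hR.f8; have hf2 := hJ.f8; have hRj := hJ.R; have hRk := hR.Rk
  have hfj := C.hf hJ.jk; have ha := C.ha hJ.jk; have hj4 := hJ.hj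
  have hTk := Dp_T hD
  have hTj : C.T j x = C.T j y := T_mono hJ.jk hTk
  have hsk : C.s k x = C.s k y := s_T hTk
  have hsj : C.s j x = C.s j y := s_T hTj
  have hn := nr_cell hK (Dp_cell hD) hb8
  have hL : Lvl (C.rk j) (C.a k) (C.a k) b C.μ (C.rf j) := by constructor <;> omega
  have h1 := sz_cN hK (sz_Gjk hJ hx) hn hL
  have h2 := sz_cV hK (sz_Gjk hJ hx) hn hL
  have h3 := Gjk_cV hR hJ hx
  have h4 : Bd K 2 3 (C.rf j) (rjk C j k b x * res C k b (C.R k b) y) :=
    ((rjk_bd (j := j) (k := k) (b := b) hx).mul (res_bd C K k b (C.R k b) y)).mono hK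
      (by omega) (by omega) (by rw [hR.Rk]; omega)
  have hp : Bd K 1 0 (2 * C.μ) (C.p y) := Bd.mk0 hy.p1
  have h5 := (hp.mul h1).mono (c' := 8) (e' := 3) (n' := C.rf j) hK (by omega) (by omega) (by omega)
  have h6 := (slR_near (i := j) (b := b) hy).mono (c' := 1) (e' := 3) (n' := C.rf j) hK le_rfl
    (by omega) le_rfl
  have h7 : Bd K 1 3 (C.rf j) (C.ro 4 (C.R j b) (C.sl j b x) - C.sl j b x) :=
    (Bd.mk0 (ro_err 4 (C.R j b) _)).mono hK le_rfl (by omega) (by rw [hJ.R])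
  have h8 := ((((h4.add h5).sub h2).sub h3).sub h6).add h7
  refine (h8.congr ?_).mono hK (by omega) le_rfl le_rfl
  -- the identity
  have hv : rd (C.bs j b) (C.l x).v = rd (C.bs j b) (C.l y).v :=
    cell_rv (Dp_cell hD) (by unfold Pth.bs; omega)
  have e1 : C.p y * (Fjk C j k b x).cN (C.l y) (C.s k x) -
      (Fjk C j k b x).cV (C.l y) (C.s k x) = slR C j b y - C.ro 4 (C.R j b) (C.sl j b x) := by
    have g1 := Fu.cN_sh (C.Fr j b (C.R j b) x) (C.l y) (C.s j x) (C.s k x - C.s j x)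
    have g2 := Fu.cV_sh (C.Fr j b (C.R j b) x) (C.l y) (C.s j x) (C.s k x - C.s j x)
    rw [add_sub_cancel] at g1 g2
    unfold Fjk
    rw [g1, g2]
    unfold slR
    show C.p y * (C.ga j (C.T j x) - C.ka j (C.T j x) * (C.l y).w -
      C.al j (C.T j x) * (C.l y).N (C.s j x)) -
      (C.ro 4 (C.R j b) (C.sl j b x) - C.ka j (C.T j x) * rd (C.bs j b) (C.l x).v +
        C.ka j (C.T j x) * (C.l y).v + C.al j (C.T j x) * (C.l y).X (C.s j x)) =
      C.p y * (C.ga j (C.T j y) - C.ka j (C.T j y) * (C.l y).w -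
      C.al j (C.T j y) * (C.l y).N (C.s j y)) -
      C.ka j (C.T j y) * ((C.l y).v - rd (C.bs j b) (C.l y).v) -
      C.al j (C.T j y) * (C.l y).X (C.s j y) - C.ro 4 (C.R j b) (C.sl j b x)
    rw [hTj, hsj, hv]
    ring
  have e2 : C.p y * (Fn C k b (C.R k b) x).cN (C.l y) (C.s k x) -
      (Fn C k b (C.R k b) x).cV (C.l y) (C.s k x) = res C k b (C.R k b) y := by
    rw [Dp_Fn hD, hsk, cV_Fn]
    show C.p y * (C.F k y).cN (C.l y) (C.s k y) - (C.p y * (C.F k y).cN (C.l y) (C.s k y) - _) = _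
    ring
  unfold Gjk
  rw [cmb_cN, cmb_cV, cmb_cV]
  linear_combination (-rjk C j k b x) * e2 + e1

lemma sh_sh (F : Fu) (d d' : ℝ) : (F.sh d).sh d' = F.sh (d + d') := by
  unfold Fu.sh
  ext <;> simp
  ring

lemma cmb_sh (F G : Fu) (ρ d : ℝ) : (cmb F G ρ).sh d = cmb (F.sh d) (G.sh d) ρ := by
  unfold Fu.sh cmb
  ext <;> simp
  ring

/-- the seventh component of `A` -/
noncomputable def gj (C : Pth Ω τ) (j i' b : ℕ) (ω : Ω) : ℝ :=
  ((C.Fr j b (C.R j b) ω).sh (C.s i' ω - C.s j ω)).g (C.l ω) (C.s i' ω)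

/-- the normal position of level `j`, given the slope digits -/
lemma dgj_Q (hR : Reg C k i' b) (hJ : Rj C j k b) (hx : C.Ok K x)
    (hD : Dp C k b x = Dp C k b y) (hT : Th C i' b x = Th C i' b y)
    (hQ : Ql C j k i' b c0 x = Ql C j k i' b c0 y) (hc0 : c0 ≤ C.rf j)
    (hsl : fl1 (C.R j b) (C.sl j b x + C.o 4) = fl1 (C.R j b) (C.sl j b y + C.o 4)) :
    Bd K (2 ^ c0 + 4062) 7 (C.a j + b + C.R j b) (gj C j i' b y - gj C j i' b x) := by
  have hK := K_one hx
  have hb8 := hR.b8; have hf := hR.f8; have hf2 := hJ.f8; have hRj := hJ.R; have hRk := hR.Rk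
  have hfj := C.hf hJ.jk; have ha := C.ha hJ.jk; have hj4 := hJ.hj; have ham := hJ.am
  have hTj : C.T j x = C.T j y := T_mono hJ.jk (Dp_T hD)
  have hsj : C.s j x = C.s j y := s_T hTj
  have hsi := Th_s hT
  have hF : C.Fr j b (C.R j b) x = C.Fr j b (C.R j b) y := Fr_eq hTj (Dp_v hD) hsl
  have hSz := sz_Gjk hJ hx
  set d := C.s i' x - C.s k x with hd
  -- the difference of the two functionals at the late time
  have hG : (Gjk C j k b x).sh d = cmb ((C.Fr j b (C.R j b) x).sh (C.s i' x - C.s j x))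
      (Fk C k i' b x) (rjk C j k b x) := by
    unfold Gjk Fjk Fk
    rw [cmb_sh, sh_sh]
    congr 2
    rw [hd]
    ring
  have e0 := Fu.g_sub ((Gjk C j k b x).sh d) (C.l x) (C.l y) (C.s i' x)
  have hcN : ((Gjk C j k b x).sh d).cN (C.l x) (C.s i' x) = 0 := by
    have h := Fu.cN_sh (Gjk C j k b x) (C.l x) (C.s k x) d
    rw [show C.s k x + d = C.s i' x by rw [hd]; ring] at h
    rw [h]
    exact hSz.cN
  have hcV : ((Gjk C j k b x).sh d).cV (C.l x) (C.s i' x) = (Gjk C j k b x).cV (C.l x) (C.s k x) := by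
    have h := Fu.cV_sh (Gjk C j k b x) (C.l x) (C.s k x) d
    rwa [show C.s k x + d = C.s i' x by rw [hd]; ring] at h
  have hka : Bd K 4 3 (C.rk j) ((Gjk C j k b x).sh d).ka := by
    have h1 : Bd K 1 0 (C.a k + 0) d := Bd.mk0 (s_near hR.ki x)
    refine ((hSz.ka.sub ((hSz.al.mulA h1).mono (c' := 2) (e' := 3) (n' := C.rk j) hK (by omega)
      (by omega) (by omega))).congr ?_)
    show (Gjk C j k b x).ka - (Gjk C j k b x).al * d =
      (Gjk C j k b x).ka - d * (Gjk C j k b x).al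
    ring
  have hal : Bd K 2 3 (C.rk j) (((Gjk C j k b x).sh d).al * q2 (C.a k)) := hSz.al
  rw [hcN, hcV] at e0
  have dX := dX_Q (K := K) hT hQ
  have dN := dN_Q hR hJ hx hD hT hQ hc0
  have dz := dz_Q hR hJ hx hD hT hQ hc0
  have t1 := ((rjk_bd (j := j) (k := k) (b := b) hx).mul ((dg_Q (K := K) hD hT hQ).up
    (by omega))).mono (c' := 2 ^ c0) (e' := 7) (n' := C.a j + b + C.R j b) hK (by omega)
    (by omega) (by omega)
  have t2 := ((Gjk_cV hR hJ hx).mul dX).mono (c' := 4) (e' := 7) (n' := C.a j + b + C.R j b) hK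
    (by omega) (by omega) (by omega)
  have t3 := (hka.mul dz).mono (c' := 184) (e' := 7) (n' := C.a j + b + C.R j b) hK
    (by omega) (by omega) (by omega)
  have x1 := (dX.mul dX).mono (c' := 1) (e' := 4) (n' := C.a k + (2 * C.a j + 2 * b - C.a k)) hK
    (by omega) (by omega) (by omega)
  have x2 := (dN.mul dN).mono (c' := 1936) (e' := 4) (n' := C.a k + (2 * C.a j + 2 * b - C.a k)) hK
    (by omega) (by omega) (by omega)
  have t4 := ((hal.mulA (x1.add x2)).mono (c' := 3874) (e' := 7) (n' := C.a j + b + C.R j b) hK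
    (by omega) (by omega) (by omega)).half
  refine ((((t1.sub t2).sub t3).sub t4).congr ?_).mono hK (by omega) le_rfl le_rfl
  rw [hG, cmb_g, cmb_g] at e0
  unfold gj
  rw [← hF, ← hsj, ← hsi]
  rw [hG]
  linear_combination (-1 : ℝ) * e0

/-! ### counting -/

/-- integers close to `z` -/
lemma mem_Icc_near {M : ℕ} {z z' : ℤ} (h : |z' - z| ≤ (M : ℤ) + 1) :
    z' ∈ Finset.Icc (z - (M + 1)) (z + (M + 1)) := by
  rw [Finset.mem_Icc]
  have := abs_le.1 h
  constructor <;> linarith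

lemma card_Icc_near (M : ℕ) (z : ℤ) : (Finset.Icc (z - (M + 1)) (z + (M + 1))).card = 2 * M + 3 := by
  rw [Int.card_Icc]
  have : z + (M + 1) + 1 - (z - (M + 1)) = ((2 * M + 3 : ℕ) : ℤ) := by push_cast; ring
  rw [this, Int.toNat_natCast]

/-- **`A j b i'` has a bounded number of values given `(Ql, Dp, Th)`** -/
theorem A_le [Fintype Ω] (P : Law Ω) (hR : Reg C k i' b) (hJ : Rj C j k b)
    (hok : ∀ ω, 0 < P.w ω → C.Ok K ω) (hc0 : c0 ≤ C.rf j) (M : ℕ)
    (hM : ((2 ^ c0 + 4062 : ℕ) : ℝ) * K ^ 7 ≤ M) :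
    hc P (C.A j b i') (fun ω => (Ql C j k i' b c0 ω, (Dp C k b ω, Th C i' b ω))) ≤
      3 * Real.log (2 * M + 3) := by
  classical
  have hpow : 1 ≤ 2 ^ c0 := Nat.one_le_two_pow
  have hb0 : ∀ (c e n : ℕ) (z : ℝ), 1 ≤ K → c ≤ 2 ^ c0 + 4062 → e ≤ 7 → Bd K c e n z →
      |z| ≤ M * q2 n := by
    intro c e n z hK hc he h
    have h1 := h.mono (c' := 2 ^ c0 + 4062) (e' := 7) (n' := n) hK hc he le_rfl
    unfold Bd at h1
    exact h1.trans (mul_le_mul_of_nonneg_right hM (q2_pos n).le)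
  -- the slope digits
  have s1 : hc P (fun ω => fl1 (C.R j b) (C.sl j b ω + C.o 4))
      (fun ω => (Ql C j k i' b c0 ω, (Dp C k b ω, Th C i' b ω))) ≤ Real.log ((2 * M + 3 : ℕ) : ℝ) := by
    refine hc_le_log P _ _ (2 * M + 3) ?_
    intro x px
    refine ⟨Finset.Icc (fl1 (C.R j b) (C.sl j b x + C.o 4) - (M + 1))
      (fl1 (C.R j b) (C.sl j b x + C.o 4) + (M + 1)), (card_Icc_near M _).le, ?_⟩
    intro y py e
    simp only [Prod.mk.injEq] at e
    have hx := hok x px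
    have hK := K_one hx
    refine mem_Icc_near (Vale.Agent.P106.U.H364.fl1_le_of_near (M := M) ?_)
    rw [add_sub_add_right_eq_sub, hJ.R]
    exact hb0 24 3 _ _ hK (by omega) (by omega) (sl_close hR hJ hx (hok y py) e.2.1.symm)
  -- the rest
  have s2 : hc P (C.A j b i') (fun ω => (fl1 (C.R j b) (C.sl j b ω + C.o 4),
      (Ql C j k i' b c0 ω, (Dp C k b ω, Th C i' b ω)))) ≤
      Real.log (((2 * M + 3) * (2 * M + 3) : ℕ) : ℝ) := by
    refine hc_le_log P _ _ ((2 * M + 3) * (2 * M + 3)) ?_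
    intro x px
    refine ⟨((Finset.Icc (fl1 (C.a j + b) ((C.l x).N (C.s i' x)) - (M + 1))
      (fl1 (C.a j + b) ((C.l x).N (C.s i' x)) + (M + 1))) ×ˢ
      (Finset.Icc (fl1 (C.a j + b + C.R j b) (gj C j i' b x) - (M + 1))
      (fl1 (C.a j + b + C.R j b) (gj C j i' b x) + (M + 1)))).image
      (fun q : ℤ × ℤ => (fl1 b (C.l x).v, fl1 (b - C.μ) ((C.l x).w + C.o 1),
        fl1 (C.a j + b) ((C.l x).X (C.s i' x)), q.1, fl1 (C.a j + 2 * b) (C.Zs b (C.s i' x) x),
        fl1 (C.R j b) (C.sl j b x + C.o 4), q.2)), ?_, ?_⟩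
    · refine Finset.card_image_le.trans ?_
      rw [Finset.card_product, card_Icc_near, card_Icc_near]
    · intro y py e
      simp only [Prod.mk.injEq] at e
      obtain ⟨e1, e2, e3, e4⟩ := e
      have hx := hok x px
      have hK := K_one hx
      have hD := e3.symm
      have hT := e4.symm
      rw [Finset.mem_image]
      refine ⟨(fl1 (C.a j + b) ((C.l y).N (C.s i' y)), fl1 (C.a j + b + C.R j b) (gj C j i' b y)),
        ?_, ?_⟩
      · rw [Finset.mem_product]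
        constructor
        · refine mem_Icc_near (Vale.Agent.P106.U.H364.fl1_le_of_near (M := M) ?_)
          have h := dN_Q hR hJ hx hD hT e2.symm hc0
          rw [Th_s hT] at h
          have h5 := hb0 44 2 _ _ hK (by omega) (by omega) h
          rw [← Th_s hT] at h5
          rw [← Th_s hT]
          exact h5
        · refine mem_Icc_near (Vale.Agent.P106.U.H364.fl1_le_of_near (M := M) ?_)
          exact hb0 _ _ _ _ hK le_rfl le_rfl (dgj_Q hR hJ hx hD hT e2.symm hc0 e1.symm)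
      · have f1 : fl1 b (C.l x).v = fl1 b (C.l y).v := Dp_v hD
        have f2 : fl1 (b - C.μ) ((C.l x).w + C.o 1) = fl1 (b - C.μ) ((C.l y).w + C.o 1) :=
          cell_fl (Dp_cell hD) 1
        have f3 := (Prod.mk.inj e2).1
        have f4 := (Prod.mk.inj (Prod.mk.inj e2).2).1
        simp only
        rw [f1, f2, ← f3, ← f4, ← e1]
        rfl
  have h := hc_le_add P (C.A j b i') (fun ω => fl1 (C.R j b) (C.sl j b ω + C.o 4))
    (fun ω => (Ql C j k i' b c0 ω, (Dp C k b ω, Th C i' b ω)))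
  push_cast at s1 s2
  rw [Real.log_mul (by positivity) (by positivity)] at s2
  linarith

end Vale.Agent.P106.U.H683
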