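import Vale.Agent.P106.U.H683.PhiG

/-!
# P106 / U / H683 : consequences of the late cell and of the fine cell (helper683)

* same `(Dp, Th)` and same late cell `(i', b)` : the late positions and the late derivative are close
  (`X_late`, `Zs_late`, `g_late`, `gdi_late`).
* same `Dp` and same fine cell `(k, b')` : the early data are close (`X_fine`, `Zs_fine`, `g_fine`, `gd_fine`).
-/

set_option autoImplicit false

namespace Vale.Agent.P106.U.H683

open Vale.Agent.P127 Vale.Agent.P127.Stk Vale.Agent.P106.U.Cell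
open Vale.Agent.P127.U.CellD (q2 rd rd_le lt_rd rd_err rd_mono rd_sub q2_pos q2_le q2_add q2_mul_pow
  div_pow_eq fl1_fl1)

variable {Ω τ : Type} {C : Pth Ω τ} {K : ℝ} {k i i' b b' m n : ℕ} {x y r : Ω}

/-- two functionals which differ by the slope -/
lemma g_ph {F G : Fu} {l l' : Ray} {s : ℝ} (h1 : F.ga = G.ga) (h3 : F.ka = G.ka) (h4 : F.al = G.al) :
    F.g l' s - F.g l s = (G.g l' s - G.g l s) - (F.ph - G.ph) * (l'.X s - l.X s) := by
  unfold Fu.g
  rw [h1, h3, h4]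
  ring

lemma gd_ph {F G : Fu} {l l' : Ray} {s : ℝ} (h1 : F.ga = G.ga) (h3 : F.ka = G.ka) (h4 : F.al = G.al) :
    F.gd l' s - F.gd l s = (G.gd l' s - G.gd l s) - (F.ph - G.ph) * (l'.v - l.v) := by
  unfold Fu.gd
  rw [h1, h3, h4]
  ring

lemma va5 (i b : ℕ) (ω : Ω) : C.va i b ω 5 =
    (C.Fr i b (C.R i b - 3 * C.μ) ω).gd (C.l ω) (C.s i ω) := rfl

lemma va6 (i b : ℕ) (ω : Ω) : C.va i b ω 6 =
    (C.Fr i b (C.R i b - 3 * C.μ) ω).g (C.l ω) (C.s i ω) := rfl

lemma va3 (i b : ℕ) (ω : Ω) : C.va i b ω 3 = C.Zs b (C.s i ω) ω := rfl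

lemma lv5 (i b : ℕ) : C.lv i b 5 = C.R i b + b - 5 * C.μ := rfl

lemma lv6 (i b : ℕ) : C.lv i b 6 = C.a i + b + C.R i b - 7 * C.μ := rfl

lemma lv3 (i b : ℕ) : C.lv i b 3 = C.a i + 2 * b - 3 * C.μ := rfl

lemma cell_5 (h : C.cell k b x = C.cell k b y) :
    |(C.Fr k b (C.R k b - 3 * C.μ) x).gd (C.l x) (C.s k x) -
      (C.Fr k b (C.R k b - 3 * C.μ) y).gd (C.l y) (C.s k y)| ≤ q2 (C.R k b + b - 5 * C.μ) := by
  rw [← va5, ← va5, ← lv5]
  exact cell_va h 5

lemma cell_6 (h : C.cell k b x = C.cell k b y) :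
    |(C.Fr k b (C.R k b - 3 * C.μ) x).g (C.l x) (C.s k x) -
      (C.Fr k b (C.R k b - 3 * C.μ) y).g (C.l y) (C.s k y)| ≤ q2 (C.a k + b + C.R k b - 7 * C.μ) := by
  rw [← va6, ← va6, ← lv6]
  exact cell_va h 6

lemma cell_3 (h : C.cell k b x = C.cell k b y) :
    |C.Zs b (C.s k x) x - C.Zs b (C.s k y) y| ≤ q2 (C.a k + 2 * b - 3 * C.μ) := by
  rw [← va3, ← va3, ← lv3]
  exact cell_va h 3

/-- the nominal functional and the functional of the cell -/
lemma Fn_g (l l' : Ray) (s : ℝ) : (Fn C i b n x).g l' s - (Fn C i b n x).g l s =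
    ((C.Fr i b' m x).g l' s - (C.Fr i b' m x).g l s) -
      ((Fn C i b n x).ph - (C.Fr i b' m x).ph) * (l'.X s - l.X s) :=
  g_ph rfl rfl rfl

lemma Fn_gd (l l' : Ray) (s : ℝ) : (Fn C i b n x).gd l' s - (Fn C i b n x).gd l s =
    ((C.Fr i b' m x).gd l' s - (C.Fr i b' m x).gd l s) -
      ((Fn C i b n x).ph - (C.Fr i b' m x).ph) * (l'.v - l.v) :=
  gd_ph rfl rfl rfl

/-- roundings to different numbers of digits -/
lemma Fn_ph_sub (hok : C.Ok K x) (hmn : m ≤ n) (hmf : m ≤ C.rf i) (hsl : C.sl i b' x = C.sl i b x)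
    (hbs : C.bs i b' = C.bs i b) : Bd K 3 1 m ((Fn C i b n x).ph - (C.Fr i b' m x).ph) := by
  have hK := K_one hok
  have h1 : Bd K 1 0 n (C.ro 4 n (slR C i b x) - slR C i b x) := Bd.mk0 (ro_err 4 n _)
  have h2 : Bd K 1 0 m (C.ro 4 m (C.sl i b x) - C.sl i b x) := Bd.mk0 (ro_err 4 m _)
  have h3 := slR_near (i := i) (b := b) hok
  refine (((h1.mono (c' := 1) (e' := 1) (n' := m) hK le_rfl (by omega) hmn).add
    (h3.mono (c' := 1) (e' := 1) (n' := m) hK le_rfl le_rfl hmf)).sub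
    (h2.mono (c' := 1) (e' := 1) (n' := m) hK le_rfl (by omega) le_rfl)).congr ?_
  show _ = (C.ro 4 n (slR C i b x) - (C.F i x).ka * rd (C.bs i b) (C.l x).v) -
      (C.ro 4 m (C.sl i b' x) - (C.F i x).ka * rd (C.bs i b') (C.l x).v)
  rw [hsl, hbs]
  ring

/-! ### the same late cell -/

section late

lemma late_nr (hR : Reg C k i' b) (hok : C.Ok K x) (h : C.cell i' b x = C.cell i' b y) :
    Nr K 3 (C.a i') b C.μ (C.l x) (C.l y) (C.s i' x) := nr_cell (K_one hok) h hR.b8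

lemma late_Fe (h : C.cell i' b x = C.cell i' b y) :
    C.Fr i' b (C.R i' b - 3 * C.μ) x = C.Fr i' b (C.R i' b - 3 * C.μ) y :=
  Fr_eq (cell_T h) (cell_v h) (cell_fl h 4)

/-- the late functional, differences of the values -/
lemma gi_late (hR : Reg C k i' b) (hok : C.Ok K x) (hT : Th C i' b x = Th C i' b y)
    (h : C.cell i' b x = C.cell i' b y) : Bd K 10 1 (C.a i' + b + C.rf i' - 7 * C.μ)
      ((Fi C i' b x).g (C.l y) (C.s i' x) - (Fi C i' b x).g (C.l x) (C.s i' x)) := by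
  have hK := K_one hok
  have h2 := hR.f8; have h3 := hR.b8; have h4 := hR.hf; have h5 := hR.ha
  have hRi := hR.Ri
  have h6 := cell_6 h
  rw [← late_Fe h, ← Th_s hT, hRi] at h6
  have b6 := (Bd.mk0 (K := K) h6).symm
  have b7 : Bd K 3 1 (C.rf i' - 3 * C.μ)
      ((Fn C i' b (C.rf i') x).ph - (C.Fr i' b (C.rf i' - 3 * C.μ) x).ph) :=
    Fn_ph_sub hok (by omega) (by omega) rfl rfl
  have hn := late_nr hR hok h
  have t := (b7.mul hn.X).mono (c' := 9) (e' := 1) (n' := C.a i' + b + C.rf i' - 7 * C.μ) hK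
    (by omega) (by omega) (by omega)
  unfold Fi
  rw [hRi]
  exact ((b6.mono (c' := 1) (e' := 1) hK le_rfl (by omega) le_rfl).sub t).congr
    (Fn_g (b' := b) (m := C.rf i' - 3 * C.μ) _ _ _).symm

/-- the late functional, differences of the derivatives -/
lemma gdi_late (hR : Reg C k i' b) (hok : C.Ok K x) (hT : Th C i' b x = Th C i' b y)
    (h : C.cell i' b x = C.cell i' b y) : Bd K 4 1 (C.rf i' + b - 5 * C.μ)
      ((Fi C i' b x).gd (C.l y) (C.s i' x) - (Fi C i' b x).gd (C.l x) (C.s i' x)) := by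
  have hK := K_one hok
  have h2 := hR.f8; have h3 := hR.b8; have h4 := hR.hf
  have hRi := hR.Ri
  have h5 := cell_5 h
  rw [← late_Fe h, ← Th_s hT, hRi] at h5
  have b5 := (Bd.mk0 (K := K) h5).symm
  have b7 : Bd K 3 1 (C.rf i' - 3 * C.μ)
      ((Fn C i' b (C.rf i') x).ph - (C.Fr i' b (C.rf i' - 3 * C.μ) x).ph) :=
    Fn_ph_sub hok (by omega) (by omega) rfl rfl
  have hn := late_nr hR hok h
  have t := (b7.mul hn.v).mono (c' := 3) (e' := 1) (n' := C.rf i' + b - 5 * C.μ) hK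
    (by omega) (by omega) (by omega)
  unfold Fi
  rw [hRi]
  exact ((b5.mono (c' := 1) (e' := 1) hK le_rfl (by omega) le_rfl).sub t).congr
    (Fn_gd (b' := b) (m := C.rf i' - 3 * C.μ) _ _ _).symm

/-- the early functional at the late time -/
lemma g_late (hR : Reg C k i' b) (hok : C.Ok K x)
    (hT : Th C i' b x = Th C i' b y) (h : C.cell i' b x = C.cell i' b y) :
    Bd K 74 3 (C.a k + b + C.rf k + C.μ)
      ((Fk C k i' b x).g (C.l y) (C.s i' x) - (Fk C k i' b x).g (C.l x) (C.s i' x)) := by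
  have hK := K_one hok
  have h1 := hR.hf; have h2 := hR.f8; have h3 := hR.b8; have h4 := hR.ha
  have hn := late_nr hR hok h
  have g1 := (sz_g hK (sz_Gd hR hok) hn hR.lvl').mono (c' := 42) (e' := 3)
    (n' := C.a k + b + C.rf k + C.μ) hK (by omega) le_rfl (by omega)
  have c1 := (Gd_cV hR hok).mono (c' := 2) (e' := 3) (n' := C.rf k) hK le_rfl le_rfl (by omega)
  have c2 := (res_bd C K k b (C.R k b) x).mono (c' := 2) (e' := 3) (n' := C.rf k) hK (by omega)
    (by omega) (le_of_eq hR.Rk.symm)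
  have g2 := ((c1.sub c2).mul hn.X).mono (c' := 12) (e' := 3) (n' := C.a k + b + C.rf k + C.μ) hK
    (by omega) (by omega) (by omega)
  have g3 := ((rh_bd (k := k) (i' := i') (b := b) hok).mul (gi_late hR hok hT h)).mono (c' := 20)
    (e' := 3) (n' := C.a k + b + C.rf k + C.μ) hK (by omega) (by omega) (by omega)
  refine (((g1.sub g2).add g3).congr ?_).mono hK (by omega) le_rfl le_rfl
  unfold Gd
  rw [cmb_g, cmb_g]
  ring

end late

/-! ### the same fine cell -/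

section fine

lemma fine_nr (hR : Reg C k i' b) (hb : b + 8 * C.μ ≤ b') (hok : C.Ok K x)
    (h : C.cell k b' x = C.cell k b' y) :
    Nr K 3 (C.a k) b' C.μ (C.l x) (C.l y) (C.s k x) :=
  nr_cell (K_one hok) h (by have := hR.b8; omega)

lemma g_fine (hR : Reg C k i' b) (hb : b + 8 * C.μ ≤ b') (hok : C.Ok K x)
    (h : C.cell k b' x = C.cell k b' y) :
    Bd K 10 1 (C.a k + b' + C.rf k - 7 * C.μ)
      ((Fn C k b (C.R k b) x).g (C.l y) (C.s k x) - (Fn C k b (C.R k b) x).g (C.l x) (C.s k x)) := by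
  have hK := K_one hok
  have h2 := hR.f8; have h3 := hR.b8
  have hs : C.s k x = C.s k y := s_T (cell_T h)
  have hRk := hR.Rk
  have hRk' := hR.Rk' (show b ≤ b' by omega)
  have hF : C.Fr k b' (C.R k b' - 3 * C.μ) x = C.Fr k b' (C.R k b' - 3 * C.μ) y :=
    Fr_eq (cell_T h) (cell_v h) (cell_fl h 4)
  have h6 := cell_6 h
  rw [← hF, ← hs, hRk'] at h6
  have b6 := (Bd.mk0 (K := K) h6).symm
  have b7 : Bd K 3 1 (C.rf k - 3 * C.μ)
      ((Fn C k b (C.rf k) x).ph - (C.Fr k b' (C.rf k - 3 * C.μ) x).ph) :=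
    Fn_ph_sub hok (by omega) (by omega) (hR.slk' (by omega) x) (by rw [hR.bsk' (by omega), hR.bsk])
  have hn := fine_nr hR hb hok h
  have t := (b7.mul hn.X).mono (c' := 9) (e' := 1) (n' := C.a k + b' + C.rf k - 7 * C.μ) hK
    (by omega) (by omega) (by omega)
  rw [hRk]
  exact ((b6.mono (c' := 1) (e' := 1) hK le_rfl (by omega) le_rfl).sub t).congr
    (Fn_g (b' := b') (m := C.rf k - 3 * C.μ) _ _ _).symm

lemma gd_fine (hR : Reg C k i' b) (hb : b + 8 * C.μ ≤ b') (hok : C.Ok K x)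
    (h : C.cell k b' x = C.cell k b' y) :
    Bd K 4 1 (C.rf k + b' - 5 * C.μ)
      ((Fn C k b (C.R k b) x).gd (C.l y) (C.s k x) - (Fn C k b (C.R k b) x).gd (C.l x) (C.s k x)) := by
  have hK := K_one hok
  have h2 := hR.f8; have h3 := hR.b8
  have hs : C.s k x = C.s k y := s_T (cell_T h)
  have hRk := hR.Rk
  have hRk' := hR.Rk' (show b ≤ b' by omega)
  have hF : C.Fr k b' (C.R k b' - 3 * C.μ) x = C.Fr k b' (C.R k b' - 3 * C.μ) y :=
    Fr_eq (cell_T h) (cell_v h) (cell_fl h 4)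
  have h5 := cell_5 h
  rw [← hF, ← hs, hRk'] at h5
  have b5 := (Bd.mk0 (K := K) h5).symm
  have b7 : Bd K 3 1 (C.rf k - 3 * C.μ)
      ((Fn C k b (C.rf k) x).ph - (C.Fr k b' (C.rf k - 3 * C.μ) x).ph) :=
    Fn_ph_sub hok (by omega) (by omega) (hR.slk' (by omega) x) (by rw [hR.bsk' (by omega), hR.bsk])
  have hn := fine_nr hR hb hok h
  have t := (b7.mul hn.v).mono (c' := 3) (e' := 1) (n' := C.rf k + b' - 5 * C.μ) hK
    (by omega) (by omega) (by omega)
  rw [hRk]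
  exact ((b5.mono (c' := 1) (e' := 1) hK le_rfl (by omega) le_rfl).sub t).congr
    (Fn_gd (b' := b') (m := C.rf k - 3 * C.μ) _ _ _).symm

/-- the null coordinate at the own time, for the base of the cap `b` -/
lemma Zs_fine (hR : Reg C k i' b) (hb : b + 8 * C.μ ≤ b') (hok : C.Ok K x)
    (hD : Dp C k b x = Dp C k b y) (h : C.cell k b' x = C.cell k b' y) :
    Bd K 13 0 (C.a k + b + b' - 2 * C.μ) (C.Zs b (C.s k x) y - C.Zs b (C.s k x) x) := by
  have hK := K_one hok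
  have h3 := hR.b8
  have hs : C.s k x = C.s k y := s_T (cell_T h)
  have h4 := cell_3 h
  rw [← hs] at h4
  have b3 := (Bd.mk0 (K := K) h4).symm
  have hn := fine_nr hR hb hok h
  have hv : Bd K 1 0 b (rd b' (C.l x).v - rd b (C.l x).v) := Bd.mk0 (rd_sub (by omega) _)
  have hw : Bd K 2 0 (b - C.μ) (C.ro 1 (b' - C.μ) (C.l x).w - C.ro 1 (b - C.μ) (C.l x).w) := by
    have e1 : Bd K 1 0 (b' - C.μ) (C.ro 1 (b' - C.μ) (C.l x).w - (C.l x).w) :=
      Bd.mk0 (ro_err 1 (b' - C.μ) (C.l x).w)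
    have e2 : Bd K 1 0 (b - C.μ) (C.ro 1 (b - C.μ) (C.l x).w - (C.l x).w) :=
      Bd.mk0 (ro_err 1 (b - C.μ) (C.l x).w)
    refine ((e1.mono (c' := 1) (e' := 0) (n' := b - C.μ) hK le_rfl le_rfl (by omega)).sub e2).congr ?_
    ring
  have t1 := (hv.mul hn.X).mono (c' := 3) (e' := 0) (n' := C.a k + b + b' - 2 * C.μ) hK (by omega)
    (by omega) (by omega)
  have t2 := (hw.mul hn.N).mono (c' := 6) (e' := 0) (n' := C.a k + b + b' - 2 * C.μ) hK (by omega)
    (by omega) (by omega)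
  have t3 := b3.mono (c' := 1) (e' := 0) (n' := C.a k + b + b' - 2 * C.μ) hK (by omega)
    (by omega) (by omega)
  refine (((t3.add t1).add t2).congr ?_).mono hK (by omega) le_rfl le_rfl
  have v1 : rd b (C.l x).v = rd b (C.l y).v := cell_rv (Dp_cell hD) le_rfl
  have v2 : rd b' (C.l x).v = rd b' (C.l y).v := cell_rv h le_rfl
  have w1 := cell_rw (Dp_cell hD)
  have w2 := cell_rw h
  unfold Pth.Zs
  rw [← v1, ← v2, ← w1, ← w2]
  ring

end fine

end Vale.Agent.P106.U.H683
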