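import Vale.Agent.P106.U.H683.PhiE
import Vale.Agent.P106.U.H683.SatP

/-!
# P106 / U / H683 : the geometry of the N-step over the cells, deep phi regime (helper683)

`geoPhi` : the hypotheses `GeoG` of the abstract N-step for `D = (cell k b, slope)`, `Θ = (T i', slope of i')`,
`W = (cell k b', v to b + p digits)`, `E = cell i' b`.
-/

set_option autoImplicit false

namespace Vale.Agent.P106.U.H683

open Finset Vale.Agent.P127 Vale.Agent.P127.Stk Vale.Agent.P106.U.Cell Vale.Agent.P106.TV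
open Vale.Agent.P127.U.CellD (q2 rd rd_le lt_rd rd_err rd_mono rd_sub q2_pos q2_le q2_add q2_mul_pow
  div_pow_eq fl1_fl1)

variable {Ω τ : Type}

/-! ### representatives -/

/-- a representative of the value `y` of `Y` in the support -/
noncomputable def rp [Fintype Ω] [Nonempty Ω] {β : Type*} (P : Law Ω) (Y : Ω → β) (y : β) : Ω :=
  Classical.epsilon fun r => 0 < P.w r ∧ Y r = y

lemma rp_spec [Fintype Ω] [Nonempty Ω] {β : Type*} (P : Law Ω) (Y : Ω → β) {ω : Ω} (h : 0 < P.w ω) :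
    0 < P.w (rp P Y (Y ω)) ∧ Y (rp P Y (Y ω)) = Y ω :=
  Classical.epsilon_spec (p := fun r => 0 < P.w r ∧ Y r = Y ω) ⟨ω, h, rfl⟩

lemma near_fl {n n' : ℕ} (hn : n ≤ n') {x y : ℝ} (h : fl1 n x = fl1 n y) :
    |rd n' x - rd n' y| ≤ q2 n := by
  have h0 : rd n x = rd n y := by unfold rd; rw [h]
  have a1 := rd_mono hn x
  have a2 := rd_le n' x
  have a3 := lt_rd n x
  have b1 := rd_mono hn y
  have b2 := rd_le n' y
  have b3 := lt_rd n y
  rw [abs_le]
  constructor <;> linarith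

section defs

variable [Fintype Ω] [Nonempty Ω] (P : Law Ω) (C : Pth Ω τ) (k i' b b' p c0 : ℕ)

/-- the fine label -/
noncomputable def Wl (ω : Ω) : (τ × Pth.Dg) × ℤ := (C.cell k b' ω, fl1 (b + p) (C.l ω).v)

/-- the direction, in units -/
noncomputable def ex (d w : (τ × Pth.Dg) × ℤ) : ℝ := 2 ^ b * ((w.2 : ℝ) / 2 ^ (b + p)) - (d.1.2.1 : ℝ)

/-- the pair (cell, late letter) -/
noncomputable def Yp (ω : Ω) : ((τ × Pth.Dg) × ℤ) × (τ × ℤ) := (Dp C k b ω, Th C i' b ω)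

/-- difference of the late times, in units -/
noncomputable def Sf (θ θ' : τ × ℤ) : ℝ := 2 ^ C.a k * (C.tv i' θ'.1 - C.tv i' θ.1)

/-- relative slope of the late letter, in units -/
noncomputable def Gf (d : (τ × Pth.Dg) × ℤ) (θ' : τ × ℤ) : ℝ :=
  2 ^ (C.R k b - c0) * res C k b (C.R k b) (rp P (Yp C k i' b) (d, θ'))

/-- the part of the derivative which is known given the cell, the late letter and the late cell -/
noncomputable def An (r ω : Ω) : ℝ :=
  rh C k i' b r * (Fi C i' b ω).gd (C.l ω) (C.s i' ω) +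
    ((Fk C k i' b r).gd (C.l r) (C.s i' r) - rh C k i' b r * (Fi C i' b r).gd (C.l r) (C.s i' r)) -
    res C k b (C.R k b) r * ((C.l r).v - rd b (C.l r).v)

/-- the late position in the early frame, in units -/
noncomputable def piN (ω : Ω) : Fin 3 → ℝ :=
  ![2 ^ (C.a k + b) * (C.l ω).X (C.s i' ω), 2 ^ (C.a k + 2 * b) * C.Zs b (C.s i' ω) ω,
    2 ^ (C.a k + b + C.R k b - c0) * (Fk C k i' b ω).g (C.l ω) (C.s i' ω)]

/-- the position moved to the time of the letter `θ` -/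
noncomputable def beN (θ : τ × ℤ) (ω : Ω) : Fin 3 → ℝ :=
  ![2 ^ (C.a k + b) * (C.l ω).X (C.s i' ω) -
      Sf C k i' θ (Th C i' b ω) * (2 ^ b * rd b (C.l ω).v),
    2 ^ (C.a k + 2 * b) * C.Zs b (C.s i' ω) ω -
      Sf C k i' θ (Th C i' b ω) * (2 ^ (2 * b) *
        ((((C.l (rp P (Yp C k i' b) (Yp C k i' b ω))).w - C.ro 1 (b - C.μ) (C.l ω).w) ^ 2 -
          (rd b (C.l ω).v ^ 2 + C.ro 1 (b - C.μ) (C.l ω).w ^ 2)) / 2)),
    2 ^ (C.a k + b + C.R k b - c0) * (Fk C k i' b ω).g (C.l ω) (C.s i' ω) -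
      Sf C k i' θ (Th C i' b ω) * (2 ^ (b + C.R k b - c0) *
        An C k i' b (rp P (Yp C k i' b) (Yp C k i' b ω)) ω)]

end defs

variable {C : Pth Ω τ} {K : ℝ} {k i' b b' p c0 : ℕ} {x y r : Ω}

lemma Sf_eq (x y : Ω) : Sf C k i' (Th C i' b x) (Th C i' b y) =
    2 ^ C.a k * (C.s i' y - C.s i' x) := by
  unfold Sf Th
  simp only
  rw [tv_T, tv_T]

lemma Sf_le (hki : k ≤ i') (h : C.T k x = C.T k y) :
    |Sf C k i' (Th C i' b x) (Th C i' b y)| ≤ 1 := by
  rw [Sf_eq, abs_mul, abs_of_pos (by positivity : (0 : ℝ) < 2 ^ C.a k)]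
  have h1 : fl1 (C.a k) (C.t y) = fl1 (C.a k) (C.t x) := by
    rw [← C.htm, ← C.htm, h]
  calc (2 : ℝ) ^ C.a k * |C.s i' y - C.s i' x| ≤ 2 ^ C.a k * q2 (C.a k) :=
        mul_le_mul_of_nonneg_left (near_fl (C.ha hki) h1) (by positivity)
    _ = 1 := q2_mul_pow _

lemma ex_eq (hD : Dp C k b x = Dp C k b y) :
    ex b p (Dp C k b x) (Wl C k b b' p y) = 2 ^ b * (rd (b + p) (C.l y).v - rd b (C.l y).v) := by
  have h1 := Dp_v hD
  unfold ex Dp Wl Pth.cell Pth.dg rd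
  simp only
  rw [h1]
  have : (0 : ℝ) < 2 ^ b := by positivity
  field_simp

lemma ex_mem (hD : Dp C k b x = Dp C k b y) :
    0 ≤ ex b p (Dp C k b x) (Wl C k b b' p y) ∧ ex b p (Dp C k b x) (Wl C k b b' p y) ≤ 1 := by
  rw [ex_eq hD]
  have h1 := rd_mono (show b ≤ b + p by omega) (C.l y).v
  have h2 := rd_le (b + p) (C.l y).v
  have h3 := lt_rd b (C.l y).v
  have h4 := q2_mul_pow b
  have h5 : (0 : ℝ) < 2 ^ b := by positivity
  constructor
  · have := mul_nonneg h5.le (sub_nonneg.2 h1)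
    exact this
  · have : rd (b + p) (C.l y).v - rd b (C.l y).v ≤ q2 b := by linarith
    calc (2 : ℝ) ^ b * (rd (b + p) (C.l y).v - rd b (C.l y).v) ≤ 2 ^ b * q2 b :=
          mul_le_mul_of_nonneg_left this h5.le
      _ = 1 := h4

/-- the direction in units, up to the precision -/
lemma ex_err (hK : 1 ≤ K) (hp : C.μ ≤ p) (hD : Dp C k b x = Dp C k b y) :
    Bd K 1 0 C.μ (2 ^ b * ((C.l y).v - rd b (C.l y).v) - ex b p (Dp C k b x) (Wl C k b b' p y)) := by
  rw [ex_eq hD]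
  have h1 : Bd K 1 0 (b + p) ((C.l y).v - rd (b + p) (C.l y).v) := (Bd.mk0 (rd_err _ _)).symm
  refine (h1.scale (s := b) (n' := C.μ) hK (by omega)).congr ?_
  ring

lemma Gf_le [Fintype Ω] [Nonempty Ω] {P : Law Ω} (hR : Reg C k i' b)
    (hok : ∀ ω, 0 < P.w ω → C.Ok K ω) (hc : 2 * K ≤ 2 ^ c0) (hc0 : c0 ≤ C.rf k)
    (hD : Dp C k b x = Dp C k b y) (hy : 0 < P.w y) :
    |Gf P C k i' b c0 (Dp C k b x) (Th C i' b y)| ≤ 1 := by
  obtain ⟨h1, _⟩ := rp_spec P (Yp C k i' b) hy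
  have e1 : (Dp C k b x, Th C i' b y) = Yp C k i' b y := by
    unfold Yp
    rw [hD]
  unfold Gf
  rw [e1]
  have h2 := (res_bd C K k b (C.R k b) (rp P (Yp C k i' b) (Yp C k i' b y))).mono (c' := 2)
    (e' := 1) (n' := C.R k b) (K_one (hok _ h1)) (by omega) (by omega) le_rfl
  unfold Bd at h2
  rw [abs_mul, abs_of_pos (by positivity : (0 : ℝ) < 2 ^ (C.R k b - c0))]
  have e2 : (2 : ℝ) ^ C.R k b = 2 ^ (C.R k b - c0) * 2 ^ c0 := by
    rw [← pow_add, Nat.sub_add_cancel (by rw [hR.Rk]; exact hc0)]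
  have e3 := q2_mul_pow (C.R k b)
  have e4 : (0 : ℝ) < 2 ^ (C.R k b - c0) := by positivity
  have e5 := q2_pos (C.R k b)
  calc (2 : ℝ) ^ (C.R k b - c0) * |res C k b (C.R k b) (rp P (Yp C k i' b) (Yp C k i' b y))| ≤
        2 ^ (C.R k b - c0) * ((2 : ℕ) * K ^ 1 * q2 (C.R k b)) :=
        mul_le_mul_of_nonneg_left h2 e4.le
    _ = (2 * K) * (2 ^ (C.R k b - c0) * q2 (C.R k b)) := by push_cast; ring
    _ ≤ 2 ^ c0 * (2 ^ (C.R k b - c0) * q2 (C.R k b)) :=
        mul_le_mul_of_nonneg_right hc (mul_pos e4 e5).le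
    _ = 1 := by rw [← e3, e2]; ring

/-! ### the three coordinates -/

/-- first coordinate -/
lemma co0 (hR : Reg C k i' b) (hb : b + 8 * C.μ ≤ b') (hp : C.μ ≤ p) (hok : C.Ok K x)
    (hD : Dp C k b x = Dp C k b y) (hW : Wl C k b b' p x = Wl C k b b' p y) :
    Bd K 5 0 C.μ (2 ^ (C.a k + b) * (C.l y).X (C.s i' y) -
      Sf C k i' (Th C i' b x) (Th C i' b y) * (2 ^ b * rd b (C.l y).v) -
      2 ^ (C.a k + b) * (C.l x).X (C.s i' x) -
      Sf C k i' (Th C i' b x) (Th C i' b y) * ex b p (Dp C k b x) (Wl C k b b' p x)) := by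
  have hK := K_one hok
  have hcW : C.cell k b' x = C.cell k b' y := (Prod.mk.inj hW).1
  have hn := fine_nr hR hb hok hcW
  have hs : C.s k x = C.s k y := s_T (Dp_T hD)
  have h3 := hR.b8
  have t1 := hn.X.scale (s := C.a k + b) (n' := C.μ) hK (by omega)
  have t2 := ((Bd.mk0 (K := K) (s_near (C := C) hR.ki y)).mul hn.v).scale (s := C.a k + b) (n' := C.μ) hK
    (by omega)
  have hS : Bd K 1 0 0 (Sf C k i' (Th C i' b x) (Th C i' b y)) :=
    Bd.const (by simpa using Sf_le (b := b) hR.ki (Dp_T hD))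
  have t3 := hS.mul (ex_err (k := k) (b := b) (b' := b') (p := p) hK hp (x := x) (y := x) rfl)
  have e1 : (C.l y).X (C.s i' y) = (C.l y).X (C.s k y) + (C.s i' y - C.s k y) * (C.l y).v := by
    rw [← Ray.X_add]; congr 1; ring
  have e2 : (C.l x).X (C.s i' x) = (C.l x).X (C.s k x) + (C.s i' x - C.s k x) * (C.l x).v := by
    rw [← Ray.X_add]; congr 1; ring
  refine (((t1.add (t2.mono (c' := 1) (e' := 0) (n' := C.μ) hK (by omega) (by omega) le_rfl)).add
    (t3.mono (c' := 1) (e' := 0) (n' := C.μ) hK (by omega) (by omega) (by omega))).congr ?_).mono hK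
    (by omega) le_rfl le_rfl
  have hv : rd b (C.l y).v = rd b (C.l x).v := (cell_rv (Dp_cell hD) le_rfl).symm
  rw [e1, e2, hv, Sf_eq, hs, pow_add]
  ring

/-- the null coordinate at another time -/
lemma Zs_add (s d : ℝ) (ω : Ω) : C.Zs b (s + d) ω = C.Zs b s ω +
    d * ((((C.l ω).v - rd b (C.l ω).v) ^ 2 + ((C.l ω).w - C.ro 1 (b - C.μ) (C.l ω).w) ^ 2) / 2 -
      (rd b (C.l ω).v ^ 2 + C.ro 1 (b - C.μ) (C.l ω).w ^ 2) / 2) := by
  unfold Pth.Zs
  rw [Ray.Z_add, Ray.X_add, Ray.N_add]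
  ring

lemma v_err (ω : Ω) : Bd K 1 0 b ((C.l ω).v - rd b (C.l ω).v) := (Bd.mk0 (rd_err _ _)).symm

lemma w_err (ω : Ω) : Bd K 1 0 (b - C.μ) ((C.l ω).w - C.ro 1 (b - C.μ) (C.l ω).w) :=
  (Bd.mk0 (ro_err _ _ _)).symm

/-- second coordinate -/
lemma co1 (hR : Reg C k i' b) (hb : b + 8 * C.μ ≤ b') (hp : C.μ ≤ p) (hok : C.Ok K x)
    (hD : Dp C k b x = Dp C k b y) (hDr : Dp C k b x = Dp C k b r)
    (hW : Wl C k b b' p x = Wl C k b b' p y) :
    Bd K 64 2 C.μ (2 ^ (C.a k + 2 * b) * C.Zs b (C.s i' y) y -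
      Sf C k i' (Th C i' b x) (Th C i' b y) * (2 ^ (2 * b) *
        ((((C.l r).w - C.ro 1 (b - C.μ) (C.l y).w) ^ 2 -
          (rd b (C.l y).v ^ 2 + C.ro 1 (b - C.μ) (C.l y).w ^ 2)) / 2)) -
      2 ^ (C.a k + 2 * b) * C.Zs b (C.s i' x) x -
      Sf C k i' (Th C i' b x) (Th C i' b y) * (ex b p (Dp C k b x) (Wl C k b b' p x) ^ 2 / 2)) := by
  have hK := K_one hok
  have hcW : C.cell k b' x = C.cell k b' y := (Prod.mk.inj hW).1
  have hn := fine_nr hR hb hok hcW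
  have hs : C.s k x = C.s k y := s_T (Dp_T hD)
  have h3 := hR.b8
  have hS : Bd K 1 0 0 (Sf C k i' (Th C i' b x) (Th C i' b y)) :=
    Bd.const (by simpa using Sf_le (b := b) hR.ki (Dp_T hD))
  have hv : rd b (C.l y).v = rd b (C.l x).v := (cell_rv (Dp_cell hD) le_rfl).symm
  have hw : C.ro 1 (b - C.μ) (C.l y).w = C.ro 1 (b - C.μ) (C.l x).w := (cell_rw (Dp_cell hD)).symm
  have hwr : C.ro 1 (b - C.μ) (C.l r).w = C.ro 1 (b - C.μ) (C.l x).w := (cell_rw (Dp_cell hDr)).symm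
  have vx := v_err (K := K) (C := C) (b := b) x
  have vy := v_err (K := K) (C := C) (b := b) y
  have wx := w_err (K := K) (C := C) (b := b) x
  have wy := w_err (K := K) (C := C) (b := b) y
  have wr := w_err (K := K) (C := C) (b := b) r
  rw [hv] at vy
  rw [hw] at wy
  rw [hwr] at wr
  set vb := rd b (C.l x).v with hvb
  set wb := C.ro 1 (b - C.μ) (C.l x).w with hwb
  -- T1
  have t1 := (Zs_fine hR hb hok hD hcW).scale (s := C.a k + 2 * b) (n' := C.μ) hK (by omega)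
  -- T2
  have q1 := (hn.v.mul (vy.add vx)).mono (c' := 2) (e' := 0) (n' := b + b' - 2 * C.μ) hK (by omega)
    (by omega) (by omega)
  have q2' := (hn.w.mul (wy.add wx)).mono (c' := 2) (e' := 0) (n' := b + b' - 2 * C.μ) hK (by omega)
    (by omega) (by omega)
  have t2 := ((Bd.mk0 (K := K) (s_near (C := C) hR.ki y)).mul (q1.add q2').half).scale
    (s := C.a k + 2 * b) (n' := C.μ) hK (by omega)
  -- T3
  have e0 := ex_err (k := k) (b := b) (b' := b') (p := p) hK hp (x := x) (y := x) rfl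
  obtain ⟨m0, m1⟩ := ex_mem (C := C) (k := k) (b := b) (b' := b') (p := p) (x := x) (y := x) rfl
  set e := ex b p (Dp C k b x) (Wl C k b b' p x) with he
  have hsum : Bd K 2 0 0 (2 ^ b * ((C.l x).v - vb) + e) := by
    have a1 : Bd K 1 0 0 (2 ^ b * ((C.l x).v - vb)) := vx.scale (s := b) (n' := 0) hK (by omega)
    have a2 : Bd K 1 0 0 e := Bd.const (by rw [abs_of_nonneg m0]; simpa using m1)
    exact a1.add a2
  have t3 := (e0.mul hsum).half
  -- T4
  have w1 := w_cell hok (Dp_cell hDr) hR.b8 (by rw [hR.Rk]; exact hR.f8)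
  have t4 := ((w1.symm.mul (wx.add wr)).scale (s := 2 * b) (n' := C.μ) hK (by omega)).half
  refine (((t1.mono (c' := 13) (e' := 2) (n' := C.μ) hK le_rfl (by omega) le_rfl).add
    (t2.mono (c' := 4) (e' := 2) (n' := C.μ) hK (by omega) (by omega) le_rfl)).add
    (((hS.mul t3).mono (c' := 2) (e' := 2) (n' := C.μ) hK (by omega) (by omega) (by omega)).add
    ((hS.mul t4).mono (c' := 32) (e' := 2) (n' := C.μ) hK (by omega) (by omega)
      (by omega))) |>.congr ?_).mono hK (by omega) le_rfl le_rfl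
  have f1 : C.Zs b (C.s i' y) y = C.Zs b (C.s k x) y + (C.s i' y - C.s k x) *
      ((((C.l y).v - vb) ^ 2 + ((C.l y).w - wb) ^ 2) / 2 - (vb ^ 2 + wb ^ 2) / 2) := by
    have := Zs_add (C := C) (b := b) (C.s k x) (C.s i' y - C.s k x) y
    rw [add_sub_cancel, hv, hw] at this
    exact this
  have f2 : C.Zs b (C.s i' x) x = C.Zs b (C.s k x) x + (C.s i' x - C.s k x) *
      ((((C.l x).v - vb) ^ 2 + ((C.l x).w - wb) ^ 2) / 2 - (vb ^ 2 + wb ^ 2) / 2) := by
    have := Zs_add (C := C) (b := b) (C.s k x) (C.s i' x - C.s k x) x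
    rw [add_sub_cancel] at this
    exact this
  have e2 : (2 : ℝ) ^ (C.a k + 2 * b) = 2 ^ C.a k * (2 ^ b * 2 ^ b) := by
    rw [← pow_add, ← pow_add]
    congr 1
    omega
  have e3 : (2 : ℝ) ^ (2 * b) = 2 ^ b * 2 ^ b := by
    rw [← pow_add]
    congr 1
    omega
  rw [f1, f2, Sf_eq, hv, hw, e2, e3, hs]
  ring

/-- third coordinate -/
lemma co2 [Fintype Ω] [Nonempty Ω] (P : Law Ω) (hR : Reg C k i' b) (hb : b + 8 * C.μ ≤ b')
    (hp : C.μ ≤ p) (hok : ∀ ω, 0 < P.w ω → C.Ok K ω) (hc : 2 * K ≤ 2 ^ c0) (hc0 : c0 ≤ C.rf k)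
    (hx : 0 < P.w x) (hy : 0 < P.w y)
    (hD : Dp C k b x = Dp C k b y) (hW : Wl C k b b' p x = Wl C k b b' p y) :
    Bd K 64 3 C.μ (2 ^ (C.a k + b + C.R k b - c0) * (Fk C k i' b y).g (C.l y) (C.s i' y) -
      Sf C k i' (Th C i' b x) (Th C i' b y) * (2 ^ (b + C.R k b - c0) *
        An C k i' b (rp P (Yp C k i' b) (Yp C k i' b y)) y) -
      2 ^ (C.a k + b + C.R k b - c0) * (Fk C k i' b x).g (C.l x) (C.s i' x) -
      Sf C k i' (Th C i' b x) (Th C i' b y) *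
        (Gf P C k i' b c0 (Dp C k b x) (Th C i' b y) *
          ex b p (Dp C k b x) (Wl C k b b' p x))) := by
  have hokx := hok x hx
  have hoky := hok y hy
  have hK := K_one hokx
  have hcW : C.cell k b' x = C.cell k b' y := (Prod.mk.inj hW).1
  have hs : C.s k x = C.s k y := s_T (Dp_T hD)
  have h2 := hR.f8
  have h3 := hR.b8
  have hRk := hR.Rk
  obtain ⟨hr1, hr2⟩ := rp_spec P (Yp C k i' b) hy
  set r := rp P (Yp C k i' b) (Yp C k i' b y) with hrdef
  have hokr := hok r hr1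
  obtain ⟨hDr, hTr⟩ := Prod.mk.inj hr2
  have hS : Bd K 1 0 0 (Sf C k i' (Th C i' b x) (Th C i' b y)) :=
    Bd.const (by simpa using Sf_le (b := b) hR.ki (Dp_T hD))
  have t1 := (g_fine hR hb hokx hcW).scale (s := C.a k + b + C.R k b - c0) (n' := C.μ) hK (by omega)
  have t2 := ((Bd.mk0 (K := K) (s_near (C := C) hR.ki x)).mul (gd_fine hR hb hokx hcW)).scale
    (s := C.a k + b + C.R k b - c0) (n' := C.μ) hK (by omega)
  have t3 := hS.mul ((gd_pair hR hokr hDr hTr).scale (s := b + C.R k b - c0) (n' := C.μ) hK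
    (by omega))
  have hGf := Gf_le hR hok hc hc0 hD hy
  have hG : Gf P C k i' b c0 (Dp C k b x) (Th C i' b y) =
      2 ^ (C.R k b - c0) * res C k b (C.R k b) r := by
    unfold Gf
    rw [hrdef]
    congr 3
    unfold Yp
    rw [hD]
  have hG1 : Bd K 1 0 0 (Gf P C k i' b c0 (Dp C k b x) (Th C i' b y)) :=
    Bd.const (by simpa using hGf)
  have hex : ex b p (Dp C k b x) (Wl C k b b' p x) = ex b p (Dp C k b y) (Wl C k b b' p y) := by
    rw [hD, hW]
  have t4 := hS.mul (hG1.mul (ex_err (k := k) (b := b) (b' := b') (p := p) hK hp (x := y) (y := y) rfl))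
  refine ((((t1.mono (c' := 10) (e' := 3) (n' := C.μ) hK le_rfl (by omega) le_rfl).add
    (t2.mono (c' := 4) (e' := 3) (n' := C.μ) hK (by omega) (by omega) le_rfl)).add
    ((t3.mono (c' := 30) (e' := 3) (n' := C.μ) hK (by omega) (by omega) (by omega)).add
    (t4.mono (c' := 1) (e' := 3) (n' := C.μ) hK (by omega) (by omega) (by omega)))).congr ?_).mono hK
    (by omega) le_rfl le_rfl
  rw [hex, hG, Sf_eq]
  have f1 := Fk_g (C := C) (k := k) (i' := i') (b := b) y y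
  have f2 := Fk_g (C := C) (k := k) (i' := i') (b := b) x x
  have f3 := Fk_gd (C := C) (k := k) (i' := i') (b := b) y y
  rw [f1, f2, f3, ← Dp_Fn hD, ← hs]
  have e1 : (2 : ℝ) ^ (C.a k + b + C.R k b - c0) = 2 ^ C.a k * (2 ^ b * 2 ^ (C.R k b - c0)) := by
    rw [← pow_add, ← pow_add]
    congr 1
    omega
  have e2 : (2 : ℝ) ^ (b + C.R k b - c0) = 2 ^ b * 2 ^ (C.R k b - c0) := by
    rw [← pow_add]
    congr 1
    omega
  rw [e1, e2]
  unfold An
  ring

end Vale.Agent.P106.U.H683
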