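import Vale.Agent.P106.U.H683.PhiP
import Vale.Agent.P127.U.Mic.Sat

/-!
# P106 / U / H683 : `GeoG` over the cells and the cube form of the N-step, deep phi regime (helper683)
-/

set_option autoImplicit false

namespace Vale.Agent.P106.U.H683

open Finset Vale.Agent.P127 Vale.Agent.P127.Stk Vale.Agent.P106.U.Cell Vale.Agent.P106.TV
open Vale.Agent.P127.U.Pin Vale.Agent.P127.U.Mic
open Vale.Agent.P127.U.CellD (q2 rd rd_le lt_rd rd_err rd_mono rd_sub q2_pos q2_le q2_add q2_mul_pow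
  div_pow_eq fl1_fl1)

variable {Ω τ : Type} {C : Pth Ω τ} {K : ℝ} {k i' b b' p c0 : ℕ}

/-- the geometry of the N-step, deep phi regime -/
theorem geoPhi [Fintype Ω] [Nonempty Ω] (P : Law Ω) (hR : Reg C k i' b) (hb : b + 8 * C.μ ≤ b')
    (hp : C.μ ≤ p) (hok : ∀ ω, 0 < P.w ω → C.Ok K ω) (hc : 2 * K ≤ 2 ^ c0) (hc0 : c0 ≤ C.rf k) :
    GeoG P (Dp C k b) (Th C i' b) (Wl C k b b' p) (C.cell i' b) (ex b p) (piN C k i' b c0)
      (beN P C k i' b c0) (Fph (fun _ => Sf C k i') (fun d _ θ' => Gf P C k i' b c0 d θ'))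
      (fun _ => 128 * K ^ 3 * q2 C.μ) := by
  have key : ∀ x y, 0 < P.w x → Th C i' b x = Th C i' b y → C.cell i' b x = C.cell i' b y →
      Dp C k b x = Dp C k b y →
      Bd K 3 0 C.μ (2 ^ (C.a k + b) * (C.l x).X (C.s i' x) - 2 ^ (C.a k + b) * (C.l y).X (C.s i' y)) ∧
      Bd K 1 0 C.μ (2 ^ (C.a k + 2 * b) * C.Zs b (C.s i' x) x -
        2 ^ (C.a k + 2 * b) * C.Zs b (C.s i' y) y) ∧
      Bd K 74 3 C.μ (2 ^ (C.a k + b + C.R k b - c0) * (Fk C k i' b x).g (C.l x) (C.s i' x) -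
        2 ^ (C.a k + b + C.R k b - c0) * (Fk C k i' b y).g (C.l y) (C.s i' y)) := by
    intro x y px hT hE hD
    have hokx := hok x px
    have hK := K_one hokx
    have hs := Th_s hT
    have h1 := hR.ha; have h2 := hR.b8; have h3 := hR.Rk
    refine ⟨?_, ?_, ?_⟩
    · rw [← mul_sub, ← hs]
      exact (late_nr hR hokx hE).X.symm.scale hK (by omega)
    · rw [← mul_sub]
      exact (Bd.mk0 (cell_3 hE)).scale hK (by omega)
    · rw [← mul_sub, ← Fk_eq hD hT, ← hs]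
      exact (g_late hR hokx hT hE).symm.scale hK (by omega)
  refine ⟨?_, ?_, ?_⟩
  · intro x y px _ hD hT hE i
    have hK := K_one (hok x px)
    obtain ⟨k1, k2, k3⟩ := key x y px hT hE hD
    fin_cases i
    · exact (k1.mono (c' := 128) (e' := 3) (n' := C.μ) hK (by omega) (by omega) le_rfl).le (by push_cast; exact le_rfl)
    · exact (k2.mono (c' := 128) (e' := 3) (n' := C.μ) hK (by omega) (by omega) le_rfl).le (by push_cast; exact le_rfl)
    · exact (k3.mono (c' := 128) (e' := 3) (n' := C.μ) hK (by omega) (by omega) le_rfl).le (by push_cast; exact le_rfl)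
  · intro o x y _ px _ hDo hD hT hE i
    have hokx := hok x px
    have hK := K_one hokx
    have h1 := hR.hf; have h2 := hR.b8; have h3 := hR.Rk; have h4 := hR.f8
    obtain ⟨k1, k2, k3⟩ := key x y px hT hE hD
    have hv : rd b (C.l y).v = rd b (C.l x).v := (cell_rv (Dp_cell hD) le_rfl).symm
    have hw : C.ro 1 (b - C.μ) (C.l y).w = C.ro 1 (b - C.μ) (C.l x).w := (cell_rw (Dp_cell hD)).symm
    have hY : Yp C k i' b y = Yp C k i' b x := (Prod.ext hD hT).symm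
    have hS : Bd K 1 0 0 (Sf C k i' (Th C i' b o) (Th C i' b x)) :=
      Bd.const (by simpa using Sf_le (b := b) hR.ki (Dp_T hDo))
    fin_cases i
    · refine ((k1.congr ?_).mono (c' := 128) (e' := 3) (n' := C.μ) hK (by omega) (by omega) le_rfl).le
        (by push_cast; exact le_rfl)
      show _ = (2 ^ (C.a k + b) * (C.l x).X (C.s i' x) -
        Sf C k i' (Th C i' b o) (Th C i' b x) * (2 ^ b * rd b (C.l x).v)) -
        (2 ^ (C.a k + b) * (C.l y).X (C.s i' y) -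
        Sf C k i' (Th C i' b o) (Th C i' b y) * (2 ^ b * rd b (C.l y).v))
      rw [hv, ← hT]
      ring
    · refine ((k2.congr ?_).mono (c' := 128) (e' := 3) (n' := C.μ) hK (by omega) (by omega) le_rfl).le
        (by push_cast; exact le_rfl)
      show _ = (2 ^ (C.a k + 2 * b) * C.Zs b (C.s i' x) x -
        Sf C k i' (Th C i' b o) (Th C i' b x) * (2 ^ (2 * b) *
        ((((C.l (rp P (Yp C k i' b) (Yp C k i' b x))).w - C.ro 1 (b - C.μ) (C.l x).w) ^ 2 -
          (rd b (C.l x).v ^ 2 + C.ro 1 (b - C.μ) (C.l x).w ^ 2)) / 2))) -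
        (2 ^ (C.a k + 2 * b) * C.Zs b (C.s i' y) y -
        Sf C k i' (Th C i' b o) (Th C i' b y) * (2 ^ (2 * b) *
        ((((C.l (rp P (Yp C k i' b) (Yp C k i' b y))).w - C.ro 1 (b - C.μ) (C.l y).w) ^ 2 -
          (rd b (C.l y).v ^ 2 + C.ro 1 (b - C.μ) (C.l y).w ^ 2)) / 2)))
      rw [hv, hw, hY, ← hT]
      ring
    · have k4 := hS.mul (((rh_bd (k := k) (i' := i') (b := b)
        (hok _ (rp_spec P (Yp C k i' b) px).1)).mul (gdi_late (K := K) hR hokx hT hE)).scale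
        (s := b + C.R k b - c0) (n' := C.μ) hK (by omega))
      refine (((k3.add (k4.mono (c' := 4) (e' := 3) (n' := C.μ) hK (by omega) (by omega)
        (by omega))).congr ?_).mono (c' := 128) (e' := 3) (n' := C.μ) hK (by omega) (by omega)
        le_rfl).le (by push_cast; exact le_rfl)
      show _ = (2 ^ (C.a k + b + C.R k b - c0) * (Fk C k i' b x).g (C.l x) (C.s i' x) -
        Sf C k i' (Th C i' b o) (Th C i' b x) * (2 ^ (b + C.R k b - c0) *
        An C k i' b (rp P (Yp C k i' b) (Yp C k i' b x)) x)) -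
        (2 ^ (C.a k + b + C.R k b - c0) * (Fk C k i' b y).g (C.l y) (C.s i' y) -
        Sf C k i' (Th C i' b o) (Th C i' b y) * (2 ^ (b + C.R k b - c0) *
        An C k i' b (rp P (Yp C k i' b) (Yp C k i' b y)) y))
      rw [hY, ← hT]
      unfold An
      rw [← Fi_eq hD hT, ← Th_s hT]
      ring
  · intro x y px py hD hW i
    have hokx := hok x px
    have hK := K_one hokx
    fin_cases i
    · exact ((co0 hR hb hp hokx hD hW).mono (c' := 128) (e' := 3) (n' := C.μ) hK (by omega)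
        (by omega) le_rfl).le (by push_cast; exact le_rfl)
    · have hr := rp_spec P (Yp C k i' b) py
      exact ((co1 (r := rp P (Yp C k i' b) (Yp C k i' b y)) hR hb hp hokx hD
        (hD.trans (Prod.mk.inj hr.2).1.symm) hW).mono (c' := 128) (e' := 3) (n' := C.μ) hK (by omega)
        (by omega) le_rfl).le (by push_cast; exact le_rfl)
    · exact ((co2 P hR hb hp hok hc hc0 px py hD hW).mono (c' := 128) (e' := 3) (n' := C.μ) hK
        (by omega) le_rfl le_rfl).le (by push_cast; exact le_rfl)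

/-! ### the cube form -/

lemma far_real {n : ℕ} {x y : ℝ} (h : ¬ |fl1 n x - fl1 n y| ≤ ((1 : ℕ) : ℤ)) : q2 n ≤ |x - y| := by
  by_contra hcon
  push Not at hcon
  apply h
  have h1 := rd_le n x
  have h2 := lt_rd n x
  have h3 := rd_le n y
  have h4 := lt_rd n y
  have e1 : rd n x = (fl1 n x : ℝ) * q2 n := by unfold rd; rw [div_pow_eq]
  have e2 : rd n y = (fl1 n y : ℝ) * q2 n := by unfold rd; rw [div_pow_eq]
  have hq := q2_pos n
  rw [abs_lt] at hcon
  obtain ⟨c1, c2⟩ := hcon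
  have d1 : ((fl1 n x - fl1 n y : ℤ) : ℝ) * q2 n < 2 * q2 n := by
    push_cast
    rw [sub_mul, ← e1, ← e2]
    linarith
  have d2 : (-2 : ℝ) * q2 n < ((fl1 n x - fl1 n y : ℤ) : ℝ) * q2 n := by
    push_cast
    rw [sub_mul, ← e1, ← e2]
    linarith
  have d3 : ((fl1 n x - fl1 n y : ℤ) : ℝ) < 2 := lt_of_mul_lt_mul_right d1 hq.le
  have d4 : (-2 : ℝ) < ((fl1 n x - fl1 n y : ℤ) : ℝ) := lt_of_mul_lt_mul_right d2 hq.le
  have d5 : fl1 n x - fl1 n y < 2 := by exact_mod_cast d3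
  have d6 : -2 < fl1 n x - fl1 n y := by exact_mod_cast d4
  rw [abs_le]
  constructor <;> push_cast <;> omega

/-- numerology of the precision -/
lemma num_mu {K : ℝ} {m g μ : ℕ} (hK : 1 ≤ K)
    (hρ : 15 * 2 ^ (m + 8 * g + 7) * (128 * K ^ 3 * q2 μ) ≤ 1) : m + 8 * g + 7 ≤ μ := by
  by_contra hcon
  push Not at hcon
  have h1 : (2 : ℝ) ^ μ ≤ 2 ^ (m + 8 * g + 7) := pow_le_pow_right₀ (by norm_num) (by omega)
  have h2 := q2_mul_pow μ
  have h3 := q2_pos μ
  have h4 : (1 : ℝ) ≤ K ^ 3 := one_le_pow₀ hK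
  have h5 : (1 : ℝ) ≤ 2 ^ (m + 8 * g + 7) * q2 μ := by
    calc (1 : ℝ) = 2 ^ μ * q2 μ := h2.symm
      _ ≤ _ := mul_le_mul_of_nonneg_right h1 h3.le
  have h6 : (1 : ℝ) * 1 ≤ (2 ^ (m + 8 * g + 7) * q2 μ) * K ^ 3 :=
    mul_le_mul h5 h4 (by norm_num) (by positivity)
  nlinarith

/-- the slope part of the non-degeneracy -/
lemma Gf_far [Fintype Ω] [Nonempty Ω] {P : Law Ω} (hR : Reg C k i' b)
    (hok : ∀ ω, 0 < P.w ω → C.Ok K ω) (hc0 : c0 ≤ C.rf k) {m g : ℕ}
    (hρ : 15 * 2 ^ (m + 8 * (g + c0 + 1) + 7) * (128 * K ^ 3 * q2 C.μ) ≤ 1) {ω x y : Ω}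
    (px : 0 < P.w x) (py : 0 < P.w y)
    (hx : Dp C k b x = Dp C k b ω) (hy : Dp C k b y = Dp C k b ω)
    (h : ¬ |fl1 (C.rf k + g) (slR C k b x) - fl1 (C.rf k + g) (slR C k b y)| ≤ ((1 : ℕ) : ℤ)) :
    q2 (g + c0 + 1) ≤ |Gf P C k i' b c0 (Dp C k b ω) (Th C i' b y) -
      Gf P C k i' b c0 (Dp C k b ω) (Th C i' b x)| := by
  have hK := K_one (hok x px)
  have hmu := num_mu hK hρ
  have key : ∀ z, 0 < P.w z → Dp C k b z = Dp C k b ω →
      Bd K 24 3 (C.rf k + 5 * C.μ) (res C k b (C.R k b) z -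
        res C k b (C.R k b) (rp P (Yp C k i' b) (Dp C k b ω, Th C i' b z))) := by
    intro z pz hz
    obtain ⟨h1, h2⟩ := rp_spec P (Yp C k i' b) pz
    obtain ⟨h3, h4⟩ := Prod.mk.inj h2
    have e1 : (Dp C k b ω, Th C i' b z) = Yp C k i' b z := Prod.ext hz.symm rfl
    rw [e1]
    exact res_near hR (hok _ h1) (hok z pz) h3 h4
  have kx := key x px hx
  have ky := key y py hy
  unfold Bd at kx ky
  have h5 := far_real h
  have h6 : res C k b (C.R k b) x - res C k b (C.R k b) y = slR C k b x - slR C k b y := by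
    unfold res
    rw [Dp_ro (hx.trans hy.symm)]
    ring
  rw [← h6] at h5
  unfold Gf
  set rx := res C k b (C.R k b) (rp P (Yp C k i' b) (Dp C k b ω, Th C i' b x))
  set ry := res C k b (C.R k b) (rp P (Yp C k i' b) (Dp C k b ω, Th C i' b y))
  set ax := res C k b (C.R k b) x
  set ay := res C k b (C.R k b) y
  have h7 : |ax - ay| ≤ |ry - rx| + |ax - rx| + |ay - ry| := by
    have e : ax - ay = -(ry - rx) + (ax - rx) + -(ay - ry) := by ring
    rw [e]
    refine (abs_add_le _ _).trans (add_le_add ((abs_add_le _ _).trans ?_) ?_)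
    · rw [abs_neg]
    · rw [abs_neg]
  rw [← mul_sub, abs_mul, abs_of_pos (by positivity : (0 : ℝ) < 2 ^ (C.R k b - c0))]
  have h8 : q2 (C.rf k + g) - 48 * (K ^ 3 * q2 (C.rf k + 5 * C.μ)) ≤ |ry - rx| := by
    push_cast at kx ky
    linarith
  have h9 : 48 * (K ^ 3 * q2 (C.rf k + 5 * C.μ)) ≤ q2 (C.rf k + g) / 2 := by
    have a1 : q2 (5 * C.μ) ≤ q2 C.μ := q2_le (by omega)
    have a2 : (0 : ℝ) ≤ K ^ 3 := by positivity
    have a3 : (2 : ℝ) ^ g * q2 g = 1 := q2_mul_pow g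
    have a4 : (2 : ℝ) ^ g ≤ 2 ^ (m + 8 * (g + c0 + 1) + 7) :=
      pow_le_pow_right₀ (by norm_num) (by omega)
    have a5 := q2_pos C.μ
    have a6 := q2_pos g
    have a7 : 15 * 2 ^ g * (128 * K ^ 3 * q2 C.μ) ≤ 1 := by
      refine le_trans ?_ hρ
      have : (0 : ℝ) ≤ 128 * K ^ 3 * q2 C.μ := by positivity
      nlinarith
    have a8 : 1920 * (K ^ 3 * q2 C.μ) ≤ q2 g := by
      have := mul_le_mul_of_nonneg_right a7 a6.le
      have e : 15 * 2 ^ g * (128 * K ^ 3 * q2 C.μ) * q2 g =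
          1920 * (K ^ 3 * q2 C.μ) * (2 ^ g * q2 g) := by ring
      rw [e, a3, mul_one, one_mul] at this
      exact this
    have a9 : K ^ 3 * q2 (5 * C.μ) ≤ K ^ 3 * q2 C.μ := mul_le_mul_of_nonneg_left a1 a2
    rw [q2_add, q2_add]
    have a10 := q2_pos (C.rf k)
    have a11 : 48 * (K ^ 3 * q2 (5 * C.μ)) ≤ q2 g / 2 := by
      have : 0 ≤ K ^ 3 * q2 C.μ := by positivity
      linarith
    have a12 := mul_le_mul_of_nonneg_left a11 a10.le
    linarith
  have h10 : q2 (C.rf k + g) / 2 ≤ |ry - rx| := by linarith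
  have h11 := mul_le_mul_of_nonneg_left h10 (by positivity : (0 : ℝ) ≤ 2 ^ (C.R k b - c0))
  refine le_trans (le_of_eq ?_) h11
  rw [hR.Rk]
  have b1 : C.rf k + g = (C.rf k - c0) + (g + c0) := by omega
  rw [b1, q2_add (g + c0) 1, q2_add (C.rf k - c0) (g + c0)]
  have b2 := q2_mul_pow (C.rf k - c0)
  have b3 : q2 1 = 1 / 2 := by unfold q2; norm_num
  rw [b3]
  calc q2 (g + c0) * (1 / 2) = (2 ^ (C.rf k - c0) * q2 (C.rf k - c0)) * (q2 (g + c0) / 2) := by
        rw [b2]; ring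
    _ = _ := by ring

/-- **THE N-STEP OVER THE CELLS, DEEP PHI REGIME, cube form** -/
theorem satQ [Fintype Ω] (P : Law Ω) (hR : Reg C k i' b) (hb : b + 8 * C.μ ≤ b')
    (hp : C.μ ≤ p) (hpb : b + p ≤ b') (hok : ∀ ω, 0 < P.w ω → C.Ok K ω) (hKc : 2 * K ≤ 2 ^ c0)
    {m g : ℕ} (hm : 1 ≤ m) (hmg : m ≤ g)
    (hρ : 15 * 2 ^ (m + 8 * (g + c0 + 1) + 7) * (128 * K ^ 3 * q2 C.μ) ≤ 1) {ι₁ ι₂ : ℝ}
    (h1 : mi P (fun ω => fl1 (b + p) (C.l ω).v) (C.cell i' b)
      (fun ω => (Dp C k b ω, Th C i' b ω)) ≤ ι₁)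
    (h2 : mi P (Th C i' b) (C.cell k b') (Dp C k b) ≤ ι₂) :
    3 * m * Real.log 2 - (11 + 19 * m *
      (colp P (fun ω => fl1 (C.a k + g) (C.t ω)) (Dp C k b) +
        colp P (fun ω => fl1 (C.rf k + g) (slR C k b ω)) (Dp C k b) +
        colp P (fun ω => fl1 (b + g) (C.l ω).v) (Dp C k b)) +
      2 ^ (31 * (g + c0 + 1)) * (Real.sqrt ι₁ + Real.sqrt ι₂)) ≤
    hc P (fun ω => celi 1 (piN C k i' b c0 ω))
      (fun ω => (celi (2 ^ m) (piN C k i' b c0 ω), (Dp C k b ω, Th C i' b ω))) := by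
  have : Nonempty Ω := by
    by_contra h
    rw [not_nonempty_iff] at h
    have := P.sum_one
    simp at this
  obtain ⟨ω0, hω0⟩ : ∃ ω, 0 < P.w ω := by
    by_contra hcon
    push Not at hcon
    have h3 : ∑ ω, P.w ω ≤ 0 := Finset.sum_nonpos fun ω _ => hcon ω
    rw [P.sum_one] at h3
    norm_num at h3
  have hK := K_one (hok ω0 hω0)
  have hmu := num_mu hK hρ
  have h8 := hR.f8
  have hc0 : c0 ≤ C.rf k := by omega
  have hgeo := geoPhi P hR hb hp hok hKc hc0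
  refine satP P hgeo hm (show m ≤ g + c0 + 1 by omega) (fun ω => fl1 (C.a k + g) (C.t ω))
    (fun ω => fl1 (C.rf k + g) (slR C k b ω)) (fun ω => fl1 (b + g) (C.l ω).v)
    ?_ ?_ ?_ ?_ ?_ ?_ (by have := q2_pos C.μ; positivity) hρ ?_ ?_
  · intro ω ω' _ _ hD
    exact Sf_le hR.ki (Dp_T hD).symm
  · intro ω ω' _ p' hD
    exact Gf_le hR hok hKc hc0 hD.symm p'
  · intro ω ω' _ _ hD
    exact ex_mem hD.symm
  · intro ω ω' _ _ hD h
    rw [Sf_eq, abs_mul, abs_of_pos (by positivity : (0 : ℝ) < 2 ^ C.a k), abs_sub_comm]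
    have h3 := far_of_fl1 (n' := C.a i') (by have := hR.ha; omega) h
    have h4 := mul_le_mul_of_nonneg_left h3 (by positivity : (0 : ℝ) ≤ 2 ^ C.a k)
    rw [q2_add, ← mul_assoc, q2_mul_pow, one_mul] at h4
    exact (q2_le (by omega)).trans h4
  · intro ω x y _ px py hx hy h
    exact Gf_far hR hok hc0 hρ px py hx hy h
  · intro ω x y _ _ _ hx hy h
    rw [ex_eq hx.symm, ex_eq hy.symm]
    have hv : rd b (C.l x).v = rd b (C.l y).v := cell_rv (Dp_cell (hx.trans hy.symm)) le_rfl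
    rw [hv, ← mul_sub, sub_sub_sub_cancel_right, abs_mul,
      abs_of_pos (by positivity : (0 : ℝ) < 2 ^ b)]
    have h3 := far_of_fl1 (n' := b + p) (by omega) h
    have h4 := mul_le_mul_of_nonneg_left h3 (by positivity : (0 : ℝ) ≤ 2 ^ b)
    rw [q2_add, ← mul_assoc, q2_mul_pow, one_mul] at h4
    exact (q2_le (by omega)).trans h4
  · refine le_trans (mi_mono_left P _ ?_) h1
    intro x y _ _ e
    simp only [Prod.mk.injEq] at e
    unfold ex Wl
    simp only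
    rw [e.1, e.2.1]
  · refine le_trans (mi_mono_right P _ ?_) h2
    intro x y _ _ e
    simp only [Prod.mk.injEq] at e
    unfold Wl
    refine Prod.ext e.1 ?_
    exact fl1_fl1 hpb (cell_v e.1)

end Vale.Agent.P106.U.H683
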