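import Vale.Agent.P106.U.H683.PhiA

/-!
# P106 / U / H683 : **PSatN, deep phi regime, stepwise form** (helper683)

* `satA_a` : at an `a`-step (`a k = a j + m`, `rf k = rf j`) : `3 m log 2 - err ≤ H(A k | A j, cell k b, Θ)`.
* `satA_r` : at an `r`-step (`a k = a j`, `rf k = rf j + m`) : `m log 2 - err ≤ H(A k | A j, cell k b, Θ)`.
-/

set_option autoImplicit false

namespace Vale.Agent.P106.U.H683

open Finset Vale.Agent.P127 Vale.Agent.P127.Stk Vale.Agent.P106.U.Cell Vale.Agent.P106.TV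
open Vale.Agent.P127.U.Pin Vale.Agent.P127.U.Mic
open Vale.Agent.P127.U.CellD (q2 rd rd_le lt_rd rd_err rd_mono rd_sub q2_pos q2_le q2_add q2_mul_pow
  div_pow_eq fl1_fl1)

variable {Ω τ : Type} {C : Pth Ω τ} {K : ℝ} {j k i' b b' p c0 m : ℕ}

lemma floor_div_pow {n m : ℕ} (h : m ≤ n) (x : ℝ) : ⌊(2 : ℝ) ^ n * x / 2 ^ m⌋ = fl1 (n - m) x := by
  unfold fl1
  congr 1
  have : (2 : ℝ) ^ n = 2 ^ (n - m) * 2 ^ m := by rw [← pow_add, Nat.sub_add_cancel h]
  rw [this]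
  field_simp

lemma celi1_0 (ω : Ω) : celi 1 (piN C k i' b c0 ω) 0 = fl1 (C.a k + b) ((C.l ω).X (C.s i' ω)) := by
  show ⌊(2 : ℝ) ^ (C.a k + b) * (C.l ω).X (C.s i' ω) / 1⌋ = _
  rw [div_one]; rfl

lemma celi1_1 (ω : Ω) : celi 1 (piN C k i' b c0 ω) 1 = fl1 (C.a k + 2 * b) (C.Zs b (C.s i' ω) ω) := by
  show ⌊(2 : ℝ) ^ (C.a k + 2 * b) * C.Zs b (C.s i' ω) ω / 1⌋ = _
  rw [div_one]; rfl

lemma celi1_2 (ω : Ω) : celi 1 (piN C k i' b c0 ω) 2 =
    fl1 (C.a k + b + C.R k b - c0) ((Fk C k i' b ω).g (C.l ω) (C.s i' ω)) := by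
  show ⌊(2 : ℝ) ^ (C.a k + b + C.R k b - c0) * (Fk C k i' b ω).g (C.l ω) (C.s i' ω) / 1⌋ = _
  rw [div_one]; rfl

lemma celim_0 (h : m ≤ C.a k + b) (ω : Ω) : celi (2 ^ m) (piN C k i' b c0 ω) 0 =
    fl1 (C.a k + b - m) ((C.l ω).X (C.s i' ω)) := floor_div_pow h _

lemma celim_1 (h : m ≤ C.a k + 2 * b) (ω : Ω) : celi (2 ^ m) (piN C k i' b c0 ω) 1 =
    fl1 (C.a k + 2 * b - m) (C.Zs b (C.s i' ω) ω) := floor_div_pow h _

lemma celim_2 (h : m ≤ C.a k + b + C.R k b - c0) (ω : Ω) :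
    celi (2 ^ m) (piN C k i' b c0 ω) 2 =
    fl1 (C.a k + b + C.R k b - c0 - m) ((Fk C k i' b ω).g (C.l ω) (C.s i' ω)) := floor_div_pow h _

/-- the cube position has a bounded number of values given `A k b i'` -/
lemma Pi_le [Fintype Ω] (P : Law Ω) (hR : Reg C k i' b) (hok : ∀ ω, 0 < P.w ω → C.Ok K ω)
    (hc0 : c0 ≤ C.rf k) (M : ℕ) (hM : ((2 ^ c0 + 4062 : ℕ) : ℝ) * K ^ 7 ≤ M) :
    hc P (fun ω => celi 1 (piN C k i' b c0 ω)) (fun ω => (C.A k b i' ω, (Dp C k b ω, Th C i' b ω))) ≤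
      Real.log (2 * M + 3) := by
  classical
  have hh := hc_le_log P (fun ω => celi 1 (piN C k i' b c0 ω))
    (fun ω => (C.A k b i' ω, (Dp C k b ω, Th C i' b ω))) (2 * M + 3) ?_
  · push_cast at hh
    exact hh
  intro x px
  refine ⟨(Finset.Icc (celi 1 (piN C k i' b c0 x) 2 - (M + 1))
    (celi 1 (piN C k i' b c0 x) 2 + (M + 1))).image
    (fun q : ℤ => ![celi 1 (piN C k i' b c0 x) 0, celi 1 (piN C k i' b c0 x) 1, q]), ?_, ?_⟩
  · exact Finset.card_image_le.trans (card_Icc_near M _).le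
  · intro y py e
    simp only [Prod.mk.injEq] at e
    obtain ⟨e1, hD', hT'⟩ := e
    have hD := hD'.symm
    have hT := hT'.symm
    have hx := hok x px
    have hK := K_one hx
    have hRk := hR.Rk
    unfold Pth.A at e1
    simp only [Prod.mk.injEq] at e1
    obtain ⟨-, -, e2, -, e3, e5, e4⟩ := e1
    rw [Finset.mem_image]
    refine ⟨celi 1 (piN C k i' b c0 y) 2, ?_, ?_⟩
    · refine mem_Icc_near ?_
      rw [celi1_2, celi1_2]
      refine Vale.Agent.P106.U.H364.fl1_le_of_near (M := M) ?_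
      have hsi := Th_s hT
      have hsk : C.s k x = C.s k y := s_T (Dp_T hD)
      have hFr : C.Fr k b (C.R k b) x = C.Fr k b (C.R k b) y := Fr_eq (Dp_T hD) (Dp_v hD) e5.symm
      have h1 := near_fl1 e4
      rw [← hFr, ← hsi, ← hsk] at h1
      have dX := near_fl1 e2
      rw [← hsi] at dX
      have b1 : Bd K 1 0 (C.a k + b + C.R k b) _ := Bd.mk0 h1
      have b2 : Bd K 1 0 (C.a k + b) _ := Bd.mk0 dX
      have b3 : Bd K 3 1 (C.R k b) ((Fn C k b (C.R k b) x).ph - (C.Fr k b (C.R k b) x).ph) :=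
        Fn_ph_sub hx le_rfl (le_of_eq hRk) rfl rfl
      have b4 := (b3.mul b2).mono (c' := 3) (e' := 1) (n' := C.a k + b + C.R k b) hK (by omega)
        (by omega) (by omega)
      have b5 := (b1.mono (c' := 1) (e' := 1) (n' := C.a k + b + C.R k b) hK le_rfl (by omega)
        le_rfl).sub b4
      have b6 : Bd K 4 1 (C.a k + b + C.R k b) ((Fk C k i' b y).g (C.l y) (C.s i' y) -
          (Fk C k i' b x).g (C.l x) (C.s i' x)) := by
        refine b5.congr ?_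
        rw [← Fk_eq hD hT, ← hsi]
        exact (g_ph (F := Fk C k i' b x) (G := (C.Fr k b (C.R k b) x).sh (C.s i' x - C.s k x))
          rfl rfl rfl).symm
      have hpow : 1 ≤ 2 ^ c0 := Nat.one_le_two_pow
      have b7 := b6.mono (c' := 2 ^ c0 + 4062) (e' := 7) (n' := C.a k + b + C.R k b - c0) hK
        (by omega) (by omega) (by omega)
      unfold Bd at b7
      exact b7.trans (mul_le_mul_of_nonneg_right hM (q2_pos _).le)
    · funext i
      fin_cases i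
      · show celi 1 (piN C k i' b c0 x) 0 = celi 1 (piN C k i' b c0 y) 0
        rw [celi1_0, celi1_0]
        exact e2.symm
      · show celi 1 (piN C k i' b c0 x) 1 = celi 1 (piN C k i' b c0 y) 1
        rw [celi1_1, celi1_1]
        exact e3.symm
      · rfl

/-- from the cube to the stepwise position -/
lemma step_core [Fintype Ω] (P : Law Ω) (hR : Reg C k i' b) (hJ : Rj C j k b)
    (hok : ∀ ω, 0 < P.w ω → C.Ok K ω) (hc0 : c0 ≤ C.rf j) (M : ℕ)
    (hM : ((2 ^ c0 + 4062 : ℕ) : ℝ) * K ^ 7 ≤ M) (L : ℝ) :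
    hc P (fun ω => celi 1 (piN C k i' b c0 ω)) (fun ω => (Ql C j k i' b c0 ω,
      (celi L (piN C k i' b c0 ω), (Dp C k b ω, Th C i' b ω)))) - 4 * Real.log (2 * M + 3) ≤
    hc P (C.A k b i') (fun ω => (C.A j b i' ω, C.cell k b ω, Th C i' b ω)) := by
  set Q := Ql C j k i' b c0
  set Pi : Ω → Fin 3 → ℤ := fun ω => celi 1 (piN C k i' b c0 ω)
  set Pc : Ω → Fin 3 → ℤ := fun ω => celi L (piN C k i' b c0 ω)
  set Z : Ω → ((τ × Pth.Dg) × ℤ) × (τ × ℤ) := fun ω => (Dp C k b ω, Th C i' b ω)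
  have a1 : hc P (C.A k b i') (fun ω => (C.A j b i' ω, (Q ω, (Pc ω, Z ω)))) ≤
      hc P (C.A k b i') (fun ω => (C.A j b i' ω, C.cell k b ω, Th C i' b ω)) := by
    refine hc_mono_right P _ ?_
    intro x y _ _ e
    simp only [Prod.mk.injEq] at e
    obtain ⟨e1, -, -, e4⟩ := e
    obtain ⟨e5, e6⟩ := Prod.mk.inj e4
    show (_, _, _) = (_, _, _)
    rw [e1, e6, Dp_cell e5]
  have a2 := hc_le_add P Pi (C.A k b i') (fun ω => (C.A j b i' ω, (Q ω, (Pc ω, Z ω))))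
  have a2' : hc P Pi (fun ω => (C.A k b i' ω, (C.A j b i' ω, (Q ω, (Pc ω, Z ω))))) ≤
      hc P Pi (fun ω => (C.A k b i' ω, Z ω)) := by
    refine hc_mono_right P _ ?_
    intro x y _ _ e
    simp only [Prod.mk.injEq] at e
    exact Prod.ext e.1 e.2.2.2.2
  have a6 := Pi_le P hR hok (c0 := c0) (by have := C.hf hJ.jk; omega) M hM
  have a3 := hc_le_add' P Pi (C.A j b i') (fun ω => (Q ω, (Pc ω, Z ω)))
  have a4 : hc P (C.A j b i') (fun ω => (Q ω, (Pc ω, Z ω))) ≤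
      hc P (C.A j b i') (fun ω => (Q ω, Z ω)) := by
    refine hc_mono_right P _ ?_
    intro x y _ _ e
    simp only [Prod.mk.injEq] at e
    exact Prod.ext e.1 e.2.2
  have a5 := A_le P hR hJ hok hc0 M hM
  linarith

/-- the error of the N-step, deep phi regime -/
noncomputable def errN [Fintype Ω] (P : Law Ω) (C : Pth Ω τ) (k b c0 m g M : ℕ) (ι₁ ι₂ : ℝ) : ℝ :=
  11 + 4 * Real.log (2 * M + 3) + 19 * m *
      (colp P (fun ω => fl1 (C.a k + g) (C.t ω)) (Dp C k b) +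
        colp P (fun ω => fl1 (C.rf k + g) (slR C k b ω)) (Dp C k b) +
        colp P (fun ω => fl1 (b + g) (C.l ω).v) (Dp C k b)) +
      2 ^ (31 * (g + c0 + 1)) * (Real.sqrt ι₁ + Real.sqrt ι₂)

/-- **PSatN, deep phi regime, `a`-step** -/
theorem satA_a [Fintype Ω] (P : Law Ω) (hR : Reg C k i' b) (hJ : Rj C j k b) (hb : b + 8 * C.μ ≤ b')
    (hp : C.μ ≤ p) (hpb : b + p ≤ b') (hok : ∀ ω, 0 < P.w ω → C.Ok K ω) (hKc : 2 * K ≤ 2 ^ c0)
    {g M : ℕ} (hm : 1 ≤ m) (hmg : m ≤ g)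
    (hρ : 15 * 2 ^ (m + 8 * (g + c0 + 1) + 7) * (128 * K ^ 3 * q2 C.μ) ≤ 1)
    (hM : ((2 ^ c0 + 4062 : ℕ) : ℝ) * K ^ 7 ≤ M)
    (ha : C.a k = C.a j + m) (hf : C.rf k = C.rf j) {ι₁ ι₂ : ℝ}
    (h1 : mi P (fun ω => fl1 (b + p) (C.l ω).v) (C.cell i' b)
      (fun ω => (Dp C k b ω, Th C i' b ω)) ≤ ι₁)
    (h2 : mi P (Th C i' b) (C.cell k b') (Dp C k b) ≤ ι₂) :
    3 * m * Real.log 2 - errN P C k b c0 m g M ι₁ ι₂ ≤
    hc P (C.A k b i') (fun ω => (C.A j b i' ω, C.cell k b ω, Th C i' b ω)) := by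
  obtain ⟨ω0, hω0⟩ : ∃ ω, 0 < P.w ω := by
    by_contra hcon
    push Not at hcon
    have h3 : ∑ ω, P.w ω ≤ 0 := Finset.sum_nonpos fun ω _ => hcon ω
    rw [P.sum_one] at h3
    norm_num at h3
  have hmu := num_mu (K_one (hok ω0 hω0)) hρ
  have h8 := hJ.f8; have h9 := hR.b8; have hRk := hR.Rk; have hRj := hJ.R
  have main := satQ P hR hb hp hpb hok hKc hm hmg hρ h1 h2
  have core := step_core P hR hJ hok (c0 := c0) (by omega) M hM ((2 : ℝ) ^ m)
  have e1 : hc P (fun ω => celi 1 (piN C k i' b c0 ω))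
      (fun ω => (celi (2 ^ m) (piN C k i' b c0 ω), (Dp C k b ω, Th C i' b ω))) ≤
      hc P (fun ω => celi 1 (piN C k i' b c0 ω)) (fun ω => (Ql C j k i' b c0 ω,
      (celi (2 ^ m) (piN C k i' b c0 ω), (Dp C k b ω, Th C i' b ω)))) := by
    refine hc_mono_right P _ ?_
    intro x y _ _ e
    refine Prod.ext ?_ e
    have e2 := (Prod.mk.inj e).1
    have q0 := congrFun e2 0
    have q1 := congrFun e2 1
    have q2 := congrFun e2 2
    rw [celim_0 (by omega), celim_0 (by omega)] at q0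
    rw [celim_1 (by omega), celim_1 (by omega)] at q1
    rw [celim_2 (by omega), celim_2 (by omega)] at q2
    rw [show C.a k + b - m = C.a j + b by omega] at q0
    rw [show C.a k + 2 * b - m = C.a j + 2 * b by omega] at q1
    rw [show C.a k + b + C.R k b - c0 - m = C.a j + b + C.R j b - c0 by omega] at q2
    exact Prod.ext q0 (Prod.ext q1 q2)
  unfold errN
  linarith

/-- **PSatN, deep phi regime, `r`-step** -/
theorem satA_r [Fintype Ω] (P : Law Ω) (hR : Reg C k i' b) (hJ : Rj C j k b) (hb : b + 8 * C.μ ≤ b')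
    (hp : C.μ ≤ p) (hpb : b + p ≤ b') (hok : ∀ ω, 0 < P.w ω → C.Ok K ω) (hKc : 2 * K ≤ 2 ^ c0)
    {g M : ℕ} (hm : 1 ≤ m) (hmg : m ≤ g)
    (hρ : 15 * 2 ^ (m + 8 * (g + c0 + 1) + 7) * (128 * K ^ 3 * q2 C.μ) ≤ 1)
    (hM : ((2 ^ c0 + 4062 : ℕ) : ℝ) * K ^ 7 ≤ M)
    (ha : C.a k = C.a j) (hf : C.rf k = C.rf j + m) {ι₁ ι₂ : ℝ}
    (h1 : mi P (fun ω => fl1 (b + p) (C.l ω).v) (C.cell i' b)
      (fun ω => (Dp C k b ω, Th C i' b ω)) ≤ ι₁)
    (h2 : mi P (Th C i' b) (C.cell k b') (Dp C k b) ≤ ι₂) :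
    m * Real.log 2 - errN P C k b c0 m g M ι₁ ι₂ ≤
    hc P (C.A k b i') (fun ω => (C.A j b i' ω, C.cell k b ω, Th C i' b ω)) := by
  obtain ⟨ω0, hω0⟩ : ∃ ω, 0 < P.w ω := by
    by_contra hcon
    push Not at hcon
    have h3 : ∑ ω, P.w ω ≤ 0 := Finset.sum_nonpos fun ω _ => hcon ω
    rw [P.sum_one] at h3
    norm_num at h3
  have hmu := num_mu (K_one (hok ω0 hω0)) hρ
  have h8 := hJ.f8; have h9 := hR.b8; have hRk := hR.Rk; have hRj := hJ.R
  have main := satQ P hR hb hp hpb hok hKc hm hmg hρ h1 h2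
  have core := step_core P hR hJ hok (c0 := c0) (by omega) M hM ((2 : ℝ) ^ m)
  set Pi : Ω → Fin 3 → ℤ := fun ω => celi 1 (piN C k i' b c0 ω)
  set Y : Ω → (Fin 3 → ℤ) × (((τ × Pth.Dg) × ℤ) × (τ × ℤ)) :=
    fun ω => (celi (2 ^ m) (piN C k i' b c0 ω), (Dp C k b ω, Th C i' b ω)) with hY
  set q1 : Ω → ℤ := fun ω => fl1 (C.a j + b) ((C.l ω).X (C.s i' ω)) with hq1
  set q2' : Ω → ℤ := fun ω => fl1 (C.a j + 2 * b) (C.Zs b (C.s i' ω) ω) with hq2
  have a1 := hc_le_add' P Pi (Ql C j k i' b c0) Y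
  have a2 := hc_le_add P (Ql C j k i' b c0) q1 Y
  have a3 := hc_le_add P (Ql C j k i' b c0) q2' (fun ω => (q1 ω, Y ω))
  have a4 : hc P (Ql C j k i' b c0) (fun ω => (q2' ω, (q1 ω, Y ω))) = 0 := by
    refine hc_zero P ?_
    intro x y _ _ e
    simp only [Prod.mk.injEq] at e
    obtain ⟨c2, c1, cY⟩ := e
    have q2 := congrFun (Prod.mk.inj cY).1 2
    rw [celim_2 (by omega), celim_2 (by omega)] at q2
    rw [show C.a k + b + C.R k b - c0 - m = C.a j + b + C.R j b - c0 by omega] at q2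
    exact Prod.ext c1 (Prod.ext c2 q2)
  have a5 : hc P q1 Y ≤ m * Real.log 2 := by
    have h := hc_fl1_digits_le P (s := C.a k + b - m) (s' := C.a j + b) (by omega)
      (fun ω => (C.l ω).X (C.s i' ω)) Y
    rw [show C.a j + b - (C.a k + b - m) = m by omega] at h
    refine le_trans (hc_mono_right P _ ?_) h
    intro x y _ _ e
    refine Prod.ext ?_ e
    have q0 := congrFun (Prod.mk.inj e).1 0
    rw [celim_0 (by omega), celim_0 (by omega)] at q0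
    exact q0
  have a6 : hc P q2' (fun ω => (q1 ω, Y ω)) ≤ m * Real.log 2 := by
    have h := hc_fl1_digits_le P (s := C.a k + 2 * b - m) (s' := C.a j + 2 * b) (by omega)
      (fun ω => C.Zs b (C.s i' ω) ω) (fun ω => (q1 ω, Y ω))
    rw [show C.a j + 2 * b - (C.a k + 2 * b - m) = m by omega] at h
    refine le_trans (hc_mono_right P _ ?_) h
    intro x y _ _ e
    refine Prod.ext ?_ e
    have q0 := congrFun (Prod.mk.inj (Prod.mk.inj e).2).1 1
    rw [celim_1 (by omega), celim_1 (by omega)] at q0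
    exact q0
  unfold errN
  linarith

end Vale.Agent.P106.U.H683
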