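import Vale.Agent.P106.U.H683.FzA
import Vale.Agent.P106.U.H683.GenC
import Vale.Agent.P106.U.H785.MtrFz
import Vale.Agent.P106.U.H958.EqAt
import Vale.Agent.P106.U.H833.NStep

/-!
# P106 / U / H683 : [PHI-V] the N-step of the deep phi windows inside the young levels (helper683)

`D` = 785's data (`mt0` of the record).  A window has ONE frame: the letter `lt u0` of its first index, the later letter
`ThV D u0 b i1` = time digits of the reading index `i1` and digits of the slope at `i1` in the frame `u0`.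

* `Frm C D k u` : the path `C` has at the index `u` the functional of the letter `lt k` (`frm_mfz`, `frm_fz`).
* `hc_fr2` : change of the frame `k0 ↔ k1` of the positions at one index, deep phi regime, constant `cF K`.
* `hc_Th` : the later letter of the window from the later letter of the frame `k1`.
* `Aw D u0 b i1 u` : position in the frame `u0`, and `lt u0`.  **`aw_eq`** (hAA), **`aw_cha`** (hA), **`aw_ju`** (hJ),
  **`phiV_step`** (hs) : the hypotheses of `H495.PWin`; the informations of `phiV_step` are `H833.I1N`, `H833.I2N` for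
  `D.fz (u + 1) (u + 1)`.
-/

set_option autoImplicit false

namespace Vale.Agent.P106.U.H683.PhV

open Finset Vale.Agent.P127 Vale.Agent.P127.Stk
open Vale.Agent.P127.U.CellD (q2 rd Nb q2_pos q2_le q2_add q2_mul_pow fl1_fl1 rd_sub rd_err)
open Vale.Agent.P127.U.Mic (colp)
open Vale.Agent.P106.U.Cell Vale.Agent.P106.U.H84
open Vale.Agent.P106.U.H785.Mtr
open Vale.Agent.P106.U.H683.FzA
open Vale.Agent.P106.U.H958 (mfz HyM mfz_Ok mfz_a mfz_rf mfz_rk mfz_s mfz_ga mfz_ka mfz_al mfz_cN cN0 cN0_near mfz_T_iff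
  mfz_cell_iff tdM DpM ThM eqAt_mfz EqAt)

variable {Ω π : Type} {D : Mtd Ω π} {K : ℝ} {I : Set ℕ} {i i1 k k0 k1 u u0 b : ℕ} {ω ω' : Ω}

/-! ### frames -/

/-- at the index `u` the path `C` has the functional of the letter `lt k` -/
structure Frm (C : Pth Ω (Lt π × ℤ)) (D : Mtd Ω π) (k u : ℕ) : Prop where
  l : C.l = D.l
  t : C.t = D.t
  p : C.p = D.p
  μ : C.μ = D.μ
  o : C.o = D.o
  a : C.a u = D.a u
  rf : C.rf u = D.rf u
  rk : C.rk u = min (D.rr k) (D.rf u)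
  ka : ∀ ω, (C.F u ω).ka = D.kaL k (D.lt k ω) - (D.s u ω - D.s k ω) * D.g k ω
  al : ∀ ω, (C.F u ω).al = D.g k ω
  cN : ∀ ω, (C.F u ω).cN (C.l ω) (C.s u ω) = cN0 D k ω
  T : ∀ ω ω', C.T u ω = C.T u ω' ↔ D.lt k ω = D.lt k ω' ∧ fl1 (D.a u) (D.t ω) = fl1 (D.a u) (D.t ω')

lemma Frm.s {C : Pth Ω (Lt π × ℤ)} (h : Frm C D k u) (ω : Ω) : C.s u ω = D.s u ω := by
  unfold Pth.s Mtd.s
  rw [h.a, h.t]

lemma frm_mfz (h : k ≤ u + 1) : Frm (mfz D k) D k u := by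
  refine ⟨rfl, rfl, rfl, rfl, rfl, mfz_a h, mfz_rf h, ?_, fun ω => ?_, fun ω => mfz_al u ω, fun ω => mfz_cN u ω,
    fun ω ω' => mfz_T_iff h⟩
  · show min (D.rr k) (D.rf (max u (k - 1))) = _
    rw [max_eq_left (by omega)]
  · rw [mfz_ka, mfz_s h]

lemma frm_fz (h : k ≤ u) : Frm (D.fz k k) D k u := by
  have e : EqAt (mfz D k) (D.fz k k) u := eqAt_mfz le_rfl h
  have f := frm_mfz (D := D) (k := k) (u := u) (by omega)
  refine ⟨rfl, rfl, rfl, rfl, rfl, e.a ▸ f.a, e.rf ▸ f.rf, e.rk ▸ f.rk, fun ω => ?_, fun ω => ?_, fun ω => ?_,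
    fun ω ω' => ?_⟩
  · rw [← e.F]; exact f.ka ω
  · rw [← e.F]; exact f.al ω
  · rw [← e.F, ← e.s]; exact f.cN ω
  · rw [← e.T]; exact f.T ω ω'

/-- the two letters agree -/
structure Agl (D : Mtd Ω π) (K : ℝ) (k0 k1 : ℕ) (ω : Ω) : Prop where
  c : |cN0 D k1 ω - cN0 D k0 ω| ≤ 8 * K * q2 (D.rr k0)
  k : ∀ i, k1 ≤ i → |(D.kaL k1 (D.lt k1 ω) - (D.s i ω - D.s k1 ω) * D.g k1 ω) -
    (D.kaL k0 (D.lt k0 ω) - (D.s i ω - D.s k0 ω) * D.g k0 ω)| ≤ 8 * K * q2 (D.rr k0)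
  al : |D.g k1 ω - D.g k0 ω| * q2 (D.a k1) ≤ 3 * K * q2 (D.rr k0)

lemma agl (K1 : 1 ≤ K) (h : D.Hy K I ω) (h0 : k0 ∈ I) (h1 : k1 ∈ I) (h01 : k0 ≤ k1) : Agl D K k0 k1 ω := by
  have K0 : 0 ≤ K := by linarith
  have q0 := q2_pos (D.rr k0)
  have m := Mtd.rr_mono D h01
  refine ⟨?_, fun i hi => ?_, g_near K1 h h0 h1 h01⟩
  · have c1 := cN0_near (D := D) (k := k1) h.w1 K0 (h.ap _ h1)
    have c2 := cN0_near (D := D) (k := k0) h.w1 K0 (h.ap _ h0)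
    have c3 : (3 + K) * q2 (D.rr k1) ≤ (3 + K) * q2 (D.rr k0) := mul_le_mul_of_nonneg_left m (by linarith)
    have e : cN0 D k1 ω - cN0 D k0 ω = (cN0 D k1 ω - D.un ω) - (cN0 D k0 ω - D.un ω) := by ring
    rw [e]
    refine (abs_sub _ _).trans ?_
    have : (3 + K) * q2 (D.rr k0) + (3 + K) * q2 (D.rr k0) ≤ 8 * K * q2 (D.rr k0) := by nlinarith
    linarith
  · have e1 := Mtd.ka_near D k0 ω
    have e2 := Mtd.ka_near D k1 ω
    have e3 := h.ka _ h0 _ h1 h01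
    have e4 : K * q2 (D.rk k0) ≤ K * q2 (D.rr k0) := mul_le_mul_of_nonneg_left (Mtd.rr_le D k0) K0
    have e5 : q2 (D.rr k0) ≤ K * q2 (D.rr k0) := by nlinarith
    have e6 := g_near K1 h h0 h1 h01
    have e7 : |D.s i ω - D.s k1 ω| ≤ q2 (D.a k1) := rd_sub (D.ha hi) (D.t ω)
    have e8 : |(D.s i ω - D.s k1 ω) * (D.g k1 ω - D.g k0 ω)| ≤ 3 * K * q2 (D.rr k0) := by
      rw [abs_mul, mul_comm]
      exact (mul_le_mul_of_nonneg_left e7 (abs_nonneg _)).trans e6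
    have e : D.kaL k1 (D.lt k1 ω) - (D.s i ω - D.s k1 ω) * D.g k1 ω -
        (D.kaL k0 (D.lt k0 ω) - (D.s i ω - D.s k0 ω) * D.g k0 ω) =
        (D.kaL k1 (D.lt k1 ω) - D.κ k1 ω) - (D.kaL k0 (D.lt k0 ω) - D.κ k0 ω) -
          (D.κ k0 ω - D.κ k1 ω - (D.s k1 ω - D.s k0 ω) * D.g k0 ω) -
          (D.s i ω - D.s k1 ω) * (D.g k1 ω - D.g k0 ω) := by ring
    rw [e]
    rw [abs_le] at e1 e2 e3 e8 ⊢
    constructor <;> linarith [e1.1, e1.2, e2.1, e2.2, e3.1, e3.2, e8.1, e8.2]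

lemma Fs_frm {C : Pth Ω (Lt π × ℤ)} (h : Frm C D k u) (h' : Frm C D k i1) (ω : Ω) : (Fs C i1 u ω).ka =
    D.kaL k (D.lt k ω) - (D.s i1 ω - D.s k ω) * D.g k ω := by
  have e : (Fs C i1 u ω).ka = (C.F u ω).ka - (C.s i1 ω - C.s u ω) * (C.F u ω).al := rfl
  rw [e, h.ka, h.al, h.s, h'.s]
  ring

/-- levels of the change of the frame `k0 ↔ k1` at the index `u`, deep phi regime -/
structure Lfr (D : Mtd Ω π) (k0 k1 u i1 b : ℕ) : Prop where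
  k01 : k0 ≤ k1
  k0u : k0 ≤ u
  k1u : k1 ≤ u + 1
  ui : u ≤ i1
  k1i : k1 ≤ i1
  b8 : 8 * D.μ ≤ b
  f8 : 8 * D.μ ≤ D.rf u
  /-- deep phi regime -/
  d : D.rf u + D.a k1 ≤ b + D.rr k0 + D.a u
  d' : D.rf u ≤ b + D.rr k0
  r : D.a k1 ≤ D.a u + D.rr k0

/-- the precision of the agreement -/
def rho (D : Mtd Ω π) (k0 k1 u : ℕ) : ℕ := D.rr k0 - (D.a k1 - D.a u)

section ab

variable {C C2 : Pth Ω (Lt π × ℤ)} {kt ks : ℕ}

lemma R_frm (L : Lfr D k0 k1 u i1 b) (h : Frm C D k u) (hk : k0 ≤ k) : C.R u b = D.rf u := by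
  have h1 := L.d'
  have h2 : D.rr k0 ≤ D.rr k := Nat.sub_le_sub_right (D.hk hk) _
  rw [Pth.R_eq, h.rk, h.rf]
  omega

lemma nfr2 (L : Lfr D k0 k1 u i1 b) (hk : k0 ≤ kt ∧ k0 ≤ ks) (h : Frm C D kt u)
    (h' : Frm C D kt i1) (g : Frm C2 D ks u) (g' : Frm C2 D ks i1) : Nfr C C2 (rho D k0 k1 u) u u i1 i1 b := by
  have e1 := R_frm L h hk.1
  have e2 := R_frm L g hk.2
  have hkf : D.rr k0 ≤ D.rf u := ((Nat.sub_le _ _).trans (D.hkf _)).trans (D.hf L.k0u)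
  have d := L.d
  have d' := L.d'
  have r := L.r
  refine ⟨by rw [g.l, h.l], by rw [g.p, h.p], by rw [g.μ, h.μ], by rw [g.o, h.o], fun ω => by rw [g'.s, h'.s], L.ui, L.ui,
    by rw [h.a, g.a], by rw [h.rf, g.rf], by rw [e1, e2], ?_, ?_, ?_, ?_⟩
  · rw [e1]
    unfold rho
    omega
  · rw [e1]
    unfold rho
    omega
  · rw [h.μ]; exact L.b8
  · rw [e1, h.μ]; exact L.f8

/-- the two frames agree at the late time -/
lemma agf2 (K1 : 1 ≤ K) (hA : Agl D K k0 k1 ω) (L : Lfr D k0 k1 u i1 b)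
    (hk : (kt = k0 ∧ ks = k1) ∨ (kt = k1 ∧ ks = k0)) (h : Frm C D kt u)
    (h' : Frm C D kt i1) (g : Frm C2 D ks u) (g' : Frm C2 D ks i1) (ok : C.Ok (9 * K) ω) (ok2 : C2.Ok (9 * K) ω) :
    Agf C C2 (9 * K) (rho D k0 k1 u) u u i1 i1 ω := by
  have hq : q2 (D.rr k0) ≤ q2 (rho D k0 k1 u) := q2_le (Nat.sub_le _ _)
  have q0 := q2_pos (D.rr k0)
  have q1 := q2_pos (rho D k0 k1 u)
  have s1 : 8 * K * q2 (D.rr k0) ≤ 9 * K * q2 (rho D k0 k1 u) := by nlinarith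
  have s2 : 9 * K * q2 (rho D k0 k1 u) ≤ 2 * (9 * K) * q2 (rho D k0 k1 u) := by nlinarith
  -- curvature
  have hal : |D.g k1 ω - D.g k0 ω| * q2 (D.a u) ≤ 9 * K * q2 (rho D k0 k1 u) := by
    have e6 := hA.al
    have r := L.r
    rcases le_total (D.a k1) (D.a u) with hu | hu
    · have e : rho D k0 k1 u = D.rr k0 := by unfold rho; omega
      rw [e]
      have := mul_le_mul_of_nonneg_left (q2_le hu) (abs_nonneg (D.g k1 ω - D.g k0 ω))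
      nlinarith
    · have e7 : q2 (D.a u) * q2 (D.rr k0) = q2 (rho D k0 k1 u) * q2 (D.a k1) := by
        rw [← q2_add, ← q2_add]
        congr 1
        unfold rho
        omega
      have qa := q2_pos (D.a k1)
      have e8 : |D.g k1 ω - D.g k0 ω| * q2 (D.a u) * q2 (D.a k1) ≤ 3 * K * q2 (rho D k0 k1 u) * q2 (D.a k1) := by
        calc _ = (|D.g k1 ω - D.g k0 ω| * q2 (D.a k1)) * q2 (D.a u) := by ring
          _ ≤ 3 * K * q2 (D.rr k0) * q2 (D.a u) := mul_le_mul_of_nonneg_right e6 (q2_pos _).le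
          _ = 3 * K * (q2 (D.a u) * q2 (D.rr k0)) := by ring
          _ = _ := by rw [e7]; ring
      have e9 := le_of_mul_le_mul_right e8 qa
      nlinarith
  have hka := hA.k i1 L.k1i
  refine ⟨ok, ok2, ?_, ?_, ?_⟩
  · rw [g.cN, h.cN]
    rcases hk with ⟨rfl, rfl⟩ | ⟨rfl, rfl⟩
    · exact hA.c.trans s1
    · rw [abs_sub_comm]; exact hA.c.trans s1
  · rw [Fs_frm g g', Fs_frm h h']
    rcases hk with ⟨rfl, rfl⟩ | ⟨rfl, rfl⟩
    · exact hka.trans (s1.trans s2)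
    · rw [abs_sub_comm]; exact hka.trans (s1.trans s2)
  · rw [g.al, h.al, g.a]
    rcases hk with ⟨rfl, rfl⟩ | ⟨rfl, rfl⟩
    · exact hal
    · rw [abs_sub_comm]; exact hal

/-- the constant of the change of the frame -/
noncomputable def cF9 (K : ℝ) : ℝ := 2 * Real.log ((2 * ⌈118 * (9 * K) ^ 5⌉₊ + 3 : ℕ) : ℝ)

/-- **change of the frame** of the positions at the index `u` -/
theorem hc_fr2 [Fintype Ω] (P : Law Ω) (K1 : 1 ≤ K) (hA : ∀ ω, 0 < P.w ω → Agl D K k0 k1 ω)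
    (L : Lfr D k0 k1 u i1 b) (hk : (kt = k0 ∧ ks = k1) ∨ (kt = k1 ∧ ks = k0)) (h : Frm C D kt u)
    (h' : Frm C D kt i1) (g : Frm C2 D ks u) (g' : Frm C2 D ks i1) (ok : ∀ ω, 0 < P.w ω → C.Ok (9 * K) ω)
    (ok2 : ∀ ω, 0 < P.w ω → C2.Ok (9 * K) ω) {S : Type*} (Y : Ω → S)
    (hY : ∀ ω ω', 0 < P.w ω → 0 < P.w ω' → Y ω = Y ω' → D.lt kt ω = D.lt kt ω' ∧ D.lt ks ω = D.lt ks ω' ∧
      tdM D i1 ω = tdM D i1 ω') :
    hc P (C.A u b i1) (fun ω => (C2.A u b i1 ω, Y ω)) ≤ cF9 K := by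
  have hkk : k0 ≤ kt ∧ k0 ≤ ks := by
    have := L.k01
    rcases hk with ⟨rfl, rfl⟩ | ⟨rfl, rfl⟩
    · exact ⟨le_rfl, this⟩
    · exact ⟨this, le_rfl⟩
  refine hc_fr P (by linarith) (nfr2 L hkk h h' g g') (fun ω p => agf2 K1 (hA ω p) L hk h h' g g' (ok ω p) (ok2 ω p)) Y ?_
  intro ω ω' p p' e
  obtain ⟨e1, e2, e3⟩ := hY ω ω' p p' e
  have e3' : fl1 (D.a i1) (D.t ω) = fl1 (D.a i1) (D.t ω') := e3
  have tu : fl1 (D.a u) (D.t ω) = fl1 (D.a u) (D.t ω') := fl1_fl1 (D.ha L.ui) e3'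
  refine ⟨(h.T ω ω').2 ⟨e1, tu⟩, (g.T ω ω').2 ⟨e2, tu⟩, ?_⟩
  rw [h'.s, h'.s]
  exact (Sp.s_of e3').symm

end ab

/-! ### the later letter -/

/-- time digits of the step `i`, digits of the slope at `i` in the frame of the letter `lt k` -/
noncomputable def ThV (D : Mtd Ω π) (k b i : ℕ) (ω : Ω) : ℤ × ℤ :=
  (tdM D i ω, fl1 (D.rf i) (H683.slR (D.fz k k) i b ω + D.o 4))

lemma ThV_eq (h : k ≤ i) : ThV D k b i = ThM D k b i := by
  funext ω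
  have e : EqAt (mfz D k) (D.fz k k) i := eqAt_mfz le_rfl h
  unfold ThV ThM
  rw [e.slR]

lemma twoK (K1 : 1 ≤ K) (hA : Agl D K k0 k1 ω) (h01 : k0 ≤ k1) (hi : k1 ≤ i1) (ok : (D.fz k0 k0).Ok (9 * K) ω) :
    TwoK (D.fz k1 k1) (D.fz k0 k0) (9 * K) i1 i1 (D.rr k0) ω := by
  have f1 : Frm (D.fz k1 k1) D k1 i1 := frm_fz hi
  have f0 : Frm (D.fz k0 k0) D k0 i1 := frm_fz (h01.trans hi)
  have q0 := q2_pos (D.rr k0)
  have s1 : 8 * K * q2 (D.rr k0) ≤ 9 * K * q2 (D.rr k0) := by nlinarith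
  have s3 : 3 * K * q2 (D.rr k0) ≤ 9 * K * q2 (D.rr k0) := by nlinarith
  refine ⟨rfl, rfl, rfl, ok, ⟨?_, ?_, ?_⟩⟩
  · have e1 : (F0 (D.fz k1 k1) (D.fz k0 k0) i1 i1 ω).cN ((D.fz k1 k1).l ω) ((D.fz k1 k1).s i1 ω) = cN0 D k0 ω := by
      have h := Fu.cN_sh ((D.fz k0 k0).F i1 ω) (D.l ω) ((D.fz k0 k0).s i1 ω) ((D.fz k1 k1).s i1 ω - (D.fz k0 k0).s i1 ω)
      rw [add_sub_cancel] at h
      have h2 := f0.cN ω
      rw [f0.l] at h2
      exact h.trans h2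
    rw [e1, f1.cN]
    exact hA.c.trans s1
  · have e1 : (F0 (D.fz k1 k1) (D.fz k0 k0) i1 i1 ω).ka = ((D.fz k0 k0).F i1 ω).ka -
        ((D.fz k1 k1).s i1 ω - (D.fz k0 k0).s i1 ω) * ((D.fz k0 k0).F i1 ω).al := rfl
    rw [e1, f1.ka, f0.ka, f1.s, f0.s, sub_self, zero_mul, sub_zero]
    exact (hA.k i1 hi).trans s1
  · have e1 : (F0 (D.fz k1 k1) (D.fz k0 k0) i1 i1 ω).al = ((D.fz k0 k0).F i1 ω).al := rfl
    rw [e1, f1.al, f0.al, f1.a]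
    refine le_trans ?_ (hA.al.trans s3)
    exact mul_le_mul_of_nonneg_left (q2_le (D.ha hi)) (abs_nonneg _)

/-- the constant of the later letter -/
noncomputable def cT9 (K : ℝ) : ℝ := Real.log ((2 * ⌈21 * (9 * K) ^ 6⌉₊ + 3 : ℕ) : ℝ)

/-- **the later letter of the frame `k0`**, from the later letter of the frame `k1` -/
theorem hc_Th [Fintype Ω] (P : Law Ω) (K1 : 1 ≤ K) (hA : ∀ ω, 0 < P.w ω → Agl D K k0 k1 ω) (h01 : k0 ≤ k1)
    (hi : k1 ≤ i1) (ok : ∀ ω, 0 < P.w ω → (D.fz k0 k0).Ok (9 * K) ω) (ok1 : ∀ ω, 0 < P.w ω → (D.fz k1 k1).Ok (9 * K) ω)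
    (b8 : 8 * D.μ ≤ b) (hE : D.rf i1 + D.a i1 + 3 * D.μ ≤ D.rr k0 + D.a k1 + b) (hab : D.a i1 + 3 * D.μ ≤ D.a k1 + b) :
    hc P (ThV D k0 b i1) (fun ω => (D.lt k0 ω, (D.mtr k1 b ω, ThV D k1 b i1 ω))) ≤ cT9 K := by
  set M : ℕ := ⌈21 * (9 * K) ^ 6⌉₊ with hM
  have hMK : 21 * (9 * K) ^ 6 ≤ (M : ℝ) := Nat.le_ceil _
  set Y : Ω → Lt π × ((Lt π × Pth.Dg) × (ℤ × ℤ)) := fun ω => (D.lt k0 ω, (D.mtr k1 b ω, ThV D k1 b i1 ω)) with hY
  have K9 : (1 : ℝ) ≤ 9 * K := by linarith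
  have key : ∀ x y, 0 < P.w x → 0 < P.w y → Y x = Y y →
      |H683.slR (D.fz k0 k0) i1 b y - H683.slR (D.fz k0 k0) i1 b x| ≤ M * q2 (D.rf i1) := by
    intro x y px py e
    simp only [hY, ThV, Prod.mk.injEq] at e
    obtain ⟨e0, e1, e2, e3⟩ := e
    have e2' : fl1 (D.a i1) (D.t x) = fl1 (D.a i1) (D.t y) := e2
    have hc1 : (D.fz k1 k1).cell k1 b x = (D.fz k1 k1).cell k1 b y := (Mtd.fz_cell_iff D le_rfl b x y).2 e1
    have el : D.lt k1 x = D.lt k1 y := congrArg Prod.fst e1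
    have f1 : Frm (D.fz k1 k1) D k1 i1 := frm_fz hi
    have f0 : Frm (D.fz k0 k0) D k0 i1 := frm_fz (h01.trans hi)
    have hv : fl1 b (D.l x).v = fl1 b (D.l y).v := (Pth.cell_iff.1 hc1).2.1
    have n1 := nr_cell K9 hc1 (show 8 * (D.fz k1 k1).μ ≤ b from b8)
    have n2 := n1.move K9 (show 8 * (D.fz k1 k1).μ ≤ b from b8) (s' := (D.fz k1 k1).s i1 x)
      (rd_sub ((D.fz k1 k1).ha hi) _)
    have rv : ∀ {n : ℕ}, n ≤ b → rd n (D.l x).v = rd n (D.l y).v := fun hn => by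
      unfold rd
      rw [fl1_fl1 hn hv]
    have s0 : Bd (9 * K) 1 0 (D.rf i1) (H683.slR (D.fz k1 k1) i1 b y - H683.slR (D.fz k1 k1) i1 b x) := by
      have h3 := near_fl1 e3
      rw [add_sub_add_right_eq_sub] at h3
      exact (Bd.mk0 (K := 9 * K) h3).symm
    have ak1 : (D.fz k1 k1).a k1 = D.a k1 := D.fz_a le_rfl
    have main := base_of_slRK (E := D.rf i1) (b' := b) (b0 := b) (ok1 x px) (ok1 y py)
      (twoK K1 (hA x px) h01 hi (ok x px)) n2 ((D.fz k1 k1).ha hi)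
      (by rw [f1.a, ak1]; exact hab)
      ((f1.T x y).2 ⟨el, e2'⟩) ((f0.T x y).2 ⟨e0, e2'⟩) (rv (by unfold Pth.bs; omega)) (rv (by unfold Pth.bs; omega))
      (show 8 * (D.fz k1 k1).μ ≤ b from b8)
      (by rw [f1.a, ak1]; exact hE) (by omega) s0
    unfold Bd at main
    refine main.trans (mul_le_mul_of_nonneg_right ?_ (q2_pos _).le)
    push_cast
    linarith
  have h1 : hc P (fun ω => fl1 (D.rf i1) (H683.slR (D.fz k0 k0) i1 b ω + D.o 4)) Y ≤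
      Real.log ((2 * M + 3 : ℕ) : ℝ) := by
    refine hc_int P _ Y fun x y px py e => ?_
    refine H364.fl1_le_of_near (M := M) ?_
    rw [add_sub_add_right_eq_sub]
    exact key x y px py e
  refine le_trans (hc_mono_left P fun ω ω' _ _ e => ?_) h1
  simp only [hY, ThV, Prod.mk.injEq] at e ⊢
  exact ⟨e.2.2.2.1, e.1⟩

/-! ### the positions of the window -/

/-- position of the index `u`, read at `i1`, in the frame `u0`, and the letter of the frame -/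
noncomputable def Aw (D : Mtd Ω π) (u0 b i1 u : ℕ) (ω : Ω) : (ℤ × ℤ × ℤ × ℤ × ℤ × ℤ × ℤ) × Lt π :=
  ((D.fz u0 u0).A u b i1 ω, D.lt u0 ω)

/-- the position does not change if the levels do not change -/
theorem aw_eq {v : ℕ} (hu : u0 ≤ u) (hv : u0 ≤ v) (ha : D.a u = D.a v) (hf : D.rf u = D.rf v) :
    Aw D u0 b i1 u = Aw D u0 b i1 v := by
  set C := D.fz u0 u0 with hC
  have e1 : C.a u = C.a v := by rw [hC, D.fz_a' hu, D.fz_a' hv, ha]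
  have e2 : C.rf u = C.rf v := by rw [hC, D.fz_rf hu, D.fz_rf hv, hf]
  have e3 : C.rk u = C.rk v := by rw [hC, D.fz_rk hu hu, D.fz_rk hv hv]
  have es : ∀ ω, D.s u ω = D.s v ω := fun ω => by unfold Mtd.s; rw [ha]
  have eF : ∀ ω, C.F u ω = C.F v ω := fun ω => by
    rw [hC, D.fz_F hu, D.fz_F hv, hf, es]
  have eb : C.bs u b = C.bs v b := by unfold Pth.bs; rw [e2, e3]
  have eR : C.R u b = C.R v b := by unfold Pth.R; rw [e3, eb]
  have esl : ∀ ω, C.sl u b ω = C.sl v b ω := fun ω => by unfold Pth.sl; rw [eF, eb]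
  have eFr : ∀ m ω, C.Fr u b m ω = C.Fr v b m ω := fun m ω => by
    unfold Pth.Fr
    rw [eF, esl, eb]
  have ess : ∀ ω, C.s u ω = C.s v ω := fun ω => by unfold Pth.s; rw [e1]
  funext ω
  unfold Aw Pth.A
  simp only [← hC, e1, eR, esl, eFr, ess]

section ent3

variable [Fintype Ω] {S : Type*}

/-- **chain** -/
theorem aw_cha (P : Law Ω) (K1 : 1 ≤ K) (ok : ∀ ω, 0 < P.w ω → (D.fz u0 u0).Ok (9 * K) ω) (hu : u0 ≤ u) (ui : u + 1 ≤ i1)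
    (b8 : 8 * D.μ ≤ b) (f8 : 8 * D.μ ≤ D.rf u) (d : D.rf u ≤ b + D.rr u0) (Θ : Ω → S) (hΘ : Stk.Fn P (tdM D i1) Θ) :
    hc P (Aw D u0 b i1 u) (fun ω => (Aw D u0 b i1 (u + 1) ω, Θ ω)) ≤ cF9 K := by
  have eR : (D.fz u0 u0).R u b = D.rf u := by
    rw [Pth.R_eq, D.fz_rk hu hu, D.fz_rf hu]
    omega
  have hL : (D.fz u0 u0).Lev u b := ⟨b8, by rw [eR]; exact f8⟩
  have h := cha P (C := D.fz u0 u0) (K := 9 * K) (by linarith) ok (j := u) (b := b) (i' := i1) ui hL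
  have f1 : Frm (D.fz u0 u0) D u0 i1 := frm_fz (by omega)
  unfold cF9
  refine le_trans ?_ h
  refine le_trans (hc_mono_left P (X' := (D.fz u0 u0).A u b i1) fun ω ω' p p' e => ?_)
    (hc_mono_right P _ fun ω ω' p p' e => ?_)
  · simp only [Aw, Prod.mk.injEq] at e ⊢
    exact ⟨e.1, e.2.1.2⟩
  · simp only [Aw, Prod.mk.injEq] at e ⊢
    exact ⟨e.1.1, (f1.T ω ω').2 ⟨e.1.2, hΘ ω ω' p p' e.2⟩⟩

/-- the constant of the junction -/
noncomputable def cJ9 (K : ℝ) (μ : ℕ) : ℝ := 15 * μ * Real.log 2 + Real.log 18865 + cL K + cF9 K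

/-- **junction** -/
theorem aw_ju (P : Law Ω) (K1 : 1 ≤ K) (hy : ∀ ω, 0 < P.w ω → D.Hy K I ω) (h0 : u0 ∈ I) (h1 : u ∈ I)
    (ok : ∀ ω, 0 < P.w ω → (D.fz u0 u0).Ok (9 * K) ω) (ok1 : ∀ ω, 0 < P.w ω → (D.fz u u).Ok (9 * K) ω) (hu : u0 ≤ u)
    (ui : u ≤ i1) (b8 : 8 * D.μ ≤ b) (f8 : 8 * D.μ ≤ D.rf u) (d : D.rf u ≤ b + D.rr u0)
    (hlt : hc P (D.lt u0) (D.mtr u b) ≤ cL K) (Θ : Ω → S) (hΘ : Stk.Fn P (tdM D i1) Θ) :
    hc P (Aw D u0 b i1 u) (fun ω => (Θ ω, D.mtr u b ω)) ≤ cJ9 K D.μ := by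
  have L : Lfr D u0 u u i1 b := ⟨hu, hu, by omega, ui, ui, b8, f8, by omega, d, by omega⟩
  have fu : Frm (D.fz u u) D u i1 := frm_fz ui
  set Y : Ω → S × (Lt π × Pth.Dg) := fun ω => (Θ ω, D.mtr u b ω) with hY
  have a1 : hc P (D.lt u0) Y ≤ cL K :=
    (hc_mono_right P _ fun _ _ _ _ e => congrArg Prod.snd e).trans hlt
  have eR : (D.fz u u).R u b = D.rf u := by
    have := Nat.sub_le_sub_right (D.hk hu) D.ν
    rw [Pth.R_eq, D.fz_rk le_rfl le_rfl, D.fz_rf le_rfl]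
    unfold Mtd.rr at d ⊢
    omega
  have a2 : hc P ((D.fz u u).A u b i1) Y ≤ 15 * D.μ * Real.log 2 + Real.log 18865 := by
    have h := ju (C := D.fz u u) P (k := u) (b := b) (i' := i1) ui ⟨b8, by rw [eR]; exact f8⟩
    refine le_trans (hc_mono_right P _ fun ω ω' p p' e => ?_) h
    simp only [hY, Prod.mk.injEq] at e ⊢
    exact ⟨(fu.T ω ω').2 ⟨congrArg Prod.fst e.2, hΘ ω ω' p p' e.1⟩, (Mtd.fz_cell_iff D le_rfl b ω ω').2 e.2⟩
  have a3 := hc_fr2 P K1 (fun ω p => agl K1 (hy ω p) h0 h1 hu) L (Or.inl ⟨rfl, rfl⟩) (C := D.fz u0 u0) (C2 := D.fz u u)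
    (frm_fz hu) (frm_fz (hu.trans ui)) (frm_fz le_rfl) fu ok ok1 (fun ω => (D.lt u0 ω, Y ω)) (fun ω ω' p p' e => by
      simp only [hY, Prod.mk.injEq] at e
      exact ⟨e.1, congrArg Prod.fst e.2.2, hΘ ω ω' p p' e.2.1⟩)
  have g1 : hc P (Aw D u0 b i1 u) Y ≤ hc P (fun ω => (D.lt u0 ω, (D.fz u0 u0).A u b i1 ω)) Y :=
    hc_mono_left P fun ω ω' _ _ e => by
      simp only [Aw, Prod.mk.injEq] at e ⊢
      exact ⟨e.1.2, e.1.1⟩
  have g2 := hc_pair P (D.lt u0) ((D.fz u0 u0).A u b i1) Y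
  have g3 := hc_le_add' P ((D.fz u0 u0).A u b i1) ((D.fz u u).A u b i1) (fun ω => (D.lt u0 ω, Y ω))
  have g4 : hc P ((D.fz u u).A u b i1) (fun ω => (D.lt u0 ω, Y ω)) ≤ hc P ((D.fz u u).A u b i1) Y :=
    hc_mono_right P _ fun _ _ _ _ e => congrArg Prod.snd e
  unfold cJ9
  linarith

/-- the constant of the step -/
noncomputable def cW9 (K : ℝ) : ℝ := cL K + 2 * cF9 K + cT9 K

/-- levels of one step of a window with the frame `u0` and the reading index `i1` -/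
structure LevV (D : Mtd Ω π) (u0 u i1 b : ℕ) : Prop where
  u0u : u0 ≤ u
  ui : u + 1 ≤ i1
  b8 : 8 * D.μ ≤ b
  f8 : 8 * D.μ ≤ D.rf u
  ai : D.a (u + 1) + 8 * D.μ ≤ D.a i1
  fi : D.rf (u + 1) + 8 * D.μ ≤ D.rf i1
  /-- deep phi regime -/
  dp : D.rf i1 + D.a i1 + 8 * D.μ ≤ b + D.rr u0 + D.a u
  kf : D.rr (u + 1) ≤ D.rf u
  ku : D.a (u + 1) ≤ D.a u + D.rr u0

lemma LevV.mono (L : LevV D u0 u i1 b) : D.a u ≤ D.a (u + 1) ∧ D.rf u ≤ D.rf (u + 1) ∧ D.rr u0 ≤ D.rf u :=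
  ⟨D.ha (Nat.le_succ u), D.hf (Nat.le_succ u), ((Nat.sub_le _ _).trans (D.hkf _)).trans (D.hf L.u0u)⟩

lemma LevV.l0 (L : LevV D u0 u i1 b) : Lfr D u0 (u + 1) u i1 b := by
  have h := L.mono
  have h1 := L.u0u
  have h2 := L.ui
  have h3 := L.ai
  have h4 := L.fi
  have h5 := L.dp
  exact ⟨by omega, by omega, by omega, by omega, by omega, L.b8, L.f8, by omega, by omega, L.ku⟩

lemma LevV.l1 (L : LevV D u0 u i1 b) : Lfr D u0 (u + 1) (u + 1) i1 b := by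
  have h := L.mono
  have h1 := L.u0u
  have h2 := L.ui
  have h3 := L.ai
  have h4 := L.fi
  have h5 := L.dp
  have h6 := L.f8
  exact ⟨by omega, by omega, by omega, by omega, by omega, L.b8, by omega, by omega, by omega, by omega⟩

/-- **the step in the frame of the window**, from the step in the frame of the next letter -/
theorem phiV_s (P : Law Ω) (K1 : 1 ≤ K) (hy : ∀ ω, 0 < P.w ω → D.Hy K I ω) (h0 : u0 ∈ I) (h1 : u + 1 ∈ I)
    (ok : ∀ ω, 0 < P.w ω → (D.fz u0 u0).Ok (9 * K) ω) (ok1 : ∀ ω, 0 < P.w ω → (D.fz (u + 1) (u + 1)).Ok (9 * K) ω)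
    (okm' : ∀ ω, 0 < P.w ω → (mfz D (u + 1)).Ok (9 * K) ω) (L : LevV D u0 u i1 b)
    (hlt : hc P (D.lt u0) (D.mtr (u + 1) b) ≤ cL K) {s : ℝ}
    (hs : s ≤ hc P ((mfz D (u + 1)).A (u + 1) b i1)
      (fun ω => ((mfz D (u + 1)).A u b i1 ω, (D.mtr (u + 1) b ω, ThM D (u + 1) b i1 ω)))) :
    s - cW9 K ≤ hc P (Aw D u0 b i1 (u + 1)) (fun ω => (Aw D u0 b i1 u ω, (D.mtr (u + 1) b ω, ThV D u0 b i1 ω))) := by
  have hu := L.u0u
  have ui := L.ui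
  have h01 : u0 ≤ u + 1 := by omega
  have hag : ∀ ω, 0 < P.w ω → Agl D K u0 (u + 1) ω := fun ω p => agl K1 (hy ω p) h0 h1 h01
  set X := (mfz D (u + 1)).A (u + 1) b i1 with hX
  set A' := (mfz D (u + 1)).A u b i1 with hA'
  set Y : Ω → (ℤ × ℤ × ℤ × ℤ × ℤ × ℤ × ℤ) × ((Lt π × Pth.Dg) × (ℤ × ℤ)) := fun ω =>
    (A' ω, (D.mtr (u + 1) b ω, ThM D (u + 1) b i1 ω)) with hY
  set X' := Aw D u0 b i1 (u + 1) with hX'
  set Y' : Ω → ((ℤ × ℤ × ℤ × ℤ × ℤ × ℤ × ℤ) × Lt π) × ((Lt π × Pth.Dg) × (ℤ × ℤ)) := fun ω =>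
    (Aw D u0 b i1 u ω, (D.mtr (u + 1) b ω, ThV D u0 b i1 ω)) with hY'
  have hThM : ThM D (u + 1) b i1 = ThV D (u + 1) b i1 := (ThV_eq ui).symm
  -- the letter of the frame
  have a1 : hc P (D.lt u0) Y ≤ cL K :=
    (hc_mono_right P _ fun _ _ _ _ e => congrArg (fun x => x.2.1) e).trans hlt
  -- the position of the index `u`
  have a2 : hc P ((D.fz u0 u0).A u b i1) (fun ω => (A' ω, (D.lt u0 ω, Y ω))) ≤ cF9 K :=
    hc_fr2 P K1 hag L.l0 (Or.inl ⟨rfl, rfl⟩) (C := D.fz u0 u0) (C2 := mfz D (u + 1)) (frm_fz hu) (frm_fz (by omega))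
      (frm_mfz le_rfl) (frm_mfz (by omega)) ok okm' (fun ω => (D.lt u0 ω, Y ω)) (fun ω ω' p p' e => by
        simp only [hY, Prod.mk.injEq] at e
        exact ⟨e.1, congrArg Prod.fst e.2.2.1, congrArg Prod.fst e.2.2.2⟩)
  have a2' : hc P ((D.fz u0 u0).A u b i1) (fun ω => (D.lt u0 ω, Y ω)) ≤ cF9 K := by
    refine le_trans (hc_mono_right P _ fun ω ω' _ _ e => ?_) a2
    simp only [hY, Prod.mk.injEq] at e ⊢
    exact ⟨e.2.1, e⟩
  -- the later letter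
  have a3 : hc P (ThV D u0 b i1) (fun ω => (D.lt u0 ω, Y ω)) ≤ cT9 K := by
    have hmo := L.mono
    have h3 := L.ai
    have h4 := L.fi
    have h5 := L.dp
    have h := hc_Th (b := b) (i1 := i1) P K1 hag h01 ui ok ok1 L.b8 (by omega) (by omega)
    refine le_trans (hc_mono_right P _ fun ω ω' _ _ e => ?_) h
    rw [← hThM]
    simp only [hY, Prod.mk.injEq] at e ⊢
    exact ⟨e.1, e.2.2.1, e.2.2.2⟩
  have b1 : hc P Y' Y ≤ cL K + cF9 K + cT9 K := by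
    have g1 : hc P Y' Y ≤ hc P (fun ω => (D.lt u0 ω, ((D.fz u0 u0).A u b i1 ω, ThV D u0 b i1 ω))) Y :=
      hc_mono_left P fun ω ω' _ _ e => by
        simp only [hY', hY, Aw, Prod.mk.injEq] at e ⊢
        exact ⟨⟨e.1.2.1, e.1.1⟩, e.2.2.1, e.1.2.2⟩
    have g2 := hc_pair P (D.lt u0) (fun ω => ((D.fz u0 u0).A u b i1 ω, ThV D u0 b i1 ω)) Y
    have g3 := hc_pair P ((D.fz u0 u0).A u b i1) (ThV D u0 b i1) (fun ω => (D.lt u0 ω, Y ω))
    have g4 : hc P (ThV D u0 b i1) (fun ω => ((D.fz u0 u0).A u b i1 ω, (D.lt u0 ω, Y ω))) ≤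
        hc P (ThV D u0 b i1) (fun ω => (D.lt u0 ω, Y ω)) :=
      hc_mono_right P _ fun _ _ _ _ e => congrArg Prod.snd e
    linarith
  -- the position of the index `u + 1`
  have a4 : hc P X (fun ω => ((D.fz u0 u0).A (u + 1) b i1 ω, (D.lt u0 ω, Y ω))) ≤ cF9 K :=
    hc_fr2 P K1 hag L.l1 (Or.inr ⟨rfl, rfl⟩) (C := mfz D (u + 1)) (C2 := D.fz u0 u0) (frm_mfz (by omega))
      (frm_mfz (by omega)) (frm_fz h01) (frm_fz (by omega)) okm' ok (fun ω => (D.lt u0 ω, Y ω))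
      (fun ω ω' p p' e => by
        simp only [hY, Prod.mk.injEq] at e
        exact ⟨congrArg Prod.fst e.2.2.1, e.1, congrArg Prod.fst e.2.2.2⟩)
  have c1 := H833.hc_le_near P X Y' Y
  have c2 := hc_le_add' P X X' (fun ω => (Y ω, Y' ω))
  have c3 : hc P X' (fun ω => (Y ω, Y' ω)) ≤ hc P X' Y' := hc_mono_right P _ fun _ _ _ _ e => congrArg Prod.snd e
  have c4 : hc P X (fun ω => (X' ω, (Y ω, Y' ω))) ≤ cF9 K := by
    refine le_trans (hc_mono_right P _ fun ω ω' _ _ e => ?_) a4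
    simp only [hX', hY, Aw, Prod.mk.injEq] at e ⊢
    exact ⟨e.1.1, e.1.2, e.2.1⟩
  unfold cW9
  linarith

/-! ### the informations -/

lemma ldk_iff {k' : ℕ} (d : D.rf k' ≤ b + D.rr k') (ω ω' : Ω) :
    S3.LDk (D.fz k' k') b k' ω = S3.LDk (D.fz k' k') b k' ω' ↔ DpM D k' b ω = DpM D k' b ω' := by
  have e : EqAt (mfz D k') (D.fz k' k') k' := eqAt_mfz le_rfl le_rfl
  have h : (D.fz k' k').rf k' ≤ b + (D.fz k' k').rk k' := by
    rw [D.fz_rf le_rfl, D.fz_rk le_rfl le_rfl]; exact d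
  rw [H833.LDk_phi h]
  unfold Dp DpM
  rw [e.slR, D.fz_rf le_rfl]
  simp only [Prod.mk.injEq]
  exact and_congr_left' (Mtd.fz_cell_iff D le_rfl b ω ω')

lemma lth_iff {k' : ℕ} (hi : k' ≤ i1) (d : D.rf i1 ≤ b + D.rr k') (ω ω' : Ω) :
    S3.LTh (D.fz k' k') b i1 ω = S3.LTh (D.fz k' k') b i1 ω' ↔ D.lt k' ω = D.lt k' ω' ∧ ThM D k' b i1 ω = ThM D k' b i1 ω' := by
  have e : EqAt (mfz D k') (D.fz k' k') i1 := eqAt_mfz le_rfl hi
  have f : Frm (D.fz k' k') D k' i1 := frm_fz hi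
  have h : (D.fz k' k').rf i1 ≤ b + (D.fz k' k').rk i1 := by
    rw [D.fz_rf hi, D.fz_rk hi hi]; exact d
  unfold S3.LTh ThM
  rw [if_pos h, if_pos h, e.slR, D.fz_rf hi]
  simp only [Prod.mk.injEq]
  rw [f.T]
  unfold tdM
  exact and_assoc

/-- first information -/
lemma i1_eq (P : Law Ω) {pv : ℕ} (hi : u + 1 ≤ i1) (d : D.rf (u + 1) ≤ b + D.rr (u + 1))
    (d' : D.rf i1 ≤ b + D.rr (u + 1)) :
    mi P (fun ω => fl1 (b + pv) (D.l ω).v) ((mfz D (u + 1)).cell i1 b)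
      (fun ω => (DpM D (u + 1) b ω, ThM D (u + 1) b i1 ω)) = H833.I1N P (D.fz (u + 1) (u + 1)) b pv u i1 := by
  have e : EqAt (mfz D (u + 1)) (D.fz (u + 1) (u + 1)) i1 := eqAt_mfz le_rfl hi
  unfold H833.I1N
  rw [e.cell]
  refine mi_congr_cond P _ _ ?_ ?_
  · intro ω ω' _ _ h
    simp only [Prod.mk.injEq] at h ⊢
    exact ⟨(ldk_iff d ω ω').1 h.1, ((lth_iff hi d' ω ω').1 h.2).2⟩
  · intro ω ω' _ _ h
    simp only [Prod.mk.injEq] at h ⊢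
    exact ⟨(ldk_iff d ω ω').2 h.1, (lth_iff hi d' ω ω').2 ⟨congrArg (fun x => x.1.1) h.1, h.2⟩⟩

/-- second information -/
lemma i2_le (P : Law Ω) {b' : ℕ} (hi : u + 1 ≤ i1) (d : D.rf (u + 1) ≤ b + D.rr (u + 1))
    (d' : D.rf i1 ≤ b + D.rr (u + 1)) :
    mi P (ThM D (u + 1) b i1) (D.mtr (u + 1) b') (DpM D (u + 1) b) ≤ H833.I2N P (D.fz (u + 1) (u + 1)) b b' u i1 := by
  unfold H833.I2N
  have e0 : mi P (ThM D (u + 1) b i1) (D.mtr (u + 1) b') (DpM D (u + 1) b) =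
      mi P (ThM D (u + 1) b i1) (D.mtr (u + 1) b') (S3.LDk (D.fz (u + 1) (u + 1)) b (u + 1)) :=
    mi_congr_cond P _ _ (fun ω ω' _ _ h => (ldk_iff d ω ω').1 h) (fun ω ω' _ _ h => (ldk_iff d ω ω').2 h)
  rw [e0]
  refine (mi_mono_left P _ ?_).trans (mi_mono_right P _ ?_)
  · intro ω ω' _ _ h
    simp only [Prod.mk.injEq] at h
    exact ((lth_iff hi d' ω ω').1 h.1).2
  · intro ω ω' _ _ h
    simp only [Prod.mk.injEq] at h
    exact (Mtd.fz_cell_iff D le_rfl b' ω ω').1 h.1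

/-- the collisions of the step, given the cell and the digits of the slope -/
noncomputable def colV (P : Law Ω) (D : Mtd Ω π) (b g k' : ℕ) : ℝ :=
  colp P (fun ω => fl1 (D.a k' + g) (D.t ω)) (DpM D k' b) +
    colp P (fun ω => fl1 (D.rf k' + g) (H683.slR (mfz D k') k' b ω)) (DpM D k' b) +
    colp P (fun ω => fl1 (b + g) (D.l ω).v) (DpM D k' b)

end ent3

/-- 958's N-step over `mtr`, with the constant `c` -/
def PhiM (c : ℕ) : Prop := ∀ {Ω π : Type} [Fintype Ω] (P : Law Ω) (D : Mtd Ω π) (K : ℝ)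
    (c0 m g p b b' j i : ℕ) (ι₁ ι₂ : ℝ), 1 ≤ K → (∀ ω, 0 < P.w ω → HyM D (j + 1) K ω) →
    j + 1 ≤ i → 8 * D.μ ≤ b → 8 * D.μ ≤ D.rf j → D.a (j + 1) + 8 * D.μ ≤ D.a i → D.rf (j + 1) + 8 * D.μ ≤ D.rf i →
    D.rr (j + 1) ≤ D.rf j →
    D.rf (j + 1) + D.a i + 8 * D.μ ≤ b + D.rr (j + 1) + D.a (j + 1) →
    D.rf j + D.a i + 8 * D.μ ≤ b + D.rr (j + 1) + D.a j → D.rf i ≤ b + D.rr (j + 1) →
    ((D.a (j + 1) = D.a j + m ∧ D.rf (j + 1) = D.rf j) ∨ (D.a (j + 1) = D.a j ∧ D.rf (j + 1) = D.rf j + m)) →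
    b + 8 * D.μ ≤ b' → D.μ ≤ p → b + p ≤ b' → 6 * K ≤ 2 ^ c0 → 1 ≤ m → m ≤ g → c * (g + c0 + 1) ≤ D.μ →
    mi P (fun ω => fl1 (b + p) (D.l ω).v) ((mfz D (j + 1)).cell i b)
      (fun ω => (DpM D (j + 1) b ω, ThM D (j + 1) b i ω)) ≤ ι₁ →
    mi P (ThM D (j + 1) b i) (D.mtr (j + 1) b') (DpM D (j + 1) b) ≤ ι₂ →
    (3 * ((D.a (j + 1) : ℝ) - D.a j) + ((D.rf (j + 1) : ℝ) - D.rf j)) * Real.log 2 -
      (c * (c0 + 1) + c * m * (colp P (fun ω => fl1 (D.a (j + 1) + g) (D.t ω)) (DpM D (j + 1) b) +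
        colp P (fun ω => fl1 (D.rf (j + 1) + g) (H683.slR (mfz D (j + 1)) (j + 1) b ω)) (DpM D (j + 1) b) +
        colp P (fun ω => fl1 (b + g) (D.l ω).v) (DpM D (j + 1) b)) +
        (2 : ℝ) ^ (c * (g + c0 + 1)) * (Real.sqrt ι₁ + Real.sqrt ι₂)) ≤
    hc P ((mfz D (j + 1)).A (j + 1) b i)
      (fun ω => ((mfz D (j + 1)).A j b i ω, (D.mtr (j + 1) b ω, ThM D (j + 1) b i ω)))

/-- 958's `satPhi_mfz` with the constant of `H833.PhiC` -/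
theorem phiM_of {c : ℕ} (h : H833.PhiC c) : PhiM c := by
  intro Ω π _ P D K c0 m g p b b' j i ι₁ ι₂ h1K hok hji hb hf ha hrf hrr hr1 hr0 hri hadv hbb hp hbp hK hm hmg hμ hi1 hi2
  have haj1 : (mfz D (j + 1)).a (j + 1) = D.a (j + 1) := mfz_a (by omega)
  have haj : (mfz D (j + 1)).a j = D.a j := mfz_a (by omega)
  have hai : (mfz D (j + 1)).a i = D.a i := mfz_a (by omega)
  have hfj1 : (mfz D (j + 1)).rf (j + 1) = D.rf (j + 1) := mfz_rf (by omega)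
  have hfj : (mfz D (j + 1)).rf j = D.rf j := mfz_rf (by omega)
  have hfi : (mfz D (j + 1)).rf i = D.rf i := mfz_rf (by omega)
  have hkj1 : (mfz D (j + 1)).rk (j + 1) = D.rr (j + 1) := mfz_rk le_rfl
  have hki : (mfz D (j + 1)).rk i = D.rr (j + 1) := mfz_rk hji
  have hkj : (mfz D (j + 1)).rk j = D.rr (j + 1) := by
    show min (D.rr (j + 1)) (D.rf (max j (j + 1 - 1))) = D.rr (j + 1)
    rw [max_eq_left (by omega)]
    exact min_eq_left hrr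
  have e1 := D.ha (Nat.le_succ j)
  have e2 := D.hf (Nat.le_succ j)
  have hm1 : (mfz D (j + 1)).μ = D.μ := rfl
  have R1 : H683.Reg (mfz D (j + 1)) (j + 1) i b := by
    refine ⟨hji, hb, ?_, ?_, ?_, ?_, ?_⟩
    · rw [hfj1, hm1]; omega
    · rw [haj1, hai]; exact ha
    · rw [hfj1, hfi]; exact hrf
    · rw [hfj1, hai, hkj1, haj1]; exact hr1
    · rw [hfi, hki]; exact hri
  have R0 : H683.Reg (mfz D (j + 1)) j i b := by
    refine ⟨by omega, hb, ?_, ?_, ?_, ?_, ?_⟩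
    · rw [hfj]; exact hf
    · rw [haj, hai, hm1]; omega
    · rw [hfj, hfi, hm1]; omega
    · rw [hfj, hai, hkj, haj]; exact hr0
    · rw [hfi, hki]; exact hri
  have eR1 : (mfz D (j + 1)).R (j + 1) b = D.rf (j + 1) := by
    rw [Pth.R_eq, hkj1, hfj1]; omega
  have eR0 : (mfz D (j + 1)).R j b = D.rf j := by
    rw [Pth.R_eq, hkj, hfj]; omega
  have hadv' : MIC.Adv (mfz D (j + 1)) m b j := by
    unfold MIC.Adv
    rw [eR1, eR0, haj1, haj]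
    exact hadv
  have eTh : ∀ ω, MIC.Th (mfz D (j + 1)) b i ω = ((mfz D (j + 1)).T i ω, (ThM D (j + 1) b i ω).2) := by
    intro ω
    unfold MIC.Th
    rw [if_pos (by rw [hfi, hki]; exact hri), hfi]
    rfl
  have eDp : ∀ ω ω', H683.Dp (mfz D (j + 1)) (j + 1) b ω = H683.Dp (mfz D (j + 1)) (j + 1) b ω' ↔
      DpM D (j + 1) b ω = DpM D (j + 1) b ω' := by
    intro ω ω'
    unfold H683.Dp DpM
    rw [hfj1]
    simp only [Prod.mk.injEq]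
    exact and_congr_left' (mfz_cell_iff b ω ω')
  have eTj : ∀ ω ω', DpM D (j + 1) b ω = DpM D (j + 1) b ω' → D.lt (j + 1) ω = D.lt (j + 1) ω' := by
    intro ω ω' e
    exact congrArg Prod.fst (congrArg Prod.fst e)
  have eThiff : ∀ ω ω', D.lt (j + 1) ω = D.lt (j + 1) ω' → (MIC.Th (mfz D (j + 1)) b i ω =
      MIC.Th (mfz D (j + 1)) b i ω' ↔ ThM D (j + 1) b i ω = ThM D (j + 1) b i ω') := by
    intro ω ω' hT
    rw [eTh, eTh]
    unfold ThM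
    simp only [Prod.mk.injEq]
    refine and_congr_left' ?_
    rw [mfz_T_iff (by omega)]
    exact ⟨fun e => e.2, fun e => ⟨hT, e⟩⟩
  have m1 : mi P (fun ω => fl1 (b + p) ((mfz D (j + 1)).l ω).v) ((mfz D (j + 1)).cell i b)
      (fun ω => (H683.Dp (mfz D (j + 1)) (j + 1) b ω, MIC.Th (mfz D (j + 1)) b i ω)) ≤ ι₁ := by
    refine le_trans (le_of_eq ?_) hi1
    refine mi_congr_cond P _ _ ?_ ?_
    · intro ω ω' _ _ e
      simp only [Prod.mk.injEq] at e ⊢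
      exact ⟨(eDp ω ω').2 e.1, (eThiff ω ω' (eTj ω ω' e.1)).2 e.2⟩
    · intro ω ω' _ _ e
      simp only [Prod.mk.injEq] at e ⊢
      have e1 := (eDp ω ω').1 e.1
      exact ⟨e1, (eThiff ω ω' (eTj ω ω' e1)).1 e.2⟩
  have m2 : mi P (MIC.Th (mfz D (j + 1)) b i) ((mfz D (j + 1)).cell (j + 1) b')
      (H683.Dp (mfz D (j + 1)) (j + 1) b) ≤ ι₂ := by
    refine le_trans ?_ hi2
    have e0 : mi P (MIC.Th (mfz D (j + 1)) b i) ((mfz D (j + 1)).cell (j + 1) b')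
        (H683.Dp (mfz D (j + 1)) (j + 1) b) = mi P (MIC.Th (mfz D (j + 1)) b i) ((mfz D (j + 1)).cell (j + 1) b')
        (DpM D (j + 1) b) :=
      mi_congr_cond P _ _ (fun ω ω' _ _ e => (eDp ω ω').2 e) (fun ω ω' _ _ e => (eDp ω ω').1 e)
    rw [e0]
    refine (mi_mono_left P _ ?_).trans (mi_mono_right P _ ?_)
    · intro ω ω' _ _ e
      simp only [Prod.mk.injEq] at e
      exact (eThiff ω ω' (eTj ω ω' e.2)).2 e.1
    · intro ω ω' _ _ e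
      simp only [Prod.mk.injEq] at e
      exact (mfz_cell_iff b' ω ω').2 e.1
  have main := h P (mfz D (j + 1)) (3 * K) c0 m g p b b' j i ι₁ ι₂ (fun ω hω => mfz_Ok h1K (hok ω hω)) R1 R0 hadv'
    hbb hp hbp (by linarith) hm hmg hμ m1 m2
  unfold MIC.SatN at main
  have c1 : MIC.wt (mfz D (j + 1)) b j = 3 * ((D.a (j + 1) : ℝ) - D.a j) + ((D.rf (j + 1) : ℝ) - D.rf j) := by
    unfold MIC.wt
    rw [eR1, eR0, haj1, haj]
  have c2 : ∀ {S : Type} (X : Ω → S), colp P X (H683.Dp (mfz D (j + 1)) (j + 1) b) = colp P X (DpM D (j + 1) b) :=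
    fun X => Vale.Agent.P127.U.Mic.colp_congr P (fun _ _ _ _ e => congrArg Prod.fst e)
      (fun _ _ _ _ e => congrArg Prod.fst e) (fun ω ω' _ _ e => (eDp ω ω').2 e) (fun ω ω' _ _ e => (eDp ω ω').1 e)
  have c3 : MIC.cT P (mfz D (j + 1)) b (j + 1) g =
      colp P (fun ω => fl1 (D.a (j + 1) + g) (D.t ω)) (DpM D (j + 1) b) := by
    unfold MIC.cT
    rw [c2, haj1]
    rfl
  have c4 : MIC.cF P (mfz D (j + 1)) b (j + 1) g =
      colp P (fun ω => fl1 (D.rf (j + 1) + g) (H683.slR (mfz D (j + 1)) (j + 1) b ω)) (DpM D (j + 1) b) := by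
    unfold MIC.cF
    rw [c2, hfj1]
  have c5 : MIC.cY P (mfz D (j + 1)) b (j + 1) g =
      colp P (fun ω => fl1 (b + g) (D.l ω).v) (DpM D (j + 1) b) := c2 _
  rw [c1, c3, c4, c5] at main
  refine main.trans (le_of_eq ?_)
  refine hc_congr P (fun ω ω' _ _ e => congrArg Prod.fst e) (fun ω ω' _ _ e => congrArg Prod.fst e) ?_ ?_
  · intro ω ω' _ _ e
    simp only [Prod.mk.injEq] at e ⊢
    exact ⟨e.1, (mfz_cell_iff b ω ω').2 e.2.1, (eThiff ω ω' (congrArg Prod.fst e.2.1)).2 e.2.2⟩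
  · intro ω ω' _ _ e
    simp only [Prod.mk.injEq] at e ⊢
    have e1 := (mfz_cell_iff b ω ω').1 e.2.1
    exact ⟨e.1, e1, (eThiff ω ω' (congrArg Prod.fst e1)).1 e.2.2⟩

theorem exists_phiM : ∃ c, PhiM c := by
  obtain ⟨c, h⟩ := H833.exists_phiC
  exact ⟨c, phiM_of h⟩

/-- **[PHI-V] the N-step of a unit step of a deep phi window**, in the frame of the window -/
theorem phiV_step {c : ℕ} (hcc : PhiM c) [Fintype Ω] (P : Law Ω) (K1 : 1 ≤ K) (hy : ∀ ω, 0 < P.w ω → D.Hy K I ω)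
    (h0 : u0 ∈ I) (h1 : u + 1 ∈ I) (hm : ∀ ω, 0 < P.w ω → HyM D (u + 1) (3 * K) ω) (L : LevV D u0 u i1 b)
    (hlt : hc P (D.lt u0) (D.mtr (u + 1) b) ≤ cL K) {c0 m g pv b' : ℕ}
    (adv : (D.a (u + 1) = D.a u + m ∧ D.rf (u + 1) = D.rf u) ∨ (D.a (u + 1) = D.a u ∧ D.rf (u + 1) = D.rf u + m))
    (hbb : b + 8 * D.μ ≤ b') (hp : D.μ ≤ pv) (hbp : b + pv ≤ b') (hK0 : 18 * K ≤ 2 ^ c0) (m1 : 1 ≤ m) (mg : m ≤ g)
    (hμ : c * (g + c0 + 1) ≤ D.μ) :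
    (3 * ((D.a (u + 1) : ℝ) - D.a u) + ((D.rf (u + 1) : ℝ) - D.rf u)) * Real.log 2 -
      (c * (c0 + 1) + c * m * colV P D b g (u + 1) + (2 : ℝ) ^ (c * (g + c0 + 1)) *
        (Real.sqrt (H833.I1N P (D.fz (u + 1) (u + 1)) b pv u i1) +
          Real.sqrt (H833.I2N P (D.fz (u + 1) (u + 1)) b b' u i1)) + cW9 K) ≤
    hc P (Aw D u0 b i1 (u + 1)) (fun ω => (Aw D u0 b i1 u ω, (D.mtr (u + 1) b ω, ThV D u0 b i1 ω))) := by
  have hmo := L.mono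
  have l1 := L.u0u
  have l2 := L.ui
  have l3 := L.ai
  have l4 := L.fi
  have l5 := L.dp
  have hrr : D.rr u0 ≤ D.rr (u + 1) := Nat.sub_le_sub_right (D.hk (by omega)) _
  have hfi : D.rf (u + 1) ≤ D.rf i1 := D.hf l2
  have hai : D.a (u + 1) ≤ D.a i1 := D.ha l2
  have d1 : D.rf (u + 1) ≤ b + D.rr (u + 1) := by omega
  have d2 : D.rf i1 ≤ b + D.rr (u + 1) := by omega
  have ok : ∀ k, k ∈ I → ∀ ω, 0 < P.w ω → (D.fz k k).Ok (9 * K) ω := fun k hk ω p =>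
    okm (Mtd.fzk_ok K1 (hy ω p) hk) (by linarith)
  have okM : ∀ ω, 0 < P.w ω → (mfz D (u + 1)).Ok (9 * K) ω := fun ω p => by
    have := mfz_Ok (K := 3 * K) (by linarith) (hm ω p)
    rwa [show 3 * (3 * K) = 9 * K by ring] at this
  have main := hcc P D (3 * K) c0 m g pv b b' u i1 _ _ (by linarith) hm l2 L.b8 L.f8 l3 l4 L.kf (by omega) (by omega) d2 adv
    hbb hp hbp (by linarith) m1 mg hμ (i1_eq (pv := pv) P l2 d1 d2).le (i2_le (b' := b') P l2 d1 d2)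
  have h := phiV_s P K1 hy h0 h1 (ok u0 h0) (ok (u + 1) h1) okM L hlt main
  refine le_trans (le_of_eq ?_) h
  unfold colV
  ring

end Vale.Agent.P106.U.H683.PhV
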