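import Vale.Agent.P127.U.Mic.Colp

/-!
# P106 / U / H683 : reductions of the hypotheses of the M-steps, raw part (helper683)

* `colp_fin` : adding to the condition a variable with at most `N` values costs a square root:
  `colp (X | s, Z) ≤ √(N colp (X | Z))`.
* `colp_aff` : collisions of digits of a variable from collisions of the digits of another one.
* `mi_pair_cond`, `mi_f1` : informations with a refined condition.
-/

set_option autoImplicit false

namespace Vale.Agent.P106.U.H683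

open Finset Vale.Agent.P127 Vale.Agent.P127.Stk Vale.Agent.P127.U.Pin Vale.Agent.P127.U.Mic

variable {Ω : Type} [Fintype Ω] {S S' T T' U V : Type*}

/-- Cauchy-Schwarz -/
lemma ex_cs (P : Law Ω) (f g : Ω → ℝ) :
    (P.ex fun ω => f ω * g ω) ^ 2 ≤ (P.ex fun ω => f ω ^ 2) * P.ex fun ω => g ω ^ 2 := by
  have h := Finset.sum_mul_sq_le_sq_mul_sq Finset.univ (fun ω => Real.sqrt (P.w ω) * f ω)
    (fun ω => Real.sqrt (P.w ω) * g ω)
  have e : ∀ ω, Real.sqrt (P.w ω) * Real.sqrt (P.w ω) = P.w ω := fun ω => Real.mul_self_sqrt (P.nn ω)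
  have e1 : ∑ ω, Real.sqrt (P.w ω) * f ω * (Real.sqrt (P.w ω) * g ω) = P.ex fun ω => f ω * g ω := by
    unfold Law.ex
    refine Finset.sum_congr rfl fun ω _ => ?_
    calc _ = (Real.sqrt (P.w ω) * Real.sqrt (P.w ω)) * (f ω * g ω) := by ring
      _ = _ := by rw [e]
  have e2 : ∀ f : Ω → ℝ, ∑ ω, (Real.sqrt (P.w ω) * f ω) ^ 2 = P.ex fun ω => f ω ^ 2 := by
    intro f
    unfold Law.ex
    refine Finset.sum_congr rfl fun ω _ => ?_
    calc _ = (Real.sqrt (P.w ω) * Real.sqrt (P.w ω)) * f ω ^ 2 := by ring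
      _ = _ := by rw [e]
  rw [e1, e2, e2] at h
  exact h

/-- the mean of `1 / P(s | Z)` is at most the number of values -/
lemma ex_inv_cq (P : Law Ω) (s : Ω → S) (Z : Ω → T) (N : ℕ)
    (hN : ∀ ω, 0 < P.w ω → ∃ F : Finset S, F.card ≤ N ∧
      ∀ ω', 0 < P.w ω' → Z ω' = Z ω → s ω' ∈ F) :
    P.ex (fun ω => 1 / cq P s Z (s ω) (Z ω)) ≤ N := by
  classical
  rw [← ex_cond P Z]
  have key : ∀ ω, 0 < P.w ω →
      (P.cond Z (Z ω)).ex (fun ω' => 1 / cq P s Z (s ω') (Z ω')) ≤ (N : ℝ) := by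
    intro ω hω
    obtain ⟨F, hF, hFm⟩ := hN ω hω
    have hz := P.pr_pos Z hω
    set R := P.cond Z (Z ω) with hR
    have e1 : R.ex (fun ω' => 1 / cq P s Z (s ω') (Z ω')) =
        R.ex (fun ω' => 1 / R.pr s (s ω')) := by
      refine Law.ex_congr _ fun ω' h' => ?_
      obtain ⟨h1, h2⟩ := cond_supp P Z hz h'
      rw [h1, cq_eq_cond P s Z _ hz]
    rw [e1, ex_own_aux R s (fun x _ => 1 / R.pr s x)]
    have e2 : ∀ x ∈ img s, R.ex (fun ω' => Law.ind (s ω' = x) * (1 / R.pr s x)) =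
        if 0 < R.pr s x then 1 else 0 := by
      intro x _
      have : R.ex (fun ω' => Law.ind (s ω' = x) * (1 / R.pr s x)) =
          R.pr s x * (1 / R.pr s x) := by
        rw [Law.pr_eq_ex, mul_comm, ← Law.ex_const_mul]
        refine Law.ex_congr _ fun ω' _ => ?_
        ring
      rw [this]
      split_ifs with h
      · field_simp
      · have : R.pr s x = 0 := le_antisymm (not_lt.1 h) (R.pr_nonneg _ _)
        rw [this]
        simp
    rw [Finset.sum_congr rfl e2, Finset.sum_ite, Finset.sum_const_zero, add_zero,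
      Finset.sum_const, nsmul_eq_mul, mul_one]
    have h3 : ((img s).filter fun x => 0 < R.pr s x).card ≤ F.card := by
      refine Finset.card_le_card fun x hx => ?_
      obtain ⟨-, hx⟩ := Finset.mem_filter.1 hx
      unfold Law.pr at hx
      obtain ⟨ω', h4, h5⟩ := Finset.exists_ne_zero_of_sum_ne_zero hx.ne'
      have h6 : s ω' = x := by simpa using h4
      have h7 : 0 < R.w ω' := lt_of_le_of_ne (R.nn _) (Ne.symm h5)
      obtain ⟨h8, h9⟩ := cond_supp P Z hz h7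
      rw [← h6]
      exact hFm ω' h9 h8
    exact_mod_cast h3.trans hF
  have := P.ex_mono (f := fun ω => (P.cond Z (Z ω)).ex (fun ω' => 1 / cq P s Z (s ω') (Z ω')))
    (g := fun _ => (N : ℝ)) key
  rwa [P.ex_const] at this

/-- **a finer condition with at most `N` values** -/
theorem colp_fin (P : Law Ω) (X : Ω → S') (s : Ω → S) (Z : Ω → T) (N : ℕ)
    (hN : ∀ ω, 0 < P.w ω → ∃ F : Finset S, F.card ≤ N ∧
      ∀ ω', 0 < P.w ω' → Z ω' = Z ω → s ω' ∈ F) :
    colp P X (fun ω => (s ω, Z ω)) ≤ Real.sqrt (N * colp P X Z) := by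
  classical
  have hinv := ex_inv_cq P s Z N hN
  set c' : Ω → ℝ := fun ω => cq P X (fun ω => (s ω, Z ω)) (X ω) (s ω, Z ω) with hc'
  set c : Ω → ℝ := fun ω => cq P X Z (X ω) (Z ω) with hc
  set π : Ω → ℝ := fun ω => cq P s Z (s ω) (Z ω) with hπ
  have hπ0 : ∀ ω, 0 ≤ π ω := fun ω => cq_nonneg _ _ _ _ _
  have hπp : ∀ ω, 0 < P.w ω → 0 < π ω := by
    intro ω hω
    have h1 := P.pr_pos Z hω
    have h2 := P.pr_pos (fun ω => (s ω, Z ω)) hω
    exact div_pos h2 h1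
  have key : ∀ ω, 0 < P.w ω → c' ω ^ 2 * π ω ≤ c ω := by
    intro ω hω
    have h1 := P.pr_pos Z hω
    have h2 := P.pr_pos (fun ω => (s ω, Z ω)) hω
    have h3 : 0 ≤ c' ω := cq_nonneg _ _ _ _ _
    have h4 : c' ω ≤ 1 := cq_le_one _ _ _ _ _
    have h5 : c' ω * π ω ≤ c ω := by
      show P.pr (fun ω => (X ω, (s ω, Z ω))) (X ω, (s ω, Z ω)) /
        P.pr (fun ω => (s ω, Z ω)) (s ω, Z ω) *
        (P.pr (fun ω => (s ω, Z ω)) (s ω, Z ω) / P.pr Z (Z ω)) ≤
        P.pr (fun ω => (X ω, Z ω)) (X ω, Z ω) / P.pr Z (Z ω)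
      rw [div_mul_div_cancel₀ h2.ne']
      refine div_le_div_of_nonneg_right ?_ h1.le
      refine pr_le_pr P fun ω' h => ?_
      simp only [Prod.mk.injEq] at h ⊢
      exact ⟨h.1, h.2.2⟩
    nlinarith [hπ0 ω, mul_nonneg h3 (hπ0 ω)]
  have hcs := ex_cs P (fun ω => c' ω * Real.sqrt (π ω)) (fun ω => 1 / Real.sqrt (π ω))
  have e1 : P.ex (fun ω => c' ω * Real.sqrt (π ω) * (1 / Real.sqrt (π ω))) = P.ex c' := by
    refine P.ex_congr fun ω hω => ?_
    have := Real.sqrt_pos.2 (hπp ω hω)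
    field_simp
  have e2 : P.ex (fun ω => (c' ω * Real.sqrt (π ω)) ^ 2) ≤ P.ex c := by
    refine P.ex_mono fun ω hω => ?_
    rw [mul_pow, Real.sq_sqrt (hπ0 ω)]
    exact key ω hω
  have e3 : P.ex (fun ω => (1 / Real.sqrt (π ω)) ^ 2) ≤ N := by
    refine le_trans (le_of_eq ?_) hinv
    refine P.ex_congr fun ω hω => ?_
    rw [div_pow, Real.sq_sqrt (hπ0 ω), one_pow]
  rw [e1] at hcs
  have h0 : 0 ≤ P.ex c := P.ex_nonneg fun ω _ => cq_nonneg _ _ _ _ _
  have h1 : 0 ≤ P.ex (fun ω => (1 / Real.sqrt (π ω)) ^ 2) := P.ex_nonneg fun ω _ => sq_nonneg _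
  have h2 : P.ex c' ^ 2 ≤ N * P.ex c := by
    refine hcs.trans ?_
    rw [mul_comm (N : ℝ)]
    exact mul_le_mul e2 e3 h1 h0
  have h3 : 0 ≤ P.ex c' := P.ex_nonneg fun ω _ => cq_nonneg _ _ _ _ _
  show P.ex c' ≤ Real.sqrt (N * P.ex c)
  exact Real.le_sqrt_of_sq_le h2

/-- with a function of the finer condition -/
theorem colp_fin' (P : Law Ω) (X : Ω → S') (s : Ω → S) (Z : Ω → T) (D : Ω → U) (N : ℕ)
    (hN : ∀ ω, 0 < P.w ω → ∃ F : Finset S, F.card ≤ N ∧
      ∀ ω', 0 < P.w ω' → Z ω' = Z ω → s ω' ∈ F)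
    (hD : Fn P D (fun ω => (s ω, Z ω))) : colp P X D ≤ Real.sqrt (N * colp P X Z) :=
  (colp_mono_cond P X hD).trans (colp_fin P X s Z N hN)

/-- collisions of `X` are near-collisions of `Y` -/
theorem colp_near (P : Law Ω) (X : Ω → S) (Y : Ω → ℤ) (Z : Ω → T) (k : ℕ)
    (h : ∀ ω ω', 0 < P.w ω → 0 < P.w ω' → Z ω = Z ω' → X ω = X ω' → |Y ω - Y ω'| ≤ k) :
    colp P X Z ≤ (2 * k + 1) * colp P Y Z := by
  refine le_trans ?_ (pair_near_le P Y Z k)
  refine P.ex_mono fun ω hω => ?_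
  have hz := P.pr_pos Z hω
  rw [cq_eq_cond P X Z _ hz, Law.pr_eq_ex]
  refine Law.ex_mono _ fun ω' h' => ?_
  obtain ⟨h1, h2⟩ := cond_supp P Z hz h'
  by_cases hx : X ω' = X ω
  · rw [Law.ind_of hx, Law.ind_of (h ω ω' hω h2 h1.symm hx.symm)]
  · rw [Law.ind_not hx]
    exact ind_nonneg _

/-- F2 with a refined condition -/
theorem mi_pair_cond (P : Law Ω) (A : Ω → S) (s : Ω → S') (W : Ω → T) (D : Ω → U) :
    mi P A W (fun ω => (D ω, s ω)) ≤ mi P (fun ω => (A ω, s ω)) W D := by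
  have h := mi_cond_le P (X := fun ω => (A ω, s ω)) W (W := s) D
    (by intro x y _ _ e; exact congrArg (fun q => q.1.2) e)
  have h1 : mi P A W (fun ω => (D ω, s ω)) ≤
      mi P (fun ω => (A ω, s ω)) W (fun ω => (s ω, D ω)) := by
    have e1 : mi P A W (fun ω => (D ω, s ω)) = mi P A W (fun ω => (s ω, D ω)) :=
      mi_congr_cond P A W (by intro x y _ _ e; simp only [Prod.mk.injEq] at e ⊢; exact ⟨e.2, e.1⟩)
        (by intro x y _ _ e; simp only [Prod.mk.injEq] at e ⊢; exact ⟨e.2, e.1⟩)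
    rw [e1]
    exact mi_mono_left P W (by intro x y _ _ e; exact congrArg (fun q => q.1.1) e)
  exact h1.trans h

/-- F1 with a refined condition: `Θ` a function of `E`, `s` almost a function of `E` -/
theorem mi_f1 (P : Law Ω) (y : Ω → S) (E : Ω → T) (D : Ω → U) (s : Ω → S') (Θ : Ω → V)
    (hΘ : Fn P Θ E) :
    mi P y E (fun ω => ((D ω, s ω), Θ ω)) ≤ mi P y E D + hc P s E := by
  have h1 : mi P y E (fun ω => ((D ω, s ω), Θ ω)) ≤ mi P y E (fun ω => (D ω, s ω)) := by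
    rw [mi_symm P y E, mi_symm P y E]
    have e1 : mi P E y (fun ω => ((D ω, s ω), Θ ω)) =
        mi P E y (fun ω => (Θ ω, (D ω, s ω))) :=
      mi_congr_cond P E y (by intro x y _ _ e; simp only [Prod.mk.injEq] at e ⊢; exact ⟨e.2, e.1⟩)
        (by intro x y _ _ e; simp only [Prod.mk.injEq] at e ⊢; exact ⟨e.2, e.1⟩)
    rw [e1]
    exact mi_cond_le P y _ (by intro x z p q e; exact hΘ x z p q (Prod.mk.inj e).1)
  have h2 : mi P y E (fun ω => (D ω, s ω)) ≤ mi P y (fun ω => (E ω, s ω)) D := by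
    have h := mi_pair_cond P E s y D
    rw [mi_symm P y E, mi_symm P y (fun ω => (E ω, s ω))]
    exact h
  have h3 := mi_pair P y E s D
  have h4 := mi_le_hc' P y s (fun ω => (E ω, D ω))
  have h5 : hc P s (fun ω => (E ω, D ω)) ≤ hc P s E :=
    hc_mono_right P s (by intro x z _ _ e; exact (Prod.mk.inj e).1)
  linarith

end Vale.Agent.P106.U.H683
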