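import Vale.Agent.P106.U.H683.Bd

/-!
# P106 / U / H683 : two rays of the same cell (helper683)

* `Nr` : closeness of two rays at the time `s`, level `A`, cap `b`, margin `μ`.
* `nr_cell` : two points with the same cell `(k, b)` are close at the level `a k`, at their own time;
  `Nr.move` : at another time.
* `fu_*` : the difference of two functionals `F - ρ F'` with `cN = 0` at a reference ray.
-/

set_option autoImplicit false

namespace Vale.Agent.P106.U.H683

open Vale.Agent.P127 Vale.Agent.P127.Stk Vale.Agent.P106.U.Cell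
open Vale.Agent.P127.U.CellD

/-! ### digits -/

lemma near_fl1 {n : ℕ} {x y : ℝ} (h : fl1 n x = fl1 n y) : |x - y| ≤ q2 n := by
  have h1 : rd n x = rd n y := by unfold rd; rw [h]
  have a1 := rd_le n x
  have a2 := lt_rd n x
  have b1 := rd_le n y
  have b2 := lt_rd n y
  rw [abs_le]
  constructor <;> linarith

lemma rd_congr {n m : ℕ} (hnm : n ≤ m) {x y : ℝ} (h : fl1 m x = fl1 m y) : rd n x = rd n y := by
  unfold rd
  rw [fl1_fl1 hnm h]

/-! ### closeness of rays -/

/-- closeness of the rays `l`, `l'` at the time `s`, level `A`, cap `b`, margin `μ` -/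
structure Nr (K : ℝ) (c : ℕ) (A b μ : ℕ) (l l' : Ray) (s : ℝ) : Prop where
  X : Bd K c 0 (A + b - μ) (l'.X s - l.X s)
  N : Bd K c 0 (A + b - μ) (l'.N s - l.N s)
  v : Bd K 1 0 b (l'.v - l.v)
  w : Bd K 1 0 (b - μ) (l'.w - l.w)
  z : Bd K c 0 (A + 2 * b - 3 * μ) (l.dz l' s)

lemma Nr.move {K : ℝ} {c A b μ : ℕ} {l l' : Ray} {s s' : ℝ} (hK : 1 ≤ K) (h : Nr K c A b μ l l' s)
    (hb : 8 * μ ≤ b) (hs : |s' - s| ≤ q2 A) : Nr K (c + 1) A b μ l l' s' := by
  have hs1 : Bd K 1 0 A (s' - s) := Bd.mk0 hs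
  have e1 : s' = s + (s' - s) := by ring
  refine ⟨?_, ?_, h.v, h.w, ?_⟩
  · rw [e1, Ray.X_add, Ray.X_add]
    have h1 := (hs1.mul h.v).mono (c' := 1) (e' := 0) (n' := A + b - μ) hK (by omega) (by omega)
      (by omega)
    refine (h.X.add h1).congr ?_
    ring
  · rw [e1, Ray.N_add, Ray.N_add]
    have h1 := (hs1.mul h.w).mono (c' := 1) (e' := 0) (n' := A + b - μ) hK (by omega) (by omega)
      (by omega)
    refine (h.N.add h1).congr ?_
    ring
  · rw [e1, Ray.dz_add]
    have hv := (h.v.mul h.v).mono (c' := 1) (e' := 0) (n' := 2 * b - 2 * μ) hK (by omega) (by omega)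
      (by omega)
    have hw := (h.w.mul h.w).mono (c' := 1) (e' := 0) (n' := 2 * b - 2 * μ) hK (by omega) (by omega)
      (by omega)
    have h2 : Bd K 1 0 (2 * b - 2 * μ) (((l'.v - l.v) ^ 2 + (l'.w - l.w) ^ 2) / 2) := by
      have h3 := hv.add hw
      unfold Bd at h3 ⊢
      rw [abs_div, abs_of_pos (by norm_num : (0 : ℝ) < 2), div_le_iff₀ (by norm_num)]
      have e2 : (l'.v - l.v) ^ 2 + (l'.w - l.w) ^ 2 =
        (l'.v - l.v) * (l'.v - l.v) + (l'.w - l.w) * (l'.w - l.w) := by ring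
      rw [e2]
      refine h3.trans (le_of_eq ?_)
      push_cast
      ring
    have h1 := (hs1.mul h2).mono (c' := 1) (e' := 0) (n' := A + 2 * b - 3 * μ) hK (by omega)
      (by omega) (by omega)
    exact h.z.add h1

/-! ### comparison of two functionals -/

section two

variable {K : ℝ} {F G : Fu} {l l' : Ray} {s ρ : ℝ}

/-- `F - ρ G` -/
def cmb (F G : Fu) (ρ : ℝ) : Fu := ⟨F.ga - ρ * G.ga, F.ph - ρ * G.ph, F.ka - ρ * G.ka, F.al - ρ * G.al⟩

lemma cmb_g : (cmb F G ρ).g l s = F.g l s - ρ * G.g l s := by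
  unfold cmb Fu.g; ring

lemma cmb_gd : (cmb F G ρ).gd l s = F.gd l s - ρ * G.gd l s := by
  unfold cmb Fu.gd; ring

lemma cmb_cN : (cmb F G ρ).cN l s = F.cN l s - ρ * G.cN l s := by
  unfold cmb Fu.cN; ring

lemma cmb_cV : (cmb F G ρ).cV l s = F.cV l s - ρ * G.cV l s := by
  unfold cmb Fu.cV; ring

lemma cN_sub (F : Fu) : F.cN l' s - F.cN l s = -(F.ka * (l'.w - l.w)) - F.al * (l'.N s - l.N s) := by
  unfold Fu.cN; ring

lemma cV_sub (F : Fu) : F.cV l' s - F.cV l s = F.ka * (l'.v - l.v) + F.al * (l'.X s - l.X s) := by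
  unfold Fu.cV; ring

/-- size of the difference of two functionals which agree to `r` digits in a ball of level `A` -/
structure Sz (K : ℝ) (r A : ℕ) (F : Fu) (l : Ray) (s : ℝ) : Prop where
  cN : F.cN l s = 0
  ka : Bd K 2 3 r F.ka
  al : Bd K 2 3 r (F.al * q2 A)

/-- the difference of two normalised functionals -/
lemma sz_of {r A : ℕ} (hK : 1 ≤ K) (h : Pth.Agr K r A F G l s) (n1 : 1 ≤ K * G.cN l s)
    (k1 : |G.ka| ≤ K) (a1 : |G.al| * q2 A ≤ K) (hρ : ρ = F.cN l s / G.cN l s) :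
    Sz K r A (cmb F G ρ) l s := by
  have hc : 0 < G.cN l s := by
    by_contra hcon
    push Not at hcon
    nlinarith
  have hinv : 1 / G.cN l s ≤ K := by
    rw [div_le_iff₀ hc]
    exact n1
  have hr1 : Bd K 1 2 r (ρ - 1) := by
    have e1 : ρ - 1 = -(G.cN l s - F.cN l s) * (1 / G.cN l s) := by
      rw [hρ]; field_simp; ring
    have h1 : Bd K 1 1 r (G.cN l s - F.cN l s) := by
      have := h.cN
      unfold Bd
      simpa using this
    have h2 : Bd K 1 1 0 (1 / G.cN l s) := Bd.of_le (by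
      rw [abs_of_nonneg (by positivity)]
      exact hinv)
    rw [e1]
    exact h1.neg.mul h2
  refine ⟨?_, ?_, ?_⟩
  · rw [cmb_cN, hρ]
    field_simp
    ring
  · have h1 : Bd K 1 1 r (G.ka - F.ka) := by
      have := h.ka
      unfold Bd
      simpa using this
    have h2 : Bd K 1 3 r ((ρ - 1) * G.ka) := (hr1.mul (Bd.of_le k1)).mono hK le_rfl le_rfl le_rfl
    have h3 := (h1.mono (c' := 1) (e' := 3) hK le_rfl (by omega) le_rfl).add h2
    refine h3.neg.congr ?_
    show _ = F.ka - ρ * G.ka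
    ring
  · have h1 : Bd K 1 1 r ((G.al - F.al) * q2 A) := by
      have := h.al
      unfold Bd
      rw [abs_mul, abs_of_pos (q2_pos A)]
      simpa using this
    have h0 : |G.al * q2 A| ≤ K := by
      rw [abs_mul, abs_of_pos (q2_pos A)]
      exact a1
    have h2 : Bd K 1 3 r ((ρ - 1) * (G.al * q2 A)) :=
      (hr1.mul (Bd.of_le h0)).mono hK le_rfl le_rfl le_rfl
    have h3 := (h1.mono (c' := 1) (e' := 3) hK le_rfl (by omega) le_rfl).add h2
    refine h3.neg.congr ?_
    show _ = (F.al - ρ * G.al) * q2 A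
    ring

variable {c r A B b μ E : ℕ}

/-- hypotheses on the levels: `B` = level of the closeness, `A` = level of the ball, `E` = smallness -/
structure Lvl (r A B b μ E : ℕ) : Prop where
  b8 : 8 * μ ≤ b
  BA : B ≤ A
  AB : A + 3 * μ ≤ B + b
  E2 : E + A + 3 * μ ≤ r + B + b

lemma sz_gd (hK : 1 ≤ K) (h : Sz K r A F l s) (hn : Nr K c B b μ l l' s) (hL : Lvl r A B b μ E) :
    Bd K (4 + 6 * c) 3 (E + b) (F.gd l' s - F.gd l s + F.cV l s * (l'.v - l.v)) := by
  obtain ⟨b8, BA, AB, E2⟩ := hL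
  have e0 := Fu.gd_sub F l l' s
  rw [h.cN] at e0
  have hv := (hn.v.mul hn.v).mono (c' := 1) (e' := 0) (n' := 2 * b - 2 * μ) hK (by omega) (by omega)
      (by omega)
  have hw := (hn.w.mul hn.w).mono (c' := 1) (e' := 0) (n' := 2 * b - 2 * μ) hK (by omega) (by omega)
      (by omega)
  have t1 : Bd K 4 3 (E + b) (F.ka * ((l'.v - l.v) * (l'.v - l.v) +
      (l'.w - l.w) * (l'.w - l.w))) :=
    (h.ka.mul (hv.add hw)).mono hK (by omega) (by omega) (by omega)
  have x1 := (hn.X.mul hn.v).mono (c' := c) (e' := 0) (n' := A + (B + 2 * b - 3 * μ - A)) hK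
    (by omega) (by omega) (by omega)
  have x2 := (hn.N.mul hn.w).mono (c' := c) (e' := 0) (n' := A + (B + 2 * b - 3 * μ - A)) hK
    (by omega) (by omega) (by omega)
  have x3 := hn.z.mono (c' := c) (e' := 0) (n' := A + (B + 2 * b - 3 * μ - A)) hK
    (by omega) (by omega) (by omega)
  have t2 := (h.al.mulA ((x1.add x2).sub x3)).mono (c' := 6 * c) (e' := 3) (n' := E + b) hK
    (by omega) (by omega) (by omega)
  refine ((t1.half.add t2).neg.congr ?_).mono hK (by omega) le_rfl le_rfl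
  linear_combination (-1 : ℝ) * e0

lemma sz_g (hK : 1 ≤ K) (h : Sz K r A F l s) (hn : Nr K c B b μ l l' s) (hL : Lvl r A B b μ E) :
    Bd K (2 * c + 4 * c * c) 3 (E + B + b) (F.g l' s - F.g l s + F.cV l s * (l'.X s - l.X s)) := by
  obtain ⟨b8, BA, AB, E2⟩ := hL
  have e0 := Fu.g_sub F l l' s
  rw [h.cN] at e0
  have t1 : Bd K (2 * c) 3 (E + B + b) (F.ka * l.dz l' s) :=
    (h.ka.mul hn.z).mono hK (by omega) (by omega) (by omega)
  have x1 := (hn.X.mul hn.X).mono (c' := c * c) (e' := 0) (n' := A + (2 * B + 2 * b - 2 * μ - A)) hK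
    le_rfl (by omega) (by omega)
  have x2 := (hn.N.mul hn.N).mono (c' := c * c) (e' := 0) (n' := A + (2 * B + 2 * b - 2 * μ - A)) hK
    le_rfl (by omega) (by omega)
  have t2 := (h.al.mulA (x1.add x2)).mono (c' := 4 * c * c) (e' := 3) (n' := E + B + b) hK
    (by nlinarith) (by omega) (by omega)
  refine ((t1.add t2.half).neg.congr ?_).mono hK (by omega) le_rfl le_rfl
  linear_combination (-1 : ℝ) * e0

lemma sz_cN (hK : 1 ≤ K) (h : Sz K r A F l s) (hn : Nr K c B b μ l l' s) (hL : Lvl r A B b μ E) :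
    Bd K (2 + 2 * c) 3 E (F.cN l' s) := by
  obtain ⟨b8, BA, AB, E2⟩ := hL
  have e0 := cN_sub (l := l) (l' := l') (s := s) F
  rw [h.cN] at e0
  have t1 : Bd K 2 3 E (F.ka * (l'.w - l.w)) :=
    (h.ka.mul hn.w).mono hK (by omega) (by omega) (by omega)
  have x1 := hn.N.mono (c' := c) (e' := 0) (n' := A + (B + b - μ - A)) hK
    le_rfl (by omega) (by omega)
  have t2 := (h.al.mulA x1).mono (c' := 2 * c) (e' := 3) (n' := E) hK
    (by omega) (by omega) (by omega)
  refine ((t1.add t2).neg.congr ?_)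
  linear_combination (-1 : ℝ) * e0

lemma sz_cV (hK : 1 ≤ K) (h : Sz K r A F l s) (hn : Nr K c B b μ l l' s) (hL : Lvl r A B b μ E) :
    Bd K (2 + 2 * c) 3 E (F.cV l' s - F.cV l s) := by
  obtain ⟨b8, BA, AB, E2⟩ := hL
  have e0 := cV_sub (l := l) (l' := l') (s := s) F
  have t1 : Bd K 2 3 E (F.ka * (l'.v - l.v)) :=
    (h.ka.mul hn.v).mono hK (by omega) (by omega) (by omega)
  have x1 := hn.X.mono (c' := c) (e' := 0) (n' := A + (B + b - μ - A)) hK
    le_rfl (by omega) (by omega)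
  have t2 := (h.al.mulA x1).mono (c' := 2 * c) (e' := 3) (n' := E) hK
    (by omega) (by omega) (by omega)
  refine ((t1.add t2).congr ?_)
  linear_combination (-1 : ℝ) * e0

end two

end Vale.Agent.P106.U.H683
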