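import Vale.Agent.P106.U.H683.PhiV
import Vale.Agent.P106.U.H624.JunR
import Vale.Agent.P106.U.H495.RowV

/-!
# P106 / U / H683 : the windows of the kind deep phi over the record (helper683), row [LP]

`R` = run, `D = S3.mt0 R F μ o o'` = 785's data of the deep phi regime, cap `b = m b1`.

* `Cq` : the context (run, `F2`, numbers).
* `Wn u0 u1 y` : the record indices `u0 ≤ u1 < y` (start, end, late index) of a window all of whose levels are young and deep phi.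
* `hlt0` : the letter of the start given the cell of a later index;  `levV` : the levels of a step.
* `w_hN`, `w_hA`, `w_hJ`, `w_hΘ`, `w_j1`, `w_j2`, `w_eq`, **`w_step`** : the inputs of 495's `PIn` and the inequality of a step.
-/

set_option autoImplicit false

namespace Vale.Agent.P106.U.H683.WPR

open Finset Vale.Agent.P127 Vale.Agent.P127.Stk
open Vale.Agent.P127.U.CellD (q2 q2_pos q2_le fl1_fl1)
open Vale.Agent.P106.U.Cell Vale.Agent.P106.U.S3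
open Vale.Agent.P106.U.H785.Mtr (Mtd Lt YI hy_mt hy_mt0)
open Vale.Agent.P106.U.H101 (lc low)
open Vale.Agent.P106.U.H683.FzA
open Vale.Agent.P106.U.H683.PhV
open Vale.Agent.P106.U.H958 (HyM tdM)
open Vale.Agent.P106.U.H833 (tdg)

section

variable {Ω : Type} [Fintype Ω] {τ υ π : Type} {R : Run Ω τ υ} {p : Run.Num} {K c' g' gU : ℝ} {B bS bV μ : ℕ}
  {F : Pf R π} {Vs Xs : Finset ℕ} {o : Fin 7 → ℝ} {o' : ℕ → ℝ} {u u0 u1 y b : ℕ}

/-- **context** -/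
structure Cq (R : Run Ω τ υ) (p : Run.Num) (K c' g' gU : ℝ) (B bS bV μ : ℕ) (F : Pf R π) (Vs Xs : Finset ℕ) : Prop where
  ok : R.Ok p K c' g' gU
  f2 : F2 R p K B bS bV F Vs Xs
  K1 : 1 ≤ K
  hB : (100 * K) ^ 20 ≤ (B : ℝ)
  hr : 100 * (R.m * B) ≤ R.r0
  μB : μ ≤ B
  μC : μ ≤ R.C.μ
  b8 : 8 * μ ≤ R.m * R.b1

/-- **record indices of a window** : all levels young, deep phi regime -/
structure Wn (R : Run Ω τ υ) (B μ : ℕ) (F : Pf R π) (Vs : Finset ℕ) (u0 u1 y : ℕ) : Prop where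
  u01 : u0 ≤ u1
  u1y : u1 < y
  yn : y ≤ R.n
  V : ∀ u, u0 ≤ u → u ≤ y → lv R u ∈ Vs
  Ph : ∀ u, u0 ≤ u → u ≤ y → R.C.rf u + 2 * (R.m * B) ≤ R.m * R.b1 + F.rk0 u
  ay : R.C.a u1 + 8 * μ ≤ R.C.a y
  fy : R.C.rf u1 + 8 * μ ≤ R.C.rf y
  tot : R.C.rf y + R.C.a y + 9 * μ ≤ R.C.rf u0 + R.C.a u0 + 2 * (R.m * B)

/-- the precision is large -/
theorem sml {c : ℝ} (hB : (100 * K) ^ 20 ≤ (B : ℝ)) (hc : c ≤ (100 * K) ^ 20) {n : ℕ} (hn : B ≤ n) :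
    c * q2 n ≤ 1 := by
  have e1 : q2 n ≤ q2 B := q2_le hn
  have e2 : (B : ℝ) ≤ 2 ^ B := by
    have : B < 2 ^ B := Nat.lt_two_pow_self
    exact_mod_cast this.le
  have e4 : q2 B * 2 ^ B = 1 := by rw [mul_comm]; exact Vale.Agent.P127.U.CellD.q2_mul_pow B
  calc c * q2 n ≤ 2 ^ B * q2 B :=
        mul_le_mul (hc.trans (hB.trans e2)) e1 (q2_pos n).le (by positivity)
    _ = 1 := by rw [mul_comm]; exact e4

section ctx

variable (H : Cq R p K c' g' gU B bS bV μ F Vs Xs)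

include H

theorem Cq.K4 : 1 ≤ 4 * K := by have := H.K1; linarith

theorem Cq.mB : B ≤ R.m * B := Nat.le_mul_of_pos_left B H.ok.pth.m1

theorem Cq.B1 : 1 ≤ B := by
  have h1 := H.hB
  have : (1 : ℝ) ≤ (100 * K) ^ 20 := one_le_pow₀ (by linarith [H.K1])
  exact_mod_cast this.trans h1

theorem Cq.mle : R.m ≤ R.m * B := Nat.le_mul_of_pos_right _ H.B1

theorem Cq.hy0 (ω : Ω) (hω : 0 < R.Q.w ω) : (mt0 R F μ o o').Hy (4 * K) (YI R p Vs) ω :=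
  hy_mt0 H.ok H.f2 H.K1 H.hB H.hr H.μB H.μC hω H.f2.lo0

theorem Cq.hy1 (ω : Ω) (hω : 0 < R.Q.w ω) : (mt R F μ o o').Hy (4 * K) (YI R p Vs) ω :=
  hy_mt H.ok H.f2 H.K1 H.hB H.hr H.μB H.μC hω

theorem Cq.ok9 (hu : u ∈ YI R p Vs) (ω : Ω) (hω : 0 < R.Q.w ω) : ((mt0 R F μ o o').fz u u).Ok (9 * (4 * K)) ω :=
  okm (Mtd.fzk_ok H.K4 (H.hy0 ω hω) hu) (by linarith [H.K4])

/-- prefix letters -/
theorem Cq.pfm {i j : ℕ} (hij : i ≤ j) (hj : j ≤ R.n) : Stk.Fn R.Q (F.pf i) (F.pf j) := by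
  induction j, hij using Nat.le_induction with
  | base => exact fun _ _ _ _ e => e
  | succ j _ ih =>
    intro ω ω' p1 p2 e
    exact ih (by omega) ω ω' p1 p2 (H.f2.pfH j (by omega) ω ω' p1 p2 e)

/-- **the letter of an earlier young index given the cell** -/
theorem hlt0 (h0 : u0 ∈ YI R p Vs) (h1 : u ∈ YI R p Vs) (hu : u0 ≤ u) (hn : u ≤ R.n) (hb : μ ≤ b) :
    hc R.Q ((mt0 R F μ o o').lt u0) ((mt0 R F μ o o').mtr u b) ≤ cL (4 * K) := by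
  refine le_trans (hc_mono_left R.Q fun ω ω' _ _ e => ?_)
    (hc_lt (D := mt R F μ o o') (K := 4 * K) (I := YI R p Vs) (i := u0) (j := u) R.Q ((mt0 R F μ o o').mtr u b)
      fun ω ω' p1 p2 e => ?_)
  · simp only [Prod.mk.injEq] at e
    exact (H624.lt0_iff ω ω').2 e.1
  · have e1 : (mt R F μ o o').lt u ω = (mt R F μ o o').lt u ω' := (H624.lt0_iff ω ω').1 (congrArg Prod.fst e)
    have e2 : ((mt0 R F μ o o').p1 u).dg 0 b ω = ((mt0 R F μ o o').p1 u).dg 0 b ω' := congrArg Prod.snd e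
    have e3 : F.pf u ω = F.pf u ω' := congrArg (fun x => x.2.1) e1
    exact Sp_of_dg (D := mt R F μ o o') hb H.K4 h0 h1 hu (H.hy1 ω p1) (H.hy1 ω' p2) (H.pfm hu hn ω ω' p1 p2 e3) e1
      (congrFun (congrArg Prod.snd e2) 1) (congrFun (congrArg Prod.snd e2) 2)

variable (W : Wn R B μ F Vs u0 u1 y)

include W

omit H in
theorem Wn.yi (hu : u0 ≤ u) (hy : u ≤ y) : u ∈ YI R p Vs := ⟨by have := W.yn; omega, W.V u hu hy⟩

theorem r8 (u : ℕ) : 8 * μ ≤ R.C.rf u ∧ R.r0 ≤ R.C.rf u := by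
  have h1 := H.hr
  have h2 := H.mB
  have h3 := H.μB
  have h4 : R.r0 ≤ R.C.rf u := by
    have := R.C.hf (Nat.zero_le u)
    rw [H.ok.pth.f0] at this
    exact this
  exact ⟨by omega, h4⟩

/-- levels of the step `u` of the window -/
theorem levV (hu : u0 ≤ u) (hu1 : u + 1 ≤ u1) : LevV (mt0 R F μ o o') u0 u y (R.m * R.b1) := by
  have hP := H.ok.pth
  have h1 := H.hr
  have h2 := H.mB
  have h3 := H.μB
  have h4 := r8 H W u
  have h5 := W.u1y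
  have h6 := W.Ph u0 le_rfl (by have := W.u01; omega)
  have h7 := W.tot
  have h8 := H.f2.lo0 u0
  have h9 := R.C.ha hu
  have h10 := R.C.ha hu1
  have h11 := R.C.hf hu1
  have h12 := W.ay
  have h13 := W.fy
  have h14 := H.mle
  have h15 := hP.stp u (by have := W.yn; omega)
  have h16 := F.l0 (u + 1)
  have h17 := R.C.hkf (u + 1)
  have h18 := R.C.hkf u
  refine ⟨hu, by omega, H.b8, h4.1, ?_, ?_, ?_, ?_, ?_⟩
  · show R.C.a (u + 1) + 8 * μ ≤ R.C.a y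
    omega
  · show R.C.rf (u + 1) + 8 * μ ≤ R.C.rf y
    omega
  · show R.C.rf y + R.C.a y + 8 * μ ≤ R.m * R.b1 + (F.rk0 u0 - μ / 2) + R.C.a u
    omega
  · show F.rk0 (u + 1) - μ / 2 ≤ R.C.rf u
    rcases h15 with h | h | h <;> omega
  · show R.C.a (u + 1) ≤ R.C.a u + (F.rk0 u0 - μ / 2)
    rcases h15 with h | h | h <;> omega

/-- hypotheses of 958's frozen path -/
theorem hym (hu : u0 ≤ u) (hu1 : u + 1 ≤ u1) (ω : Ω) (hω : 0 < R.Q.w ω) :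
    HyM (mt0 R F μ o o') (u + 1) (3 * (4 * K)) ω := by
  have hP := H.ok.pth
  have h5 := W.u1y
  have h15 := hP.stp u (by have := W.yn; omega)
  have h8 := H.f2.lo0 u
  have h1 := H.hr
  have h14 := H.mle
  have h2 := H.mB
  have h8' := H.f2.lo0 (u + 1)
  have h3 := H.μB
  refine H958.HyM_of_Hy H.K4 (H.hy0 ω hω) (W.yi (by omega) (by omega)) ?_ ?_ ?_
  · rw [Nat.add_sub_cancel]
    exact W.yi hu (by omega)
  · rw [Nat.add_sub_cancel]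
    show R.C.a (u + 1) ≤ R.C.a u + F.rk0 u
    rcases h15 with h | h | h <;> omega
  · have e : B ≤ F.rk0 (u + 1) - μ / 2 := by omega
    have e2 : (mt0 R F μ o o').rr (u + 1) = F.rk0 (u + 1) - μ / 2 := rfl
    rw [e2]
    refine sml H.hB ?_ e
    have K1 := H.K1
    have e3 : K ^ 2 ≤ K ^ 20 := pow_le_pow_right₀ K1 (by norm_num)
    have e4 : (100 * K) ^ 20 = 100 ^ 20 * K ^ 20 := by ring
    have e5 : 0 < K ^ 20 := by positivity
    rw [e4]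
    nlinarith

/-- `hN` -/
theorem w_hN (hu : u0 ≤ u) (hu1 : u ≤ u1) :
    hc R.Q ((mt0 R F μ o o').mtr u0 (R.m * R.b1)) ((mt0 R F μ o o').mtr u (R.m * R.b1)) ≤ FzA.cM (4 * K) := by
  have h5 := W.u1y
  have yn := W.yn
  have i0 : u0 ∈ YI R p Vs := W.yi le_rfl (by omega)
  have i1 : u ∈ YI R p Vs := W.yi hu (by omega)
  have h8 := H.f2.lo0 u0
  have h4 := r8 H W u0
  have h1 := H.hr
  have h2 := H.mB
  have h3 := H.μB
  refine hc_mtr (D := mt0 R F μ o o') R.Q H.K4 (fun ω hω => H.hy0 ω hω) i0 i1 hu H.b8 ?_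
    (hlt0 H i0 i1 hu (by omega) (by have := H.b8; omega))
  show 8 * μ ≤ min (F.rk0 u0 - μ / 2 + R.m * R.b1) (R.C.rf u0)
  omega

/-- the thickness is below the cap -/
theorem w_d (hy : u ≤ y) : R.C.rf u ≤ R.m * R.b1 + (F.rk0 u0 - μ / 2) := by
  have h6 := W.Ph u0 le_rfl (by have := W.u01; have := W.u1y; omega)
  have h7 := W.tot
  have h8 := H.f2.lo0 u0
  have h9 := R.C.ha (show u0 ≤ y by have := W.u01; have := W.u1y; omega)
  have h10 := R.C.hf hy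
  have h1 := H.hr
  have h2 := H.mB
  have h3 := H.μB
  omega

/-- `hA` -/
theorem w_hA (hu : u0 ≤ u) (hu1 : u + 1 ≤ y) :
    hc R.Q (Aw (mt0 R F μ o o') u0 (R.m * R.b1) y u)
      (fun ω => (Aw (mt0 R F μ o o') u0 (R.m * R.b1) y (u + 1) ω, ThV (mt0 R F μ o o') u0 (R.m * R.b1) y ω)) ≤
      cF9 (4 * K) := by
  have h5 := W.u1y
  have h6 := W.u01
  exact aw_cha (D := mt0 R F μ o o') R.Q H.K4 (fun ω hω => H.ok9 (W.yi le_rfl (by omega)) ω hω) hu hu1 H.b8 (r8 H W u).1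
    (w_d H W (by omega)) _ fun _ _ _ _ e => congrArg Prod.fst e

/-- `hJ` -/
theorem w_hJ : hc R.Q (Aw (mt0 R F μ o o') u0 (R.m * R.b1) y u1)
      (fun ω => (ThV (mt0 R F μ o o') u0 (R.m * R.b1) y ω, (mt0 R F μ o o').mtr u1 (R.m * R.b1) ω)) ≤
      cJ9 (4 * K) μ := by
  have h5 := W.u1y
  have h6 := W.u01
  have yn := W.yn
  have i0 : u0 ∈ YI R p Vs := W.yi le_rfl (by omega)
  have i1 : u1 ∈ YI R p Vs := W.yi h6 (by omega)
  exact aw_ju (D := mt0 R F μ o o') R.Q H.K4 (fun ω hω => H.hy0 ω hω) i0 i1 (fun ω hω => H.ok9 i0 ω hω)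
    (fun ω hω => H.ok9 i1 ω hω) h6 h5.le H.b8 (r8 H W u1).1 (w_d H W (by omega))
    (hlt0 H i0 i1 h6 (by omega) (by have := H.b8; omega)) _ fun _ _ _ _ e => congrArg Prod.fst e

omit W in
/-- `hj1` -/
theorem w_j1 (hV : u ∈ YI R p Vs) (hn : u ≤ R.n) (hR0 : R.C.rf u + 2 * (R.m * B) ≤ R.m * R.b1 + F.rk0 u) :
    hc R.Q ((low R μ o).C.cell u (R.m * R.b1)) ((mt0 R F μ o o').mtr u (R.m * R.b1)) ≤
      27 * μ * Real.log 2 + H624.cJ K + hc R.Q (R.C.T u) ((mt R F μ o o').lt u) :=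
  H624.cell_mtr0 H.ok H.f2 H.K1 H.hB H.hr H.μB H.μC hV hn H.b8 hR0

omit W in
/-- `hj2` -/
theorem w_j2 (hV : u ∈ YI R p Vs) (hn : u ≤ R.n) (hR0 : R.C.rf u + 2 * (R.m * B) ≤ R.m * R.b1 + F.rk0 u) :
    hc R.Q ((mt0 R F μ o o').mtr u (R.m * R.b1)) ((low R μ o).C.cell u (R.m * R.b1)) ≤
      18 * μ * Real.log 2 + H624.cJ K + H624.cT (4 * K) :=
  H624.mtr0_cell H.ok H.f2 H.K1 H.hB H.hr H.μB H.μC hV hn (H.f2.pfT u (by omega)) H.b8 hR0

omit H W in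
/-- `hΘ` -/
theorem w_hΘ : Stk.Fn R.Q (tdg (low R μ o).C y) (ThV (mt0 R F μ o o') u0 (R.m * R.b1) y) :=
  fun _ _ _ _ e => congrArg Prod.fst e

omit H W in
/-- `hAA` -/
theorem w_eq {v : ℕ} (hu : u0 ≤ u) (hv : u0 ≤ v) (ha : R.C.a u = R.C.a v) (hf : R.C.rf u = R.C.rf v) :
    Aw (mt0 R F μ o o') u0 (R.m * R.b1) y u = Aw (mt0 R F μ o o') u0 (R.m * R.b1) y v := aw_eq hu hv ha hf

/-- **the step** -/
theorem w_step {c : ℕ} (hc : H833.PhiC c) {c0 g pv b' : ℕ} (hu : u0 ≤ u) (hu1 : u + 1 ≤ u1)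
    (adv : (R.C.a (u + 1) = R.C.a u + R.m ∧ R.C.rf (u + 1) = R.C.rf u) ∨
      (R.C.a (u + 1) = R.C.a u ∧ R.C.rf (u + 1) = R.C.rf u + R.m))
    (hbb : R.m * R.b1 + 8 * μ ≤ b') (hp : μ ≤ pv) (hbp : R.m * R.b1 + pv ≤ b') (hK0 : 72 * K ≤ 2 ^ c0)
    (mg : R.m ≤ g) (hμ : c * (g + c0 + 1) ≤ μ) :
    (3 * ((R.C.a (u + 1) : ℝ) - R.C.a u) + ((R.C.rf (u + 1) : ℝ) - R.C.rf u)) * Real.log 2 -
      (c * (c0 + 1) + c * R.m * colV R.Q (mt0 R F μ o o') (R.m * R.b1) g (u + 1) + (2 : ℝ) ^ (c * (g + c0 + 1)) *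
        (Real.sqrt (H833.I1N R.Q ((mt0 R F μ o o').fz (u + 1) (u + 1)) (R.m * R.b1) pv u y) +
          Real.sqrt (H833.I2N R.Q ((mt0 R F μ o o').fz (u + 1) (u + 1)) (R.m * R.b1) b' u y)) + cW9 (4 * K)) ≤
    Stk.hc R.Q (Aw (mt0 R F μ o o') u0 (R.m * R.b1) y (u + 1)) (fun ω => (Aw (mt0 R F μ o o') u0 (R.m * R.b1) y u ω,
      ((mt0 R F μ o o').mtr (u + 1) (R.m * R.b1) ω, ThV (mt0 R F μ o o') u0 (R.m * R.b1) y ω))) := by
  have h5 := W.u1y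
  have h6 := W.u01
  have yn := W.yn
  have i0 : u0 ∈ YI R p Vs := W.yi le_rfl (by omega)
  have i1 : u + 1 ∈ YI R p Vs := W.yi (by omega) (by omega)
  exact phiV_step (D := mt0 R F μ o o') (phiM_of hc) R.Q H.K4 (fun ω hω => H.hy0 ω hω) i0 i1
    (fun ω hω => hym H W hu hu1 ω hω) (levV H W hu hu1) (hlt0 H i0 i1 (by omega) (by omega) (by have := H.b8; omega))
    adv hbb hp hbp (by linarith) H.ok.pth.m1 mg hμ

end ctx

end

end Vale.Agent.P106.U.H683.WPR
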